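import Vale.Agent.P354n.Defs

/-!
Block B7: the input. Coordinates are (u, v, theta1, theta2).
-/

open scoped ContDiff
open MeasureTheory Set Filter Topology

namespace Vale.Agent.P354L

open Vale.Agent.P354n (R4 cu cv du dv form Spc On tgt co)

/-- The angular coordinate vectors. -/
def d1 : R4 := (0, 0, 1, 0)
def d2 : R4 := (0, 0, 0, 1)

/-- The exchange of u and v. -/
def sw (x : R4) : R4 := (x.2.1, x.1, x.2.2)

/-- A list of directions, each with the weight which a derivative in this direction gains. -/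
abbrev Lev : Type := List (R4 × (R4 → ℝ))

/-- The angular directions; all directions. -/
def ang : Lev := [(d1, 1), (d2, 1)]
def all : Lev := [(du, 1), (dv, 1), (d1, 1), (d2, 1)]

section
variable {E : Type} [NormedAddCommGroup E] [NormedSpace ℝ E]

/-- The derivative in the direction a. -/
noncomputable def D (a : R4) (f : R4 → E) (x : R4) : E := fderiv ℝ f x a

/-- The derivative along the vector field l. -/
noncomputable def DL (l : R4 → R4) (f : R4 → E) (x : R4) : E := fderiv ℝ f x (l x)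

/-- f is smooth at the points of Q and bounded by a constant times w, and so are the derivatives
which take at most one direction from each level of the list, with the product of the weights. -/
def W (Q : Set R4) : List Lev → (R4 → E) → (R4 → ℝ) → Prop
  | [], f, w => (∀ x ∈ Q, ContDiffAt ℝ ∞ f x) ∧ ∃ K, ∀ x ∈ Q, ‖f x‖ ≤ K * |w x|
  | S :: L, f, w => W Q L f w ∧ ∀ q ∈ S, W Q L (D q.1 f) (w * q.2)

/-- f and its angular derivatives of order at most n are bounded by a constant times w on Q. -/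
def Sy (Q : Set R4) (n : ℕ) (f : R4 → E) (w : R4 → ℝ) : Prop := W Q (List.replicate n ang) f w

end

/-- The quadrant u > u1, v > v1 over the angular domain Θ. -/
def Qd (u1 v1 : ℝ) (Θ : Set (ℝ × ℝ)) : Set R4 := {x | u1 < cu x ∧ v1 < cv x ∧ x.2.2 ∈ Θ}

/-- The outgoing null vector with v component 1. -/
def lv (C : ℕ → R4 → ℝ) (x : R4) : R4 := (0, 1, C 4 x, C 5 x)

/-- The coefficients of the Lie derivative of the angular metric along lv. -/
noncomputable def chi (C : ℕ → R4 → ℝ) : ℕ → R4 → ℝ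
  | 0, x => DL (lv C) (C 0) x + 2 * C 0 x * D d1 (C 4) x + C 1 x * D d1 (C 5) x
  | 1, x => DL (lv C) (C 1) x + C 1 x * (D d1 (C 4) x + D d2 (C 5) x) +
      2 * C 2 x * D d1 (C 5) x + 2 * C 0 x * D d2 (C 4) x
  | _, x => DL (lv C) (C 2) x + C 1 x * D d2 (C 4) x + 2 * C 2 x * D d2 (C 5) x

/-- The weight k. -/
structure Wt (κ : ℝ) (k : ℝ → ℝ) : Prop where
  pos : 0 < κ
  cont : Continuous k
  low : ∀ t, Real.exp (-(κ * t)) ≤ k t
  int : ∀ t, IntegrableOn k (Ioi t)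
  bdd : ∀ t, ∃ B, ∀ s, t ≤ s → k s ≤ B

/-- The estimates for the coefficients of the metric on Q. -/
structure Est (κ : ℝ) (k : ℝ → ℝ) (Q : Set R4) (C : ℕ → R4 → ℝ) : Prop where
  gam : ∀ i < 3, Sy Q 2 (C i) 1 ∧ Sy Q 1 (D du (C i)) (fun x => k (cu x)) ∧
    Sy Q 1 (D dv (C i)) (fun x => k (cv x)) ∧ Sy Q 0 (D du (D dv (C i))) (fun x => k (cu x)) ∧
    Sy Q 0 (D du (D dv (C i))) (fun x => k (cv x))
  om : ∀ om, om = (fun x => C 3 x * Real.exp (κ * (cu x + cv x))) →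
    Sy Q 1 om 1 ∧ Sy Q 0 (D du om) (fun x => k (cu x)) ∧ Sy Q 0 (D dv om) (fun x => k (cv x))
  low : ∃ K, 0 ≤ K ∧ ∀ x ∈ Q, 1 ≤ K * (C 3 x * Real.exp (κ * (cu x + cv x))) ∧
    ∀ a, cu a = 0 → cv a = 0 → ‖a‖ ^ 2 ≤ K * form C x a
  sh : ∀ i, i = 4 ∨ i = 5 → Sy Q 3 (C i) (fun x => k (cv x)) ∧
    Sy Q 2 (D du (C i)) (fun x => Real.exp (-(κ * (cu x + cv x)))) ∧ Sy Q 0 (D dv (C i)) 1

/-- In every box about (p, θ), for arbitrarily large t, the function F is larger than exp (-c v) on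
a part of t < v < t + 1 whose measure is bounded below. -/
def BU (c : ℝ) (Θ : Set (ℝ × ℝ)) (F : R4 → ℝ) : Prop :=
  ∀ p : ℝ, ∀ θ ∈ Θ, ∀ r > 0, ∃ η > 0, ∀ t0 : ℝ, ∃ t, t0 ≤ t ∧ η ≤ volume {x : R4 |
    |cu x - p| < r ∧ cv x ∈ Ioo t (t + 1) ∧ ‖x.2.2 - θ‖ < r ∧ Real.exp (-(c * cv x)) < F x}

section
variable {E : Type} [NormedAddCommGroup E] [NormedSpace ℝ E]

/-- al is dominated by the functions χ; al, its derivative along l and their first derivatives are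
bounded. -/
structure Dom (Q : Set R4) (l : R4 → R4) (χ : ℕ → R4 → ℝ) (al : R4 → E) : Prop where
  le : ∃ K, ∀ x ∈ Q, ‖al x‖ ≤ K * (|χ 0 x| + |χ 1 x| + |χ 2 x|)
  b0 : W Q [all] al 1
  b1 : W Q [all] (DL l al) 1

/-- The analytic input in one chart: al and be are the null second fundamental forms in a frame. -/
structure Ana (δ κ : ℝ) (k : ℝ → ℝ) (Θ : Set (ℝ × ℝ)) (C : ℕ → R4 → ℝ) (al be : R4 → E) : Prop where
  est : ∀ u1 v1, -δ < u1 + v1 → Est κ k (Qd u1 v1 Θ) C ∧ Dom (Qd u1 v1 Θ) (lv C) (chi C) al ∧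
    Dom (Qd u1 v1 Θ) (fun _ => du) (fun i => D du (C i)) be
  right : BU (κ / 8) Θ fun x => ‖al x‖ + ‖DL (lv C) al x‖
  left : BU (κ / 8) Θ fun x => ‖be (sw x)‖ + ‖D du be (sw x)‖

end

/-- The atlas of M is closed under composition with smooth local diffeomorphisms. -/
def Sat (M : Spc) : Prop :=
  ∀ (e : M.Chart) (ξ : OpenPartialHomeomorph R4 R4), ξ.source ⊆ tgt e →
    ContDiffOn ℝ ∞ ξ ξ.source → ContDiffOn ℝ ∞ ξ.symm ξ.target →
    ∃ e' : M.Chart, ∀ p, On e p → co e p ∈ ξ.source → On e' p ∧ co e' p = ξ (co e p)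

/-- The two double null charts of M. -/
structure Base (M : Spc) (u v : M.pt → ℝ) (e : Bool → M.Chart) (C : Bool → ℕ → R4 → ℝ) (δ : ℝ)
    (Θ0 Θ : Set (ℝ × ℝ)) : Prop where
  cpt : IsCompact Θ0
  opn : IsOpen Θ
  sub : Θ0 ⊆ Θ
  cover : ∀ p, ∃ σ, On (e σ) p ∧ (co (e σ) p).2.2 ∈ Θ0
  uv : ∀ σ p, On (e σ) p → cu (co (e σ) p) = u p ∧ cv (co (e σ) p) = v p
  dom : ∀ p, -δ < u p + v p
  met : ∀ σ x, -δ < cu x + cv x → x.2.2 ∈ Θ → x ∈ tgt (e σ) ∧
    (∀ a, M.g (e σ) x a a = form (C σ) x a) ∧ 0 < cv (M.X (e σ) x) ∧ C σ 6 x = 0 ∧ C σ 7 x = 0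

/-- The statement of block B7. -/
def B7 : Prop :=
  ∀ (Reg : (R4 → ℝ) → Set R4 → Prop) (M : Spc) (u v : M.pt → ℝ) (e : Bool → M.Chart)
    (C : Bool → ℕ → R4 → ℝ) (δ κ : ℝ) (k : ℝ → ℝ) (Θ0 Θ : Set (ℝ × ℝ))
    (E : Type) [NormedAddCommGroup E] [NormedSpace ℝ E] (al be : Bool → R4 → E),
    P354n.IsSpacetime Reg M → Sat M → Base M u v e C δ Θ0 Θ → Wt κ k →
    (∀ σ, Ana δ κ k Θ (C σ) (al σ) (be σ)) → P354n.AllEnd 2 M

end Vale.Agent.P354L
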