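import Vale.Agent.P354L.Ret
import Vale.Agent.P354LM.Main

/-!
Block B7.
-/

open scoped ContDiff
open MeasureTheory Set Filter Topology

namespace Vale.Agent.P354L

open Vale.Agent.P354n (R4 cu cv c1 c2 du dv form h1 h2 Spc On tgt co inv IsSpacetime IsFutureCurve
  EndsAtFront EndsAtCorner)

variable {Reg : (R4 → ℝ) → Set R4 → Prop} {M : Spc} {e e' : M.Chart} {C : ℕ → R4 → ℝ}
  {Q : Set R4} {x : R4} {a : ℝ → M.pt} {K κ s u1 v1 u2 v2 v0 ε : ℝ} {k P : ℝ → ℝ}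
  {Θ : Set (ℝ × ℝ)} {θ : ℝ × ℝ} {β β0 Φ Y : R4 → ℝ × ℝ}
  {E : Type} [NormedAddCommGroup E] [NormedSpace ℝ E] {al : R4 → E}

lemma Est.sv (h : Est κ k Q C) : Sy Q 3 (sv C) (kv k) ∧ Sy Q 2 (D du (sv C)) (ex κ) ∧
    Sy Q 0 (D dv (sv C)) 1 := by
  obtain ⟨a1, a2, a3⟩ := h.sh 4 (.inl rfl)
  obtain ⟨b1, b2, b3⟩ := h.sh 5 (.inr rfl)
  have e : ∀ a, ∀ x ∈ Q, D a (P354L.sv C) =ᶠ[𝓝 x] fun y => (D a (C 4) y, D a (C 5) y) :=
    fun a x hx => by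
      filter_upwards [ev_dif (W.sm a1 x hx), ev_dif (W.sm b1 x hx)] with y y1 y2
      exact congrArg (fun B : R4 →L[ℝ] ℝ × ℝ => B a) (y1.hasFDerivAt.prodMk y2.hasFDerivAt).fderiv
  exact ⟨W.pair a1 b1, (W.pair a2 b2).congr (e du), (W.pair a3 b3).congr (e dv)⟩

/-- The projection to the hypersurface u = u0. -/
def pj (u0 : ℝ) (x : R4) : R4 := (u0, x.2)

lemma pj_sm (u0 : ℝ) : ContDiff ℝ ∞ (pj u0) := by unfold pj; fun_prop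

lemma fderiv_pj (u0 : ℝ) (x a : R4) : fderiv ℝ (pj u0) x a = (0, a.2) :=
  congrArg (fun B : R4 →L[ℝ] R4 => B a)
    ((hasFDerivAt_const u0 x).prodMk (hasFDerivAt_snd (𝕜 := ℝ) (p := x))).fderiv

lemma betaA (hk : Wt κ k) (hP : Pr k P) (h : Est κ k (Qd u1 v1 Θ) C) (hu : u1 < u2) (hv : v1 < v2) :
    Sy (Qd u1 v1 Θ) 3 (fun x => sv C (pj u2 x)) (kv k) ∧
    (∀ x ∈ Qd u1 v1 Θ, D du (fun x => sv C (pj u2 x)) =ᶠ[𝓝 x] fun _ => 0) ∧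
    Sy (Qd u1 v1 Θ) 0 (D dv fun x => sv C (pj u2 x)) 1 ∧
    T1 (Qd u2 v2 Θ) du (eu κ) 0 (fun x => sv C x - sv C (pj u2 x)) (ev κ) := by
  obtain ⟨s1, s2, s3⟩ := h.sv
  have m : ∀ x ∈ Qd u1 v1 Θ, pj u2 x ∈ Qd u1 v1 Θ := fun x hx => ⟨hu, hx.2⟩
  have f : ∀ x a, a = d1 ∨ a = d2 → fderiv ℝ (pj u2) x a = a := fun x a ha => by
    rw [fderiv_pj]
    rcases ha with rfl | rfl <;> rfl
  have e : ∀ a, ∀ x ∈ Qd u1 v1 Θ, D a (fun x => sv C (pj u2 x)) =ᶠ[𝓝 x]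
      fun y => D (0, a.2) (sv C) (pj u2 y) := fun a x hx =>
    ((pj_sm u2).continuous.continuousAt.eventually (ev_dif (W.sm s1 _ (m x hx)))).mono fun y hy => by
      rw [D_comp a hy (dif (pj_sm u2).contDiffAt), fderiv_pj]
  have e0 : ∀ x ∈ Qd u1 v1 Θ, D du (fun x => sv C (pj u2 x)) =ᶠ[𝓝 x] fun _ => 0 := fun x hx =>
    (e du x hx).mono fun y hy => hy.trans (map_zero _)
  have b := s1.comp0 (pj_sm u2) m f
  have e1 : ∀ x ∈ Qd u1 v1 Θ, D du (fun x => sv C x - sv C (pj u2 x)) =ᶠ[𝓝 x] D du (sv C) :=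
    fun x hx => by
      filter_upwards [e0 x hx, ev_dif (W.sm s1 x hx), ev_dif (W.sm b x hx)] with y y1 y2 y3
      rw [D_sub du y2 y3, y1, sub_zero]
  have q1 : {x | x ∈ Qd u1 v1 Θ ∧ u2 ≤ cu x} ⊆ Qd u1 v1 Θ := fun x hx => hx.1
  have q2 : Qd u2 v2 Θ ⊆ {x | x ∈ Qd u1 v1 Θ ∧ u2 ≤ cu x} := fun x hx =>
    ⟨⟨hu.trans hx.1, hv.trans hx.2.1, hx.2.2⟩, hx.1.le⟩
  have sm := fun x hx => (W.sm s1 x (q1 hx)).sub (W.sm b x (q1 hx))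
  have b3 := s3.comp0 (pj_sm u2) m f
  refine ⟨b, e0, W.congr b3 (e dv), t1_iff.2 ⟨W.on (lin (t := tu) (t0 := u2)
    (a := du) (M := fun _ => 0) (g := D du (sv C)) hP rfl (fun x hx => ⟨hx.2, fun s hs => ?_⟩)
    (fun _ => Real.exp_pos _) (fun x s => by simp [ev, cv, du]) sm
    (fun x hx => (e1 x hx.1).mono fun y hy => by simpa using hy) W.zero
    ((W.on s2.low q1).mono 1 fun x _ => ?_) (Van.sy (t := tu) (t0 := u2) (fun x hx => ⟨sm x hx.1,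
      .of_forall fun y hy => ?_⟩) rfl rfl fun x hx => hx.2)) q2,
    ((W.on s2.low.low (q2.trans q1)).congr fun x hx => e1 x (q1 (q2 hx))).le le_ex⟩⟩
  · have : (x + (s - tu x) • du).1 = s := by simp [tu, du]
    exact ⟨⟨hu.trans_le (hs.1.trans this.ge), by simpa [cv, du] using hx.1.2.1,
      by simpa [du, Prod.mk_zero_zero] using hx.1.2.2⟩, hs.1.trans this.ge⟩
  · rw [ex_eq, one_mul, mul_comm, abs_mul, abs_mul, abs_of_pos (Real.exp_pos _),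
      abs_of_pos (hk.kpos _)]
    exact mul_le_mul_of_nonneg_right (hk.low _) (abs_nonneg _)
  · rw [show pj u2 y = y from Prod.ext hy.symm rfl, sub_self]

lemma FE.const (hk : Wt κ k) (h : Fl β v0 Φ Y) (F : FE κ k (Rg u2 v0) β Φ) :
    ∀ᶠ K in atTop, (∀ t, v0 < t → k t ≤ K) ∧ (∀ t, u2 < t → k t ≤ K) ∧ ∀ x ∈ Rg u2 v0,
      (‖D du Φ x‖ ≤ K ∧ ‖D du Φ x‖ ≤ K * eu κ x ∧ ‖D du Φ x‖ ≤ K * ku k x) ∧
      (‖D dv Φ x‖ ≤ K ∧ ‖D dv Φ x‖ ≤ K * kv k x) ∧ ‖D d1 Φ x‖ ≤ K ∧ ‖D d2 Φ x‖ ≤ K ∧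
      ∀ a : R4, cu a = 0 → cv a = 0 → ‖a‖ ≤ K * ‖fderiv ℝ (sh Φ) x a‖ := by
  obtain ⟨B, hB⟩ := hk.bdd v0
  obtain ⟨B', hB'⟩ := hk.bdd u2
  obtain ⟨K, -, hK⟩ := low_new h F
  filter_upwards [eventually_ge_atTop B, eventually_ge_atTop B', eventually_ge_atTop K,
    (W.le F.N ((hk.le cu).trans (hk.le1 fun x hx => hx.1.le))).ev, W.ev F.N,
    (W.le F.N (hk.le cu)).ev, (W.le F.V (hk.le1 fun x hx => hx.2)).ev, W.ev F.V,
    W.ev (F.A _ (.inl rfl)), W.ev (F.A _ (.inr rfl))] with K' b1 b2 b3 c1 c2 c3 c4 c5 c6 c7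
  simp only [Pi.one_apply, abs_one, mul_one, abs_of_pos (hk.kpos _), abs_of_pos (Real.exp_pos _)]
    at c1 c2 c3 c4 c5 c6 c7
  exact ⟨fun t ht => (hB t ht.le).trans b1, fun t ht => (hB' t ht.le).trans b2, fun x hx =>
    ⟨⟨c1 x hx, c2 x hx, c3 x hx⟩, ⟨c4 x hx, c5 x hx⟩, c6 x hx, c7 x hx, fun a a1 a2 =>
      (hK x hx a a1 a2).trans (mul_le_mul_of_nonneg_right b3 (norm_nonneg _))⟩⟩

lemma Dom.cont {l : R4 → R4} {χ : ℕ → R4 → ℝ} (h : Dom Q l χ al) (hx : x ∈ Q) :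
    ContinuousAt (fun x => ‖al x‖ + ‖DL l al x‖) x :=
  (h.b0.sm x hx).continuousAt.norm.add (h.b1.sm x hx).continuousAt.norm

lemma Dom.on {l : R4 → R4} {χ : ℕ → R4 → ℝ} {Q' : Set R4} (h : Dom Q l χ al) (e : Q' ⊆ Q) :
    Dom Q' l χ al := ⟨h.le.imp fun _ hK x hx => hK x (e hx), h.b0.on e, h.b1.on e⟩

lemma s3_ev {f g : ℕ → R4 → ℝ} {w : R4 → ℝ} (h : ∀ i < 3, W Q [] (g i) (s3 f w)) (hw : ∀ x, 0 < w x) :
    ∀ᶠ K in atTop, ∀ x ∈ Q, ∀ i < 3, |g i x| ≤ K * (|f 0 x| + |f 1 x| + |f 2 x| + w x) :=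
  ((eventually_all_finset (Finset.range 3)).2 fun i hi => (h i (Finset.mem_range.1 hi)).ev).mono
    fun K hK x hx i hi => (hK i (Finset.mem_range.2 hi) x hx).trans_eq (by
      rw [s3, abs_of_nonneg (by positivity), abs_of_pos (hw x)])

lemma hasDerivAt_sh (h : ContDiff ℝ ∞ Φ) (a x : R4) (t : ℝ) :
    HasDerivAt (fun s : ℝ => sh Φ (x + s • a)) (a.1, a.2.1, a.2.2 + D a Φ (x + t • a)) t := by
  have := hasDerivAt_D (f := sh Φ) a x 0 t (dif (sh_sm h.contDiffAt))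
  simp only [sub_zero] at this
  rwa [D, fderiv_sh (dif h.contDiffAt)] at this

section
variable (hM : IsSpacetime Reg M) (hS : Sat M) (hk : Wt κ k) (hP : Pr k P)
  (h : Ch M e C (Qd u1 v1 Θ)) (hE : Est κ k (Qd u1 v1 Θ) C)
  (h67 : ∀ x ∈ Qd u1 v1 Θ, C 6 x = 0 ∧ C 7 x = 0) (hΘ : IsOpen Θ) (hθ : θ ∈ Θ) (hu : u1 < u2)
  (hv : v1 < v2) (ha : IsFutureCurve M 0 (Ico 0 1) a) (a1 : ∀ᶠ t in 𝓝[<] 1, On e (a t))
  (a4 : Tendsto (fun t => (co e (a t)).2.2) (𝓝[<] 1) (𝓝 θ))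
include hM hS hk hP h hE h67 hΘ hθ hu hv ha a1 a4

/-- The chart for v → ∞. -/
lemma chartA (a2 : ∀ᶠ t in 𝓝[<] 1, u2 < cu (co e (a t)))
    (a2' : ∃ l, Tendsto (fun t => P (cu (co e (a t)))) (𝓝[<] 1) (𝓝 l))
    (a3 : Tendsto (fun t => cv (co e (a t))) (𝓝[<] 1) atTop) :
    ∃ v0 r y β Φ Y e1 Q, 0 < r ∧ Fl β v0 Φ Y ∧ FE κ k (Rg u2 v0) β Φ ∧
      (∀ x ∈ Q, x ∈ Rg u2 v0 ∧ sh Φ x ∈ Qd u2 v2 Θ ∧ β (sh Φ x) = sv C (pj u2 (sh Φ x))) ∧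
      Ch M e1 (newC C Φ) Q ∧ NB κ k Q (newC C Φ) ∧ FR κ k Q C Φ ∧ (∀ x ∈ Q, D du Φ x = 0) ∧
      (∀ x, u2 < cu x → v0 < cv x → ‖x.2.2 - y‖ < r → x ∈ Q) ∧ Rel e e1 (sh Φ) Q ∧
      Tendsto (fun t => (co e1 (a t)).2.2) (𝓝[<] 1) (𝓝 y) ∧ ∀ᶠ t in 𝓝[<] 1, On e1 (a t) ∧
        cu (co e1 (a t)) = cu (co e (a t)) ∧ cv (co e1 (a t)) = cv (co e (a t)) := by
  obtain ⟨b1, b2, b3, b4⟩ := betaA hk hP hE hu hv
  obtain ⟨ε, ε0, K, K0, hF⟩ := flow_chart hM hS hk hP h hE h67 hΘ hθ hu hv b1 (W.zero.congr b2) b3 b4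
  have t : Tendsto (fun v => -(K * P v)) atTop (𝓝 0) := by simpa using (hP.lim.const_mul K).neg
  obtain ⟨v0, k1, k2⟩ := ((t.eventually (gt_mem_nhds (show 0 < ε / 4 by positivity))).and
    (eventually_gt_atTop v2)).exists
  have k3 : ∀ v, K * (P v - P v0) < ε / 4 := fun v => by nlinarith [mul_nonneg K0 (neg_nonneg.2 (hP.neg v))]
  obtain ⟨β, Φ, Y, e1, F, fe, m, ch, N, R, rel, z, hc⟩ := hF v0 k2
  obtain ⟨l, hl⟩ := a2'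
  obtain ⟨y, y1, y2, y3⟩ := hc a ha (by
    filter_upwards [a1, a2, a3.eventually (eventually_gt_atTop v0)] with t t1 t2 t3
      using ⟨t1, t2, t3, k3 _⟩) a4 ⟨_, hl.add (hP.lim.comp a3)⟩
  exact ⟨v0, ε / 4, y, β, Φ, Y, e1, _, by positivity, F, fe, fun x hx => ⟨⟨hx.1, hx.2.1.le⟩,
    (m x hx).1, (m x hx).2.self_of_nhds⟩, ch, N, R,
    fun x hx => z (fun x hx => (b2 x hx).self_of_nhds) x ⟨hx.1, hx.2.1.le⟩,
    fun x x1 x2 x3 => ⟨x1, x2, k3 _, (norm_sub_le_norm_sub_add_norm_sub _ y _).trans_lt (by linarith)⟩,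
    rel, y2, y3.mono fun t ht => ⟨ht.1, ht.2.2⟩⟩

theorem frontA (hD : Dom (Qd u1 v1 Θ) (lv C) (chi C) al)
    (hB : BU (κ / 8) Θ fun x => ‖al x‖ + ‖DL (lv C) al x‖) {p : ℝ} (hp : u2 < p)
    (a2 : Tendsto (fun t => cu (co e (a t))) (𝓝[<] 1) (𝓝 p))
    (a3 : Tendsto (fun t => cv (co e (a t))) (𝓝[<] 1) atTop) : EndsAtFront 2 M a := by
  obtain ⟨v0, r, y, β, Φ, Y, e1, Q, r0, F, fe, m, ch, N, R, z, hQ, -, y2, y3⟩ := chartA hM hS hk hP h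
    hE h67 hΘ hθ hu hv ha a1 a4 (a2.eventually (lt_mem_nhds hp)) ⟨_, (hP.cont.tendsto p).comp a2⟩ a3
  obtain ⟨-, -, -, b4⟩ := betaA hk hP hE hu hv
  have sub : Qd u2 v2 Θ ⊆ Qd u1 v1 Θ := fun x hx => ⟨hu.trans hx.1, hv.trans hx.2.1, hx.2.2⟩
  have hb : Bx p v0 (min r (p - u2)) y ⊆ Q := fun x hx => hQ x
    (by linarith [(abs_lt.1 (hx.1.trans_le (min_le_right _ _))).1]) hx.2.1
    (hx.2.2.trans_le (min_le_left _ _))
  obtain ⟨K, ⟨⟨k1, -, k2⟩, k3⟩, k4, k5⟩ := (((fe.const hk F).and (s3_ev R.cv fun _ =>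
    Real.exp_pos _)).and ((W.ev b4).and (eventually_ge_atTop 1))).exists
  refine front hM hS hk ch N (fun x hx => by simp [newC, iv, z x hx]) R.v (lt_min r0 (sub_pos.2 hp))
    hb (fun p' y' r' s0 s1 s2 h0 => ?_) (y3.mono fun t ht => ht.1)
    (a2.congr' (y3.mono fun t ht => ht.2.1.symm)) (a3.congr' (y3.mono fun t ht => ht.2.2.symm)) y2
  refine P354LM.meas (κ / 8) K u2 v0 Θ _ Φ Y k P hB hP F.sΦ F.sY F.left F.right k1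
    (fun x x1 x2 => have := k2 x ⟨x1, x2.le⟩; ⟨this.1.1, this.2.1.2, this.2.2⟩) p' r' y' s0
    (by linarith [min_le_right r (p - u2)]) (fun x x1 x2 x3 =>
      have := (m x (hb (s1 ⟨x1, x2, x3⟩))).2.1
      ⟨this.2.2, hD.cont (sub this)⟩) (measure_mono_null (fun x hx => ?_) h0)
  refine ⟨hx.1, hx.2.1, hx.2.2.1, ?_⟩
  rintro ⟨q1, hq⟩
  have e : ∀ t : ℝ, ((cu x, 0, x.2.2) : R4) + t • dv = (cu x, t, x.2.2) := fun t => by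
    simp [dv, Prod.mk_zero_zero]
  refine hx.2.2.2 (line_ok (K := K) (t0 := v0) (c := fun t => sh Φ (cu x, t, x.2.2))
    (c' := fun t => (0, 1, D dv Φ (cu x, t, x.2.2))) hk.pos hD (fun t ht => ?_) hq)
  have q : ((cu x, t, x.2.2) : R4) ∈ Q := hb (s1 ⟨hx.1, ht, hx.2.2.1⟩)
  obtain ⟨m1, m2, m3⟩ := m _ q
  refine ⟨by simpa [e, dv, Prod.mk_zero_zero] using hasDerivAt_sh F.sΦ dv (cu x, 0, x.2.2) t, sub m2,
    norm_prod_le_iff.2 ⟨by simp; linarith, norm_prod_le_iff.2 ⟨by simpa, (k2 _ m1).2.1.1⟩⟩, ?_,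
    k3 _ q⟩
  have := k4 _ m2
  rw [abs_of_pos (Real.exp_pos _), norm_sub_rev] at this
  rw [F.der, m3]
  exact le_of_eq_of_le (by simp [lv, sv, Prod.norm_def]) this

theorem frontB (hD : Dom (Qd u1 v1 Θ) (fun _ => du) (fun i => D du (C i)) al)
    (hB : BU (κ / 8) Θ fun x => ‖al (sw x)‖ + ‖D du al (sw x)‖) {q : ℝ} (hq : v2 < q)
    (a2 : Tendsto (fun t => cu (co e (a t))) (𝓝[<] 1) atTop)
    (a3 : Tendsto (fun t => cv (co e (a t))) (𝓝[<] 1) (𝓝 q)) : EndsAtFront 2 M a := by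
  obtain ⟨b1, b2, b3⟩ := hE.sv
  obtain ⟨ε, ε0, K0, p0, hF⟩ := flow_chart hM hS hk hP h hE h67 hΘ hθ hu hv b1 b2 b3
    (by simpa only [sub_self, T1] using W.zero)
  obtain ⟨η, η0, hη⟩ := Metric.eventually_nhds_iff_ball.1 (((hP.cont.const_mul K0).tendsto
    q).eventually (Metric.ball_mem_nhds _ (show 0 < ε / 8 by positivity)))
  obtain ⟨r, r0, r1⟩ := exists_between (lt_min η0 (lt_min (sub_pos.2 hq) (show 0 < ε / 4 by positivity)))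
  simp only [lt_min_iff] at r1
  have k0 : ∀ v, |v - q| < r → K0 * (P v - P (q - r)) < ε / 4 := fun v hv => by
    have t1 := abs_lt.1 (hη v (hv.trans r1.1))
    have t2 := abs_lt.1 (hη (q - r) (by simpa [abs_of_pos r0] using r1.1))
    linarith
  obtain ⟨β, Φ, Y, e1, F, fe, m, ch, N, R, -, -, hc⟩ := hF (q - r) (by linarith [r1.2.1])
  obtain ⟨y, y1, y2, y3⟩ := hc a ha (by
    filter_upwards [a1, a2.eventually (eventually_gt_atTop u2), a3.eventually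
      (Metric.ball_mem_nhds _ r0)] with t t1 t2 t3
      using ⟨t1, t2, by linarith [(abs_lt.1 t3).1], k0 _ t3⟩) a4
      ⟨_, (hP.lim.comp a2).add ((hP.cont.tendsto q).comp a3)⟩
  obtain ⟨e2, ch2, rel⟩ := ch.sw hM hS
  have y4 : ∀ᶠ t in 𝓝[<] 1, On e2 (a t) ∧ co e2 (a t) = sw (co e1 (a t)) :=
    y3.mono fun t ht => (rel _ (sw _) ht.2.1).2 ⟨ht.1, rfl⟩
  have sub : Qd u2 v2 Θ ⊆ Qd u1 v1 Θ := fun x hx => ⟨hu.trans hx.1, hv.trans hx.2.1, hx.2.2⟩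
  have hb : Bx q u2 r y ⊆ sw ⁻¹' Qf u2 (q - r) K0 ε P θ := fun x hx =>
    ⟨hx.2.1, show q - r < cu x by linarith [(abs_lt.1 hx.1).1], k0 _ hx.1,
      (norm_sub_le_norm_sub_add_norm_sub x.2.2 y θ).trans_lt (by linarith [hx.2.2, r1.2.2])⟩
  obtain ⟨K, ⟨⟨-, k1, k2⟩, k3⟩, k5⟩ := (((fe.const hk F).and (s3_ev R.cu fun _ =>
    Real.exp_pos _)).and (eventually_ge_atTop 1)).exists
  refine front hM hS hk ch2 N.sw (fun x hx => by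
      simp [swC, newC, iv, F.der, (m _ hx).2.self_of_nhds]) (fun i hi => ?_) r0
    hb (fun p' y' r' s0 s1 s2 h0 => ?_) (y4.mono fun t ht => ht.1)
    (a3.congr' ((y3.and y4).mono fun t ht => by simp only [ht.2.2]; exact ht.1.2.2.2.symm))
    (a2.congr' ((y3.and y4).mono fun t ht => by simp only [ht.2.2]; exact ht.1.2.2.1.symm))
    (y2.congr' (y4.mono fun t ht => by simp only [ht.2]; rfl))
  · obtain ⟨t1, t2⟩ := t1_iff.1 (R.u i hi)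
    rw [swC_lt _ hi, D_sw, t1_iff, D_sw du (D (sw dv) _)]
    exact ⟨t1.sw, t2.sw⟩
  have sm := F.sΦ.comp sw_sm
  refine P354LM.meas (κ / 8) K (q - r) u2 Θ _ (fun x => Φ (sw x)) (fun x => Y (sw x)) k P hB hP sm
    (F.sY.comp sw_sm) (fun x => congrArg sw (F.left (sw x))) (fun x => congrArg sw (F.right (sw x))) k1
    (fun x x1 x2 => ?_) p' r' y' s0 s2 (fun x x1 x2 x3 => have := (m _ (hb (s1 ⟨x1, x2, x3⟩))).1
      ⟨this.2.2, ContinuousAt.comp (g := fun x => ‖al x‖ + ‖DL (fun _ => du) al x‖) (f := sw)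
        (x := sh (fun x => Φ (sw x)) x) (hD.cont (sub this)) sw_sm.continuous.continuousAt⟩)
    (measure_mono_null (fun x hx => ?_) h0)
  · obtain ⟨t1, t2, t3, t4, t5⟩ := k2 (sw x) ⟨x2, x1.le⟩
    simp only [D_sw]
    refine ⟨t2.1, t1.2.2, t3, t4, fun a a1 a2 => (t5 a a1 a2).trans_eq ?_⟩
    rw [fderiv_sh (dif F.sΦ.contDiffAt), fderiv_sh (Φ := fun x => Φ (sw x)) (dif sm.contDiffAt), D_sw,
      show sw a = a from Prod.ext (a2.trans a1.symm) (Prod.ext (a1.trans a2.symm) rfl)]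
  refine ⟨hx.1, hx.2.1, hx.2.2.1, ?_⟩
  rintro ⟨q1, hq⟩
  have e : ∀ t : ℝ, ((0, cu x, x.2.2) : R4) + t • du = (t, cu x, x.2.2) := fun t => by
    simp [du, Prod.mk_zero_zero]
  refine hx.2.2.2 (line_ok (K := K) (t0 := u2) (q1 := q1) (c := fun t => sh Φ (t, cu x, x.2.2))
    (c' := fun t => (1, 0, D du Φ (t, cu x, x.2.2)))
    (m := fun i t => D du (newC C Φ i) (t, cu x, x.2.2)) hk.pos hD (fun t ht => ?_) fun i hi => ?_)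
  · have w : ((t, cu x, x.2.2) : R4) ∈ Qf u2 (q - r) K0 ε P θ :=
      hb (a := (cu x, t, x.2.2)) (s1 ⟨hx.1, ht, hx.2.2.1⟩)
    obtain ⟨t1, -⟩ := k2 _ ⟨w.1, w.2.1.le⟩
    exact ⟨by simpa [e, du, Prod.mk_zero_zero] using hasDerivAt_sh F.sΦ du (0, cu x, x.2.2) t,
      sub (m _ w).1, norm_prod_le_iff.2 ⟨by simpa, norm_prod_le_iff.2 ⟨by simp; linarith, t1.1⟩⟩,
      le_of_eq_of_le (by simp [du, Prod.norm_def]) t1.2.1, k3 _ w⟩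
  · have := hq i hi
    rwa [swC_lt _ hi, D_sw] at this

end

section base
variable {u v : M.pt → ℝ} {c : Bool → M.Chart} {Cs : Bool → ℕ → R4 → ℝ} {δ : ℝ}
  {Θ0 : Set (ℝ × ℝ)} {al be : Bool → R4 → E} (hM : IsSpacetime Reg M) (hS : Sat M)
  (B : Base M u v c Cs δ Θ0 Θ) (hk : Wt κ k) (hP : Pr k P)
  (hA : ∀ σ, Ana δ κ k Θ (Cs σ) (al σ) (be σ))
include hM B hk hP hA

lemma setup (ha : IsFutureCurve M 0 (Ico 0 1) a) : ∃ σ θ u1 v1 u2 v2, θ ∈ Θ ∧ -δ < u1 + v1 ∧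
    u1 < u2 ∧ v1 < v2 ∧ (∀ᶠ t in 𝓝[<] 1, On (c σ) (a t)) ∧
    Tendsto (fun t => (co (c σ) (a t)).2.2) (𝓝[<] 1) (𝓝 θ) ∧
    (∀ x ∈ Qd u1 v1 Θ, Cs σ 6 x = 0 ∧ Cs σ 7 x = 0) ∧
    (∀ p, Tendsto (fun t => u (a t)) (𝓝[<] 1) (𝓝 p) → u2 < p) ∧
    (∀ p, Tendsto (fun t => v (a t)) (𝓝[<] 1) (𝓝 p) → v2 < p) ∧
    ((fun t => u (a t)) =ᶠ[𝓝[<] 1] fun t => cu (co (c σ) (a t))) ∧
    (fun t => v (a t)) =ᶠ[𝓝[<] 1] fun t => cv (co (c σ) (a t)) := by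
  have hE := fun σ u1 v1 h => ((hA σ).est u1 v1 h).1
  obtain ⟨mu, mv⟩ := B.mono hM hE ha
  obtain ⟨σ, θ, hθ, a1, a4⟩ := B.lim hM hk hP hE ha
  have k1 : ∀ {f : ℝ → ℝ}, StrictMonoOn f (Ioo 0 1) → f (1 / 4) < f (1 / 2) ∧
      ∀ p, Tendsto f (𝓝[<] 1) (𝓝 p) → f (1 / 2) < p := fun h =>
    ⟨h (by norm_num) (by norm_num) (by norm_num), fun p hp =>
      (h (b := 3 / 4) (by norm_num) (by norm_num) (by norm_num)).trans_le (ge_of_tendsto hp (by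
        filter_upwards [Ioo_mem_nhdsLT (show (3 / 4 : ℝ) < 1 by norm_num)] with t ht
        exact h.monotoneOn (by norm_num) ⟨by linarith [ht.1], ht.2⟩ ht.1.le))⟩
  have d := B.dom (a (1 / 4))
  exact ⟨σ, θ, _, _, _, _, hθ, d, (k1 mu).1, (k1 mv).1, a1, a4, fun x hx =>
    (B.met σ x (by linarith [hx.1, hx.2.1]) hx.2.2).2.2.2, (k1 mu).2, (k1 mv).2,
    a1.mono fun t ht => (B.uv σ _ ht).1.symm, a1.mono fun t ht => (B.uv σ _ ht).2.symm⟩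

include hS

theorem fronts (ha : IsFutureCurve M 0 (Ico 0 1) a)
    (h : (∃ p, Tendsto (fun t => u (a t)) (𝓝[<] 1) (𝓝 p)) ∧
        Tendsto (fun t => v (a t)) (𝓝[<] 1) atTop ∨ Tendsto (fun t => u (a t)) (𝓝[<] 1) atTop ∧
        ∃ p, Tendsto (fun t => v (a t)) (𝓝[<] 1) (𝓝 p)) : EndsAtFront 2 M a := by
  obtain ⟨σ, θ, u1, v1, u2, v2, hθ, d, hu, hv, a1, a4, z, l1, l2, e1, e2⟩ := setup hM B hk hP hA ha
  obtain ⟨hE, d1, d2⟩ := (hA σ).est _ _ d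
  rcases h with ⟨⟨p, h1⟩, h2⟩ | ⟨h1, p, h2⟩
  exacts [frontA hM hS hk hP (B.ch σ d hE) hE z B.opn hθ hu hv ha a1 a4 d1 (hA σ).right (l1 p h1)
    (h1.congr' e1) (h2.congr' e2), frontB hM hS hk hP (B.ch σ d hE) hE z B.opn hθ hu hv ha a1 a4 d2
    (hA σ).left (l2 p h2) (h1.congr' e1) (h2.congr' e2)]

end base

theorem b7 : B7 := by
  intro Reg M u v c Cs δ κ k Θ0 Θ E _ _ al be hM hS B hk hA a ha hn
  obtain ⟨P, hP⟩ := hk.pr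
  obtain ⟨mu, mv⟩ := B.mono hM (fun σ u1 v1 h => ((hA σ).est u1 v1 h).1) ha
  obtain ⟨σ, θ, u1, v1, u2, v2, hθ, d, hu, hv, a1, a4, z, l1, l2, e1, e2⟩ := setup hM B hk hP hA ha
  rcases mono_lim mu with ⟨p, hp⟩ | hp <;> rcases mono_lim mv with ⟨q, hq⟩ | hq
  · exact (hn _ ((((M.toE _).continuousAt_symm (B.met σ (p, q, θ)
      (show -δ < p + q by linarith [l1 p hp, l2 q hq]) hθ).1).tendsto.comp
      ((hp.congr' e1).prodMk_nhds ((hq.congr' e2).prodMk_nhds a4))).congr'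
      (a1.mono fun t ht => (M.toE _).left_inv ht))).elim
  · exact .inl (fronts hM hS B hk hP hA ha (.inl ⟨⟨p, hp⟩, hq⟩))
  · exact .inl (fronts hM hS B hk hP hA ha (.inr ⟨hp, q, hq⟩))
  have hE := ((hA σ).est _ _ d).1
  obtain ⟨v0, r, y, β, Φ, Y, e', Q, r0, -, -, -, ch, N, -, -, hQ, rel, y2, y3⟩ := chartA hM hS hk hP
    (B.ch σ d hE) hE z B.opn hθ hu hv ha a1 a4 ((hp.congr' e1).eventually (eventually_gt_atTop u2))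
    ⟨_, hP.lim.comp (hp.congr' e1)⟩ (hq.congr' e2)
  refine .inr (.inl (corner hM hS hk ch N r0 hQ (y3.mono fun t ht => ht.1)
    ((hp.congr' e1).congr' (y3.mono fun t ht => ht.2.1.symm))
    ((hq.congr' e2).congr' (y3.mono fun t ht => ht.2.2.symm)) y2 fun b hb b1 b2 =>
      fronts hM hS B hk hP hA hb ?_))
  have e : ∀ᶠ t in 𝓝[<] 1, cu (co e' (b t)) = u (b t) ∧ cv (co e' (b t)) = v (b t) :=
    b1.mono fun t ht => by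
      obtain ⟨r1, r2⟩ := (rel _ _ ht.2).1 ⟨ht.1, rfl⟩
      rw [← (B.uv σ _ r1).1, ← (B.uv σ _ r1).2, r2]
      exact ⟨rfl, rfl⟩
  have f1 := e.mono fun t ht => ht.1
  have f2 := e.mono fun t ht => ht.2
  exact b2.imp (fun h => ⟨h.1.imp fun _ h => h.congr' f1, h.2.congr' f2⟩)
    fun h => ⟨h.1.congr' f1, h.2.imp fun _ h => h.congr' f2⟩

end Vale.Agent.P354L
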