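import Vale.Agent.P354L.Chart

/-!
The chart in which the fronts are at finite coordinate values.
-/

open scoped ContDiff
open MeasureTheory Set Filter Topology

namespace Vale.Agent.P354L

open Vale.Agent.P354n (R4 cu cv c1 c2 du dv form h1 h2 Spc On tgt co inv IsSpacetime IsFutureCurve
  IsDNBox InLp)

/-- The coordinate -exp (-κ t), its inverse and the derivative of the inverse. -/
noncomputable def em (κ t : ℝ) : ℝ := -Real.exp (-(κ * t))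
noncomputable def lg (κ s : ℝ) : ℝ := -Real.log (-s) / κ
noncomputable def rr (κ s : ℝ) : ℝ := Real.exp (κ * lg κ s) / κ

noncomputable def Rm (κ : ℝ) (x : R4) : R4 := (lg κ x.1, lg κ x.2.1, x.2.2)
noncomputable def Sm (κ : ℝ) (x : R4) : R4 := (em κ x.1, em κ x.2.1, x.2.2)

variable {Reg : (R4 → ℝ) → Set R4 → Prop} {M : Spc} {e e' : M.Chart} {C : ℕ → R4 → ℝ}
  {Q : Set R4} {x : R4} {a : ℝ → M.pt} {K κ s : ℝ} {k P : ℝ → ℝ}

lemma em_neg (κ t : ℝ) : em κ t < 0 := neg_neg_of_pos (Real.exp_pos _)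

lemma lg_em (h : 0 < κ) (t : ℝ) : lg κ (em κ t) = t := by
  rw [lg, em, neg_neg, Real.log_exp, neg_neg, mul_div_cancel_left₀ _ h.ne']

lemma em_lg (h : 0 < κ) (hs : s < 0) : em κ (lg κ s) = s := by
  rw [lg, em, mul_div_cancel₀ _ h.ne', neg_neg, Real.exp_log (neg_pos.2 hs), neg_neg]

lemma rr_pos (h : 0 < κ) (s : ℝ) : 0 < rr κ s := div_pos (Real.exp_pos _) h

lemma lg_der (h : 0 < κ) (hs : s < 0) : HasDerivAt (lg κ) (rr κ s) s := by
  have := (((hasDerivAt_neg' s).log (neg_pos.2 hs).ne').neg).div_const κ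
  refine this.congr_deriv ?_
  rw [rr, lg, mul_div_cancel₀ _ h.ne', Real.exp_neg, Real.exp_log (neg_pos.2 hs)]
  congr 1
  field_simp

lemma lg_sm (κ : ℝ) (hs : s < 0) : ContDiffAt ℝ ∞ (lg κ) s :=
  (contDiffAt_id.neg.log (neg_pos.2 hs).ne').neg.div_const κ

lemma em_sm (κ : ℝ) : ContDiff ℝ ∞ (em κ) := by
  unfold em
  fun_prop

lemma em_lim (h : 0 < κ) : Tendsto (em κ) atTop (𝓝 0) := by
  unfold em
  simpa using (Real.tendsto_exp_neg_atTop_nhds_zero.comp (tendsto_id.const_mul_atTop h)).neg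

lemma lg_lim (h : 0 < κ) : Tendsto (lg κ) (𝓝[<] 0) atTop :=
  (tendsto_neg_atBot_atTop.comp (Real.tendsto_log_nhdsGT_zero.comp
    (by simpa using tendsto_neg_nhdsLT (a := (0 : ℝ))))).atTop_div_const h

lemma em_mono (h : 0 < κ) : StrictMono (em κ) := fun _ _ hab =>
  neg_lt_neg (Real.exp_lt_exp.2 (neg_lt_neg (mul_lt_mul_of_pos_left hab h)))

lemma int_iff (h : 0 < κ) {b : ℝ} (hb : b < 0) (g : ℝ → ℝ) : IntegrableOn g (Ioo b 0) ↔
    IntegrableOn (fun t => κ * Real.exp (-(κ * t)) * g (em κ t)) (Ioi (lg κ b)) := by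
  have e : em κ '' Ioi (lg κ b) = Ioo b 0 := by
    ext s
    refine ⟨?_, fun hs => ⟨lg κ s, ?_, em_lg h hs.2⟩⟩
    · rintro ⟨t, ht, rfl⟩
      exact ⟨(em_lg h hb).ge.trans_lt (em_mono h ht), em_neg _ _⟩
    · exact (em_mono h).lt_iff_lt.1 (by rw [em_lg h hb, em_lg h hs.2]; exact hs.1)
  have d : ∀ t, HasDerivAt (em κ) (κ * Real.exp (-(κ * t))) t := fun t =>
    (((hasDerivAt_id' t).const_mul κ).neg.exp.neg).congr_deriv (by simp [mul_comm])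
  rw [← e, integrableOn_image_iff_integrableOn_abs_deriv_smul measurableSet_Ioi
    (fun t _ => (d t).hasDerivWithinAt) (em_mono h).injective.injOn]
  simp only [abs_of_pos (mul_pos h (Real.exp_pos _)), smul_eq_mul]

/-- The bound K k(t) dt in the new coordinate. -/
noncomputable def kb (κ : ℝ) (k : ℝ → ℝ) (K s : ℝ) : ℝ := K * k (lg κ s) * rr κ s

lemma kb_int (hk : Wt κ k) (K : ℝ) {b : ℝ} (hb : b < 0) :
    Measurable (kb κ k K) ∧ InLp 1 (kb κ k K) b := by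
  have m : Measurable (lg κ) := by unfold lg; fun_prop
  refine ⟨((hk.cont.measurable.comp m).const_mul K).mul (by unfold rr; fun_prop),
    (memLp_one_iff_integrable.2 ((int_iff hk.pos hb _).2 (((hk.int _).const_mul K).congr
      (.of_forall fun t => ?_)))).eLpNorm_lt_top⟩
  have := hk.pos
  simp only [kb, rr, lg_em hk.pos, Real.exp_neg]
  field_simp

lemma Rm_sm (κ : ℝ) (h1 : x.1 < 0) (h2 : x.2.1 < 0) : ContDiffAt ℝ ∞ (Rm κ) x :=
  ((lg_sm κ h1).comp x contDiffAt_fst).prodMk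
    (((lg_sm κ h2).comp x contDiffAt_snd.fst).prodMk contDiffAt_snd.snd)

lemma fderiv_Rm (h : 0 < κ) (h1 : x.1 < 0) (h2 : x.2.1 < 0) (a : R4) :
    fderiv ℝ (Rm κ) x a = (rr κ x.1 * a.1, rr κ x.2.1 * a.2.1, a.2.2) := by
  have e1 := (lg_der h h1).comp_hasFDerivAt x (hasFDerivAt_fst (𝕜 := ℝ) (p := x))
  have e2 := (lg_der h h2).comp_hasFDerivAt (f := fun y : R4 => y.2.1) x
    (hasFDerivAt_snd (𝕜 := ℝ) (p := x)).fst
  exact congrArg (fun B : R4 →L[ℝ] R4 => B a)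
    (e1.prodMk (e2.prodMk (hasFDerivAt_snd (𝕜 := ℝ) (p := x)).snd)).fderiv

/-- The rescaled coefficients. -/
noncomputable def hat (κ : ℝ) (C : ℕ → R4 → ℝ) : ℕ → R4 → ℝ
  | 0 => C 0
  | 1 => C 1
  | 2 => C 2
  | 3 => fun x => (κ ^ 2)⁻¹ * (C 3 x * Real.exp (κ * (cu x + cv x)))
  | 4 => fun x => κ⁻¹ * (C 4 x * Real.exp (κ * cv x))
  | 5 => fun x => κ⁻¹ * (C 5 x * Real.exp (κ * cv x))
  | 6 => fun x => κ⁻¹ * (C 6 x * Real.exp (κ * cu x))
  | 7 => fun x => κ⁻¹ * (C 7 x * Real.exp (κ * cu x))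
  | _ => fun _ => 0

/-- The coefficients and the domain in the new chart. -/
noncomputable def boxC (κ : ℝ) (C : ℕ → R4 → ℝ) (i : ℕ) (x : R4) : ℝ := hat κ C i (Rm κ x)
def boxQ (κ : ℝ) (Q : Set R4) : Set R4 := {x | x.1 < 0 ∧ x.2.1 < 0 ∧ Rm κ x ∈ Q}

lemma Ch.box (hM : IsSpacetime Reg M) (hS : Sat M) (h : Ch M e C Q) (hκ : 0 < κ) :
    ∃ e', Ch M e' (boxC κ C) (boxQ κ Q) ∧ Rel e e' (Rm κ) (boxQ κ Q) := by
  refine h.trans (S := Sm κ) hM hS (isOpen_iff_mem_nhds.2 fun x hx => ?_) ?_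
    (fun y => by simp [Rm, Sm, lg_em hκ]) fun x hx => ⟨Rm_sm κ hx.1 hx.2.1, hx.2.2, ?_, fun a => ?_,
      fun a _ ha => ?_, ?_, fun a a1 a2 => ?_⟩
  · filter_upwards [continuous_fst.continuousAt.eventually_lt_const hx.1,
      continuous_snd.fst.continuousAt.eventually_lt_const hx.2.1,
      (Rm_sm κ hx.1 hx.2.1).continuousAt (h.opn.mem_nhds hx.2.2)] with y y1 y2 y3 using ⟨y1, y2, y3⟩
  · exact ((em_sm κ).comp contDiff_fst).prodMk
      (((em_sm κ).comp contDiff_snd.fst).prodMk contDiff_snd.snd)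
  · simp [Rm, Sm, em_lg hκ hx.1, em_lg hκ hx.2.1]
  · rw [fderiv_Rm hκ hx.1 hx.2.1]
    simp only [form, h1, h2, boxC, hat, cu, cv, c1, c2, rr, Rm, mul_add, Real.exp_add]
    ring
  · rw [fderiv_Rm hκ hx.1 hx.2.1] at ha
    exact pos_of_mul_pos_right ha (rr_pos hκ _).le
  · exact mul_pos (by positivity) (mul_pos (h.met _ hx.2.2).2.2.1 (Real.exp_pos _))
  · simpa only [form, h1, h2, boxC, hat, a1, a2, mul_zero, sub_zero] using
      (h.met _ hx.2.2).2.2.2 a a1 a2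

lemma W.ev {E : Type} [NormedAddCommGroup E] [NormedSpace ℝ E] {f : R4 → E} {w : R4 → ℝ}
    {L : List Lev} (h : W Q L f w) : ∀ᶠ K in atTop, ∀ x ∈ Q, ‖f x‖ ≤ K * |w x| := by
  obtain ⟨K, -, hK⟩ := h.bd
  exact (eventually_ge_atTop K).mono fun K' h' x hx =>
    (hK x hx).trans (mul_le_mul_of_nonneg_right h' (abs_nonneg _))

lemma t1_exp (t : R4 →L[ℝ] ℝ) {b : R4} (p : R4 → ℝ) (h0 : t b = 0) (h1 : t d1 = 0) (h2 : t d2 = 0) :
    T1 Q b p 0 (fun x => Real.exp (κ * t x)) fun x => Real.exp (κ * t x) := by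
  have k : ∀ b, t b = 0 → D b (fun x => Real.exp (κ * t x)) = fun _ => 0 := fun b hb => by
    funext x
    rw [D, (t.hasFDerivAt.const_mul κ).exp.fderiv]
    simp [hb]
  refine ⟨⟨fun x _ => by fun_prop, 1, fun x _ => by simp⟩, List.forall_mem_cons.2 ⟨?_, fa_ang ?_ ?_⟩⟩
  · rw [k _ h0]; exact W.zero
  · rw [k _ h1]; exact W.zero
  · rw [k _ h2]; exact W.zero

lemma NB.hat (N : NB κ k Q C) : (∀ i, Sy Q 1 (hat κ C i) 1) ∧
    (∀ i < 4, Sy Q 0 (D du (hat κ C i)) (ku k) ∧ Sy Q 0 (D dv (hat κ C i)) (kv k)) ∧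
    ∀ i, i = 4 ∨ i = 5 → Sy Q 0 (D du (hat κ C i)) (eu κ) ∧
      Sy Q 0 (D dv (hat κ C (i + 2))) (ev κ) := by
  obtain ⟨o1, o2, o3⟩ := N.om _ rfl
  have u3 := t1_iff.1 (W.cmul (κ ^ 2)⁻¹ (t1_iff.2 ⟨o1, W.eqw o2 (w' := 1 * ku k) (by simp)⟩))
  have v3 := t1_iff.1 (W.cmul (κ ^ 2)⁻¹ (t1_iff.2 ⟨o1, W.eqw o3 (w' := 1 * kv k) (by simp)⟩))
  have s : ∀ i, i = 4 ∨ i = 5 →
      T1 Q du (eu κ) 0 (fun x => κ⁻¹ * (C i x * Real.exp (κ * cv x))) 1 ∧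
      T1 Q dv (ev κ) 0 (fun x => κ⁻¹ * (C (i + 2) x * Real.exp (κ * cu x))) 1 := fun i hi => by
    obtain ⟨s1, s2, s3, s4⟩ := N.sh i hi
    exact ⟨((W.mul (t1_iff.2 ⟨s1, W.le s2 le_ex⟩) (t1_exp tv _ rfl rfl rfl)).eqw fun x _ => by
      simp [← Real.exp_add, tv, cv]).cmul _, ((W.mul (t1_iff.2 ⟨s3, W.le s4
        (le_ex.trans (.of_eq fun _ => mul_comm _ _))⟩) (t1_exp tu _ rfl rfl rfl)).eqw fun x _ => by
      simp [← Real.exp_add, tu, cu]).cmul _⟩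
  refine ⟨fun i => ?_, fun i hi => ?_, ?_⟩
  · rcases lt_or_ge i 8 with hi | hi
    · interval_cases i
      exacts [(N.gam 0 (by simp)).1, (N.gam 1 (by simp)).1, (N.gam 2 (by simp)).1, u3.1,
        (t1_iff.1 (s 4 (.inl rfl)).1).1, (t1_iff.1 (s 5 (.inr rfl)).1).1,
        (t1_iff.1 (s 4 (.inl rfl)).2).1, (t1_iff.1 (s 5 (.inr rfl)).2).1]
    · obtain ⟨j, rfl⟩ := Nat.exists_eq_add_of_le' hi
      exact W.zero
  · interval_cases i
    exacts [(N.gam 0 (by simp)).2, (N.gam 1 (by simp)).2, (N.gam 2 (by simp)).2,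
      ⟨W.eqw u3.2 (by simp), W.eqw v3.2 (by simp)⟩]
  · rintro i (rfl | rfl)
    exacts [⟨W.eqw (t1_iff.1 (s 4 (.inl rfl)).1).2 (by simp),
      W.eqw (t1_iff.1 (s 4 (.inl rfl)).2).2 (by simp)⟩,
      ⟨W.eqw (t1_iff.1 (s 5 (.inr rfl)).1).2 (by simp),
      W.eqw (t1_iff.1 (s 5 (.inr rfl)).2).2 (by simp)⟩]

lemma der_Rm (hκ : 0 < κ) {f : R4 → ℝ} (hx : x ∈ boxQ κ Q) (hf : ContDiffAt ℝ ∞ f (Rm κ x)) (a : R4) :
    P354n.deriv (fun y => f (Rm κ y)) x a =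
      fderiv ℝ f (Rm κ x) (rr κ x.1 * a.1, rr κ x.2.1 * a.2.1, a.2.2) := by
  rw [P354n.deriv, DifferentiableAt.lineDeriv_eq_fderiv
    ((dif hf).fun_comp' x (dif (Rm_sm κ hx.1 hx.2.1))),
    ← fderiv_Rm hκ hx.1 hx.2.1]
  exact D_comp a (dif hf) (dif (Rm_sm κ hx.1 hx.2.1))

lemma der_du (hκ : 0 < κ) {f : R4 → ℝ} (hx : x ∈ boxQ κ Q) (hf : ContDiffAt ℝ ∞ f (Rm κ x)) :
    P354n.deriv (fun y => f (Rm κ y)) x du = D du f (Rm κ x) * rr κ x.1 := by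
  rw [der_Rm hκ hx hf, fderiv_eq]
  simp [du, mul_comm]

lemma der_dv (hκ : 0 < κ) {f : R4 → ℝ} (hx : x ∈ boxQ κ Q) (hf : ContDiffAt ℝ ∞ f (Rm κ x)) :
    P354n.deriv (fun y => f (Rm κ y)) x dv = D dv f (Rm κ x) * rr κ x.2.1 := by
  rw [der_Rm hκ hx hf, fderiv_eq]
  simp [dv, mul_comm]

theorem box (hk : Wt κ k) (h : Ch M e' (boxC κ C) (boxQ κ Q)) (N : NB κ k Q C) :
    ∃ K0, 0 ≤ K0 ∧ ∀ᶠ K in atTop, ∀ B ⊆ boxQ κ Q, ∀ (r : ℝ) (kk nn : ℝ → ℝ),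
      (∀ x ∈ B, kb κ k K0 (cv x) ≤ kk (cv x) ∧ kb κ k K0 (cu x) ≤ nn (cu x)) →
      (∀ f, f = kk ∨ f = nn → Measurable f ∧ InLp 1 f (-r)) →
      IsDNBox M e' (boxC κ C) B r K kk nn := by
  have hκ := hk.pos
  obtain ⟨n1, n2, n3⟩ := N.hat
  obtain ⟨K1, p1, hl⟩ := N.low
  obtain ⟨K0, k0, p0⟩ := (((eventually_all_finset (Finset.range 4)).2 fun i hi =>
    (W.ev (n2 i (Finset.mem_range.1 hi)).1).and (W.ev (n2 i (Finset.mem_range.1 hi)).2)).and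
    (eventually_ge_atTop 0)).exists
  have t2 : Tendsto (fun K : ℝ => K / 2) atTop atTop := tendsto_id.atTop_div_const two_pos
  have t3 : Tendsto (fun K : ℝ => K / 2 * κ) atTop atTop := t2.atTop_mul_const hκ
  refine ⟨K0, p0, ?_⟩
  filter_upwards [(eventually_all_finset (Finset.range 8)).2 fun i _ => (W.ev (n1 i)).and
    (t2.eventually ((W.ev (n1 i).e1).and (W.ev (n1 i).e2))),
    t3.eventually ((W.ev (n3 4 (.inl rfl)).1).and (W.ev (n3 4 (.inl rfl)).2)),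
    t3.eventually ((W.ev (n3 5 (.inr rfl)).1).and (W.ev (n3 5 (.inr rfl)).2)),
    eventually_ge_atTop K1, eventually_ge_atTop (K1 * κ ^ 2)] with K b1 b4 b5 b6 b7 B hB r kk nn hn hi
  refine ⟨hB.trans h.sub, fun i x hx => ((W.sm (n1 i) _ (hB hx).2.2).comp x
    (Rm_sm κ (hB hx).1 (hB hx).2.1)).contDiffWithinAt, fun x hx => ?_, hi⟩
  have m := hB hx
  have q := m.2.2
  obtain ⟨m1, m2, m3, m4⟩ := h.met x m
  have sm := fun i => W.sm (n1 i) _ q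
  refine ⟨m1, m2, ?_, fun a a1 a2 => ⟨?_, fun i hi => ?_⟩, fun i hi => ?_, fun i hi => ?_⟩
  · refine le_trans ?_ (mul_le_mul_of_nonneg_right b7 m3.le)
    refine (hl _ q).1.trans (le_of_eq ?_)
    simp only [boxC, hat]
    field_simp
  · refine le_trans ?_ (mul_le_mul_of_nonneg_right b6 (m4 a a1 a2))
    simpa only [form, h1, h2, boxC, hat, a1, a2, mul_zero, sub_zero] using (hl _ q).2 a a1 a2
  · obtain ⟨c0, c1, c2⟩ := b1 i (Finset.mem_range.2 hi)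
    refine ⟨by simpa [boxC] using c0 _ q, ?_⟩
    have a1' : a.1 = 0 := a1
    have a2' : a.2.1 = 0 := a2
    have := norm_fderiv_le (f := hat κ C i) (x := Rm κ x) (a := a) (.inl ⟨a1, le_rfl⟩)
      (.inl ⟨a2, le_rfl⟩) (c1 _ q) (c2 _ q)
    rw [show boxC κ C i = fun y => hat κ C i (Rm κ y) from rfl, der_Rm hκ m (sm i), a1', a2',
      mul_zero, mul_zero, show ((0, 0, a.2.2) : R4) = a from Prod.ext a1'.symm (Prod.ext a2'.symm rfl)]
    simpa using this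
  · have c : ∀ (z t s : ℝ), ‖z‖ ≤ K / 2 * κ * |Real.exp (-(κ * lg κ s))| → |z * rr κ s| ≤ K / 2 :=
      fun z t s hz => by
        rw [abs_mul, abs_of_pos (rr_pos hκ s)]
        refine (mul_le_mul_of_nonneg_right hz (rr_pos hκ s).le).trans (le_of_eq ?_)
        rw [abs_of_pos (Real.exp_pos _), rr, Real.exp_neg]
        field_simp
    rw [show boxC κ C i = fun y => hat κ C i (Rm κ y) from rfl,
      show boxC κ C (i + 2) = fun y => hat κ C (i + 2) (Rm κ y) from rfl, der_du hκ m (sm _),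
      der_dv hκ m (sm _), ← add_halves K]
    refine (abs_sub _ _).trans ?_
    rcases hi with rfl | rfl
    exacts [add_le_add (c _ 0 _ (b4.1 _ q)) (c _ 0 _ (b4.2 _ q)),
      add_le_add (c _ 0 _ (b5.1 _ q)) (c _ 0 _ (b5.2 _ q))]
  · obtain ⟨c1, c2⟩ := k0 i (Finset.mem_range.2 hi)
    rw [show boxC κ C i = fun y => hat κ C i (Rm κ y) from rfl, der_du hκ m (sm _),
      der_dv hκ m (sm _), abs_mul, abs_mul, abs_of_pos (rr_pos hκ _), abs_of_pos (rr_pos hκ _)]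
    exact ⟨le_trans (mul_le_mul_of_nonneg_right ((c2 _ q).trans_eq (by
      rw [abs_of_pos (hk.kpos _)]; rfl)) (rr_pos hκ _).le) (hn x hx).1,
      le_trans (mul_le_mul_of_nonneg_right ((c1 _ q).trans_eq (by
      rw [abs_of_pos (hk.kpos _)]; rfl)) (rr_pos hκ _).le) (hn x hx).2⟩

end Vale.Agent.P354L
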