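import Vale.Agent.P354L.Nb

/-!
Double null charts, changes of charts, and limits of future curves.
-/

open scoped ContDiff
open MeasureTheory Set Filter Topology

namespace Vale.Agent.P354L

open Vale.Agent.P354n (R4 cu cv c1 c2 du dv form h1 h2 Spc On tgt co inv IsSpacetime IsFutureCurve
  mink)

variable {Reg : (R4 → ℝ) → Set R4 → Prop} {M : Spc} {e : M.Chart} {C C' : ℕ → R4 → ℝ}
  {Q Q' : Set R4} {x : R4} {a : ℝ → M.pt} {K κ : ℝ} {k P : ℝ → ℝ}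

/-- On the open part Q of the chart e the metric is in double null form. -/
structure Ch (M : Spc) (e : M.Chart) (C : ℕ → R4 → ℝ) (Q : Set R4) : Prop where
  opn : IsOpen Q
  sub : Q ⊆ tgt e
  met : ∀ x ∈ Q, (∀ a, M.g e x a a = form C x a) ∧ 0 < cv (M.X e x) ∧ 0 < C 3 x ∧
    ∀ a, cu a = 0 → cv a = 0 → 0 ≤ form C x a

lemma form_split (C : ℕ → R4 → ℝ) (x a : R4) :
    form C x a = form C x (0, 0, h1 C x a, h2 C x a) - C 3 x * cu a * cv a := by
  simp [form, h1, h2, cu, cv, c1, c2]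

lemma Ch.fut (hM : IsSpacetime Reg M) (h : Ch M e C Q) (hx : x ∈ Q) {w : R4}
    (h1 : M.g e x w w < 0) (h2 : M.g e x w (M.X e x) < 0) : 0 < cu w ∧ 0 < cv w := by
  obtain ⟨m1, m2, m3, m4⟩ := h.met x hx
  obtain ⟨L, hL, -, hg⟩ := hM.signature e x (h.sub hx)
  have h3 := hM.timelike e x (h.sub hx)
  have k : ∀ a, M.g e x a a < 0 → 0 < cu a * cv a := fun a ha => by
    rw [m1, form_split, mul_assoc] at ha
    exact pos_of_mul_pos_right ((m4 _ rfl rfl).trans_lt (sub_neg.1 ha)) m3.le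
  have k1 := k w h1
  have k2 : 0 < cv w := by
    by_contra hc
    have hc' : cv w < 0 := lt_of_le_of_ne (not_lt.1 hc) fun h => by simp [h] at k1
    have t0 : 0 < -cv w / cv (M.X e x) := div_pos (neg_pos.2 hc') m2
    have k3 := k (w + (-cv w / cv (M.X e x)) • M.X e x) (by
      rw [hg] at h1 h2 h3 ⊢
      rw [hL.map_add, hL.map_smul]
      generalize -cv w / cv (M.X e x) = t at *
      have : mink (L w + t • L (M.X e x)) (L w + t • L (M.X e x)) = mink (L w) (L w) +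
          2 * t * mink (L w) (L (M.X e x)) + t ^ 2 * mink (L (M.X e x)) (L (M.X e x)) := by
        simp [mink, cu, cv, c1, c2]
        ring
      nlinarith [mul_pos t0 (neg_pos.2 h2), mul_pos (pow_pos t0 2) (neg_pos.2 h3)])
    have : cv (w + (-cv w / cv (M.X e x)) • M.X e x) = 0 := by
      show cv w + (-cv w / cv (M.X e x)) * cv (M.X e x) = 0
      field_simp
      ring
    simp [this] at k3
  exact ⟨pos_of_mul_pos_left k1 k2.le, k2⟩

/-- The point with coordinates x in e' has the coordinates T x in e. -/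
def Rel (e e' : M.Chart) (T : R4 → R4) (Q' : Set R4) : Prop :=
  ∀ p, ∀ x ∈ Q', (On e' p ∧ co e' p = x) ↔ (On e p ∧ co e p = T x)

lemma Ch.trans (hM : IsSpacetime Reg M) (hS : Sat M) (h : Ch M e C Q) {T S : R4 → R4}
    (hQ' : IsOpen Q') (sS : ContDiff ℝ ∞ S) (hTS : ∀ y, T (S y) = y)
    (hT : ∀ x ∈ Q', ContDiffAt ℝ ∞ T x ∧ T x ∈ Q ∧ S (T x) = x ∧
      (∀ a, form C (T x) (fderiv ℝ T x a) = form C' x a) ∧
      (∀ a, 0 < cu (fderiv ℝ T x a) → 0 < cv (fderiv ℝ T x a) → 0 < cv a) ∧ 0 < C' 3 x ∧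
      ∀ a, cu a = 0 → cv a = 0 → 0 ≤ form C' x a) : ∃ e', Ch M e' C' Q' ∧ Rel e e' T Q' := by
  obtain ⟨e', he⟩ := hS e ⟨⟨⟨S, T, S ⁻¹' Q', Q', fun _ => id, fun x hx => by
    simpa [(hT x hx).2.2.1] using hx, fun y _ => hTS y, fun x hx => (hT x hx).2.2.1⟩,
    sS.continuous.continuousOn, fun x hx => (hT x hx).1.continuousAt.continuousWithinAt⟩,
    hQ'.preimage sS.continuous, hQ'⟩
    (fun y hy => hTS y ▸ h.sub (hT _ hy).2.1) sS.contDiffOn fun x hx => (hT x hx).1.contDiffWithinAt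
  have k1 : ∀ p, ∀ x ∈ Q', On e p ∧ co e p = T x → On e' p ∧ co e' p = x := fun p x hx hp => by
    have := he p hp.1 (by simpa [hp.2, (hT x hx).2.2.1] using hx)
    exact ⟨this.1, this.2.trans (hp.2 ▸ (hT x hx).2.2.1)⟩
  have k2 : ∀ x ∈ Q', On e (inv e (T x)) ∧ co e (inv e (T x)) = T x := fun x hx =>
    ⟨(M.toE e).map_target (h.sub (hT x hx).2.1), (M.toE e).right_inv (h.sub (hT x hx).2.1)⟩
  have k3 : ∀ x ∈ Q', inv e' x = inv e (T x) := fun x hx => by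
    obtain ⟨t1, t2⟩ := k1 _ x hx (k2 x hx)
    rw [← (M.toE e').left_inv t1]
    exact congrArg _ t2.symm
  have k4 : Q' ⊆ tgt e' := fun x hx => (k1 _ x hx (k2 x hx)).2 ▸ (M.toE e').map_source
    (k1 _ x hx (k2 x hx)).1
  refine ⟨e', ⟨hQ', k4, fun x hx => ?_⟩, fun p x hx => ⟨fun hp => ?_, k1 p x hx⟩⟩
  · obtain ⟨t1, t2, -, t4, t5, t6⟩ := hT x hx
    have e1 : (fun y => co e (id (inv e' y))) =ᶠ[𝓝 x] T :=
      eventually_of_mem (hQ'.mem_nhds hx) fun y hy => by simp only [id, k3 y hy, (k2 y hy).2]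
    obtain ⟨-, g1, g2⟩ := hM.tensor e' e _ rfl x (k4 hx) (by simpa [k3 x hx] using (k2 x hx).1)
    have e2 : ∀ a, lineDeriv ℝ (fun y => co e (id (inv e' y))) x a = fderiv ℝ T x a := fun a => by
      rw [e1.lineDeriv_eq, (dif t1).lineDeriv_eq_fderiv]
    simp only [e2, e1.self_of_nhds] at g1 g2
    obtain ⟨f1, f2⟩ := h.fut hM t2 (g1 _ _ ▸ hM.timelike e' x (k4 hx)) g2
    exact ⟨fun a => by rw [g1, (h.met _ t2).1, t4], t5 _ f1 f2, t6⟩
  · have : p = inv e (T x) := by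
      rw [← k3 x hx, ← hp.2]
      exact ((M.toE e').left_inv hp.1).symm
    exact this ▸ k2 x hx

lemma curve_der (ha : IsFutureCurve M 0 (Ico 0 1) a) {t : ℝ} (ht : t ∈ Ioo (0 : ℝ) 1)
    (h : On e (a t)) : ∃ w, HasDerivAt (fun s => co e (a s)) w t ∧
      M.g e (co e (a t)) w w < 0 ∧ M.g e (co e (a t)) w (M.X e (co e (a t))) < 0 := by
  have hn : Ico (0 : ℝ) 1 ∈ 𝓝 t := Ico_mem_nhds ht.1 ht.2
  obtain ⟨h1, h2⟩ := ha.2 t (Ioo_subset_Ico_self ht) e h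
  have h3 := (h1.contDiffAt hn).differentiableAt one_ne_zero
  exact ⟨_, h3.hasDerivAt, by simpa using h2 _ _ rfl (derivWithin_of_mem_nhds hn).symm⟩

/-- The angular speed of future timelike vectors. -/
def TB (C : ℕ → R4 → ℝ) (Q : Set R4) (K : ℝ) (k : ℝ → ℝ) : Prop :=
  ∀ x ∈ Q, ∀ a, form C x a < 0 → 0 < cu a → 0 < cv a →
    ‖a.2.2‖ ≤ K * (k (cu x) * cu a + k (cv x) * cv a)

lemma tb (hk : Wt κ k) (h4 : Le Q (C 4) (kv k)) (h5 : Le Q (C 5) (kv k)) (h6 : Le Q (C 6) (ku k))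
    (h7 : Le Q (C 7) (ku k)) (h3 : Le Q (fun x => C 3 x * Real.exp (κ * (cu x + cv x))) 1)
    (hl : ∃ K, 0 ≤ K ∧ ∀ x ∈ Q, ∀ a, cu a = 0 → cv a = 0 → ‖a‖ ^ 2 ≤ K * form C x a) :
    ∃ K, 0 ≤ K ∧ TB C Q K k := by
  obtain ⟨K3, p3, h3⟩ := h3
  obtain ⟨K4, p4, h4⟩ := h4
  obtain ⟨K5, p5, h5⟩ := h5
  obtain ⟨K6, p6, h6⟩ := h6
  obtain ⟨K7, p7, h7⟩ := h7
  obtain ⟨K, p, hl⟩ := hl
  refine ⟨K * K3 + 1 + (K4 + K5 + K6 + K7), by positivity, fun x hx a a0 a1 a2 => ?_⟩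
  have q1 := mul_pos (hk.kpos (cu x)) a1
  have q2 := mul_pos (hk.kpos (cv x)) a2
  have b3 : C 3 x ≤ K3 * (k (cu x) * k (cv x)) := by
    have e1 := (le_abs_self _).trans (h3 x hx)
    have e2 : ex κ x ≤ k (cu x) * k (cv x) := by
      rw [ex_eq, mul_comm]
      exact mul_le_mul (hk.low _) (hk.low _) (Real.exp_pos _).le (hk.kpos _).le
    rw [← le_div_iff₀ (Real.exp_pos _), div_eq_mul_inv, ← Real.exp_neg] at e1
    simp only [Pi.one_apply, abs_one, mul_one] at e1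
    exact e1.trans (mul_le_mul_of_nonneg_left e2 p3)
  have b : ‖((0, 0, h1 C x a, h2 C x a) : R4)‖ ≤ (K * K3 + 1) * (k (cu x) * cu a + k (cv x) * cv a) := by
    refine le_of_sq_le_sq ?_ (by positivity) |> fun h => h
    have e1 := hl x hx (0, 0, h1 C x a, h2 C x a) rfl rfl
    rw [form_split, sub_neg, mul_assoc] at a0
    have e2 := mul_le_mul_of_nonneg_right b3 (mul_pos a1 a2).le
    have e3 := mul_le_mul_of_nonneg_left (a0.le.trans e2) p
    generalize hs : k (cu x) * cu a = s at *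
    generalize ht : k (cv x) * cv a = t at *
    have e4 : K * (K3 * (k (cu x) * k (cv x)) * (cu a * cv a)) = K * K3 * (s * t) := by
      rw [← hs, ← ht]; ring
    have e5 : 0 ≤ K * K3 := by positivity
    rw [mul_pow]
    refine (e1.trans e3).trans (e4.le.trans (mul_le_mul (by nlinarith) (by nlinarith)
      (by positivity) (by positivity)))
  have n := (norm_snd_le _).trans ((norm_snd_le _).trans b)
  have c : ∀ (z h s t c c' : ℝ), |h| ≤ (K * K3 + 1) * (k (cu x) * cu a + k (cv x) * cv a) →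
      |s| ≤ c * |kv k x| → |t| ≤ c' * |ku k x| → c ≤ K4 + K5 + K6 + K7 → c' ≤ K4 + K5 + K6 + K7 →
      h = z - s * cv a - t * cu a →
      |z| ≤ (K * K3 + 1 + (K4 + K5 + K6 + K7)) * (k (cu x) * cu a + k (cv x) * cv a) := by
    intro z h s t c c' b1 b2 b3 b4 b5 e
    rw [abs_of_pos (hk.kpos _)] at b2 b3
    have e1 : |s * cv a| ≤ (K4 + K5 + K6 + K7) * (k (cv x) * cv a) := by
      rw [abs_mul, abs_of_pos a2, ← mul_assoc]
      exact mul_le_mul_of_nonneg_right (b2.trans (mul_le_mul_of_nonneg_right b4 (hk.kpos _).le)) a2.le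
    have e2 : |t * cu a| ≤ (K4 + K5 + K6 + K7) * (k (cu x) * cu a) := by
      rw [abs_mul, abs_of_pos a1, ← mul_assoc]
      exact mul_le_mul_of_nonneg_right (b3.trans (mul_le_mul_of_nonneg_right b5 (hk.kpos _).le)) a1.le
    rw [show z = h + s * cv a + t * cu a by rw [e]; ring]
    refine (abs_add_three _ _ _).trans ?_
    linarith
  obtain ⟨n1, n2⟩ := norm_prod_le_iff.1 n
  exact norm_prod_le_iff.2 ⟨c _ _ _ _ _ _ n1 (h4 x hx) (h6 x hx) (by linarith) (by linarith) rfl,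
    c _ _ _ _ _ _ n2 (h5 x hx) (h7 x hx) (by linarith) (by linarith) rfl⟩

lemma trav (hM : IsSpacetime Reg M) (h : Ch M e C Q) (hb : TB C Q K k) (hP : Pr k P)
    (ha : IsFutureCurve M 0 (Ico 0 1) a) {s t : ℝ} (hs : 0 < s) (hst : s ≤ t) (ht : t < 1)
    (hin : ∀ r ∈ Icc s t, On e (a r) ∧ co e (a r) ∈ Q) :
    ‖(co e (a t)).2.2 - (co e (a s)).2.2‖ ≤ K * (P (cu (co e (a t))) + P (cv (co e (a t)))) -
      K * (P (cu (co e (a s))) + P (cv (co e (a s)))) := by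
  have key : ∀ r ∈ Icc s t, ∃ w f', HasDerivAt (fun r => (co e (a r)).2.2 - (co e (a s)).2.2) w r ∧
      HasDerivAt (fun r => K * (P (cu (co e (a r))) + P (cv (co e (a r)))) -
        K * (P (cu (co e (a s))) + P (cv (co e (a s))))) f' r ∧ ‖w‖ ≤ f' := fun r hr => by
    obtain ⟨w, w1, w2, w3⟩ := curve_der ha ⟨hs.trans_le hr.1, hr.2.trans_lt ht⟩ (hin r hr).1
    obtain ⟨f1, f2⟩ := h.fut hM (hin r hr).2 w2 w3
    exact ⟨_, _, (hd2 (hd2 w1)).sub_const _, ((((hP.der _).comp r (hd1 w1)).add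
      ((hP.der _).comp r (hd1 (hd2 w1)))).const_mul K).sub_const _,
      hb _ (hin r hr).2 w ((h.met _ (hin r hr).2).1 w ▸ w2) f1 f2⟩
  choose! w f' k1 k2 k3 using key
  exact image_norm_le_of_norm_deriv_right_le_deriv_boundary'
    (fun r hr => (k1 r hr).continuousAt.continuousWithinAt)
    (fun r hr => (k1 r (Ico_subset_Icc_self hr)).hasDerivWithinAt) (by simp)
    (fun r hr => (k2 r hr).continuousAt.continuousWithinAt)
    (fun r hr => (k2 r (Ico_subset_Icc_self hr)).hasDerivWithinAt)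
    (fun r hr => k3 r (Ico_subset_Icc_self hr)) ⟨hst, le_rfl⟩

lemma ev_Ioo {p : ℝ → Prop} (h : ∀ᶠ t in 𝓝[<] (1 : ℝ), p t) :
    ∃ t0, 0 < t0 ∧ t0 < 1 ∧ ∀ t ∈ Ico t0 1, p t := by
  obtain ⟨l, hl, h⟩ := (mem_nhdsLT_iff_exists_Ioo_subset).1 h
  obtain ⟨t, t1, t2⟩ := exists_between (max_lt (mem_Iio.1 hl) zero_lt_one)
  exact ⟨t, (le_max_right _ _).trans_lt t1, t2, fun s hs =>
    h ⟨((le_max_left _ _).trans_lt t1).trans_le hs.1, hs.2⟩⟩

/-- A future curve which stays in the chart converges in the angles. -/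
lemma conv (hM : IsSpacetime Reg M) (h : Ch M e C Q) (hb : TB C Q K k) (hP : Pr k P)
    (ha : IsFutureCurve M 0 (Ico 0 1) a) (hin : ∀ᶠ t in 𝓝[<] 1, On e (a t) ∧ co e (a t) ∈ Q)
    {l : ℝ} (hl : Tendsto (fun t => P (cu (co e (a t))) + P (cv (co e (a t)))) (𝓝[<] 1) (𝓝 l)) :
    ∃ y, Tendsto (fun t => (co e (a t)).2.2) (𝓝[<] 1) (𝓝 y) := by
  obtain ⟨t0, p0, p1, h0⟩ := ev_Ioo hin
  have h2 := hl.const_mul K
  generalize hf : (fun t => K * (P (cu (co e (a t))) + P (cv (co e (a t))))) = f at h2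
  have k1 : ∀ s ∈ Ioo t0 1, ∀ t ∈ Ioo t0 1, s ≤ t →
      ‖(co e (a t)).2.2 - (co e (a s)).2.2‖ ≤ f t - f s := fun s hs t ht hst =>
    hf ▸ trav hM h hb hP ha (p0.trans hs.1) hst ht.2 fun r hr =>
      h0 r ⟨hs.1.le.trans hr.1, hr.2.trans_lt ht.2⟩
  have k2 : ∀ s ∈ Ioo t0 1, ∀ t ∈ Ioo t0 1,
      dist (co e (a s)).2.2 (co e (a t)).2.2 ≤ |f s - f t| := by
    intro s hs t ht
    rcases le_total s t with h | h
    · rw [dist_comm, dist_eq_norm, abs_sub_comm]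
      exact (k1 s hs t ht h).trans (le_abs_self _)
    · rw [dist_eq_norm]
      exact (k1 t ht s hs h).trans (le_abs_self _)
  rw [← cauchy_map_iff_exists_tendsto, cauchy_map_iff', tendsto_uniformity_iff_dist_tendsto_zero]
  have k3 : Tendsto (fun p : ℝ × ℝ => |f p.1 - f p.2|) (𝓝[<] 1 ×ˢ 𝓝[<] 1) (𝓝 0) := by
    simpa using ((h2.comp tendsto_fst).sub (h2.comp (tendsto_snd (f := 𝓝[<] (1 : ℝ))))).abs
  refine squeeze_zero' (Eventually.of_forall fun _ => dist_nonneg) ?_ k3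
  filter_upwards [prod_mem_prod (Ioo_mem_nhdsLT p1) (Ioo_mem_nhdsLT p1)] with p hp
  exact k2 _ hp.1 _ hp.2

end Vale.Agent.P354L
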