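import Vale.Agent.P354L.Defs

/-!
The calculus of the classes W.
-/

open scoped ContDiff
open MeasureTheory Set Filter Topology

namespace Vale.Agent.P354L

open Vale.Agent.P354n (R4 cu cv du dv)

variable {E F G : Type} [NormedAddCommGroup E] [NormedSpace ℝ E] [NormedAddCommGroup F]
  [NormedSpace ℝ F] [NormedAddCommGroup G] [NormedSpace ℝ G]
  {Q Q' : Set R4} {L : List Lev} {f g : R4 → E} {w w' : R4 → ℝ} {x a b : R4}

lemma dif (h : ContDiffAt ℝ ∞ f x) : DifferentiableAt ℝ f x := h.differentiableAt (by simp)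

lemma ev_dif (h : ContDiffAt ℝ ∞ f x) : ∀ᶠ y in 𝓝 x, DifferentiableAt ℝ f y :=
  ((h.of_le (m := 1) (by simp)).eventually (by simp)).mono fun _ hy =>
    hy.differentiableAt one_ne_zero

lemma D_sm (a : R4) (h : ContDiffAt ℝ ∞ f x) : ContDiffAt ℝ ∞ (D a f) x :=
  (h.fderiv_right (m := ∞) le_rfl).clm_apply contDiffAt_const

lemma D_smu (a : R4) (h : ContDiff ℝ ∞ f) : ContDiff ℝ ∞ (D a f) :=
  contDiff_iff_contDiffAt.2 fun _ => D_sm a h.contDiffAt

lemma D_congr (a : R4) (h : f =ᶠ[𝓝 x] g) : D a f =ᶠ[𝓝 x] D a g :=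
  h.fderiv.mono fun _ hy => congrArg (fun A : R4 →L[ℝ] E => A a) hy

lemma D_comm (a b : R4) (h : ContDiffAt ℝ 2 f x) : D a (D b f) x = D b (D a f) x := by
  have h1 : DifferentiableAt ℝ (fderiv ℝ f) x :=
    (h.fderiv_right (m := 1) le_rfl).differentiableAt one_ne_zero
  have h2 : ∀ a b : R4, D a (D b f) x = fderiv ℝ (fderiv ℝ f) x a b := fun a b => by
    show fderiv ℝ (fun y => fderiv ℝ f y b) x a = _
    rw [fderiv_clm_apply h1 (differentiableAt_const _)]
    simp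
  rw [h2, h2]
  exact h.isSymmSndFDerivAt (by simp) a b

lemma D_comm_ev (a b : R4) (h : ContDiffAt ℝ ∞ f x) : D a (D b f) =ᶠ[𝓝 x] D b (D a f) :=
  ((h.of_le (m := 2) (by norm_cast)).eventually (by simp)).mono fun _ hy => D_comm a b hy

lemma W.sm (h : W Q L f w) : ∀ x ∈ Q, ContDiffAt ℝ ∞ f x := by
  induction L with
  | nil => exact h.1
  | cons S L ih => exact ih h.1

lemma W.bd (h : W Q L f w) : ∃ K, 0 ≤ K ∧ ∀ x ∈ Q, ‖f x‖ ≤ K * |w x| := by
  induction L with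
  | nil =>
    obtain ⟨K, hK⟩ := h.2
    exact ⟨max K 0, le_max_right _ _, fun x hx => (hK x hx).trans
      (mul_le_mul_of_nonneg_right (le_max_left _ _) (abs_nonneg _))⟩
  | cons S L ih => exact ih h.1

lemma W.congr (h : W Q L f w) (e : ∀ x ∈ Q, g =ᶠ[𝓝 x] f) : W Q L g w := by
  induction L generalizing f g w with
  | nil =>
    obtain ⟨h1, K, hK⟩ := h
    exact ⟨fun x hx => (h1 x hx).congr_of_eventuallyEq (e x hx), K, fun x hx =>
      (e x hx).self_of_nhds ▸ hK x hx⟩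
  | cons S L ih => exact ⟨ih h.1 e, fun q hq => ih (h.2 q hq) fun x hx => D_congr _ (e x hx)⟩

lemma W.mono (h : W Q L f w) (c : ℝ) (e : ∀ x ∈ Q, |w x| ≤ c * |w' x|) : W Q L f w' := by
  induction L generalizing f w w' with
  | nil =>
    obtain ⟨K, h0, hK⟩ := h.bd
    exact ⟨h.1, K * c, fun x hx => (hK x hx).trans
      (mul_assoc K c _ ▸ mul_le_mul_of_nonneg_left (e x hx) h0)⟩
  | cons S L ih =>
    refine ⟨ih h.1 e, fun q hq => ih (h.2 q hq) fun x hx => ?_⟩
    simp only [Pi.mul_apply, abs_mul, ← mul_assoc]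
    exact mul_le_mul_of_nonneg_right (e x hx) (abs_nonneg _)

lemma W.eqw (h : W Q L f w) (e : ∀ x ∈ Q, w x = w' x) : W Q L f w' :=
  h.mono 1 fun x hx => by rw [e x hx, one_mul]

lemma W.on (h : W Q L f w) (e : Q' ⊆ Q) : W Q' L f w := by
  induction L generalizing f w with
  | nil =>
    obtain ⟨h1, K, hK⟩ := h
    exact ⟨fun x hx => h1 x (e hx), K, fun x hx => hK x (e hx)⟩
  | cons S L ih => exact ⟨ih h.1, fun q hq => ih (h.2 q hq)⟩

lemma D_const (a : R4) (c : E) : D a (fun _ => c) = fun _ => 0 := by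
  funext x
  simp [D]

lemma W.zero : W Q L (fun _ => (0 : E)) w := by
  induction L generalizing w with
  | nil => exact ⟨fun _ _ => contDiffAt_const, 0, by simp⟩
  | cons S L ih => exact ⟨ih, fun q _ => by rw [D_const]; exact ih⟩

lemma W.const (c : E) : W Q L (fun _ => c) 1 := by
  induction L with
  | nil => exact ⟨fun _ _ => contDiffAt_const, ‖c‖, by simp⟩
  | cons S L ih => exact ⟨ih, fun q _ => by rw [D_const]; exact W.zero⟩

lemma D_add (a : R4) (hf : DifferentiableAt ℝ f x) (hg : DifferentiableAt ℝ g x) :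
    D a (fun y => f y + g y) x = D a f x + D a g x := by
  simp [D, fderiv_fun_add hf hg]

lemma D_sub (a : R4) (hf : DifferentiableAt ℝ f x) (hg : DifferentiableAt ℝ g x) :
    D a (fun y => f y - g y) x = D a f x - D a g x := by
  simp [D, fderiv_fun_sub hf hg]

lemma D_clm (a : R4) (A : E →L[ℝ] F) (hf : DifferentiableAt ℝ f x) :
    D a (fun y => A (f y)) x = A (D a f x) :=
  congrArg (fun B : R4 →L[ℝ] F => B a) (A.hasFDerivAt.comp x hf.hasFDerivAt).fderiv

lemma D_bil (a : R4) (B : E →L[ℝ] F →L[ℝ] G) {g : R4 → F} (hf : DifferentiableAt ℝ f x)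
    (hg : DifferentiableAt ℝ g x) :
    D a (fun y => B (f y) (g y)) x = B (D a f x) (g x) + B (f x) (D a g x) := by
  simp [D, B.fderiv_of_bilinear hf hg, add_comm]

lemma W.add (h : W Q L f w) (h' : W Q L g w) : W Q L (fun y => f y + g y) w := by
  induction L generalizing f g w with
  | nil =>
    obtain ⟨h1, K, hK⟩ := h
    obtain ⟨h2, K', hK'⟩ := h'
    exact ⟨fun x hx => (h1 x hx).add (h2 x hx), K + K', fun x hx => (norm_add_le _ _).trans
      (add_mul K K' _ ▸ add_le_add (hK x hx) (hK' x hx))⟩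
  | cons S L ih =>
    refine ⟨ih h.1 h'.1, fun q hq => (ih (h.2 q hq) (h'.2 q hq)).congr fun x hx => ?_⟩
    filter_upwards [ev_dif (h.sm x hx), ev_dif (h'.sm x hx)] with y h1 h2 using D_add _ h1 h2

lemma W.bil (B : E →L[ℝ] F →L[ℝ] G) {g : R4 → F} (h : W Q L f w) (h' : W Q L g w') :
    W Q L (fun y => B (f y) (g y)) (w * w') := by
  induction L generalizing f g w w' with
  | nil =>
    obtain ⟨K, h0, hK⟩ := h.bd
    obtain ⟨K', h0', hK'⟩ := h'.bd
    refine ⟨fun x hx => (B.contDiff.contDiffAt.comp x (h.1 x hx)).clm_apply (h'.1 x hx),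
      ‖B‖ * K * K', fun x hx => (B.le_opNorm₂ _ _).trans ?_⟩
    calc _ ≤ ‖B‖ * (K * |w x|) * (K' * |w' x|) := by
          have := hK x hx
          have := hK' x hx
          gcongr
      _ = _ := by rw [Pi.mul_apply, abs_mul]; ring
  | cons S L ih =>
    refine ⟨ih h.1 h'.1, fun q hq => (((ih (h.2 q hq) h'.1).eqw fun x _ => ?_).add
      ((ih h.1 (h'.2 q hq)).eqw fun x _ => ?_)).congr fun x hx => ?_⟩
    · simp only [Pi.mul_apply]; ring
    · simp only [Pi.mul_apply]; ring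
    · filter_upwards [ev_dif (h.sm x hx), ev_dif (h'.sm x hx)] with y h1 h2 using D_bil _ B h1 h2

lemma W.clm (A : E →L[ℝ] F) (h : W Q L f w) : W Q L (fun y => A (f y)) w :=
  ((W.const A).bil (ContinuousLinearMap.id ℝ (E →L[ℝ] F)) h).eqw fun x _ => by simp

lemma W.smul {c : R4 → ℝ} (h : W Q L c w) (h' : W Q L f w') :
    W Q L (fun y => c y • f y) (w * w') := h.bil (ContinuousLinearMap.lsmul ℝ ℝ) h'

lemma W.mul {c c' : R4 → ℝ} (h : W Q L c w) (h' : W Q L c' w') :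
    W Q L (fun y => c y * c' y) (w * w') := h.smul h'

/-- Products with a bounded factor. -/
lemma W.mul1 {c c' : R4 → ℝ} (h : W Q L c 1) (h' : W Q L c' w) :
    W Q L (fun y => c y * c' y) w := one_mul w ▸ h.mul h'

lemma W.mul2 {c c' : R4 → ℝ} (h : W Q L c w) (h' : W Q L c' 1) :
    W Q L (fun y => c y * c' y) w := mul_one w ▸ h.mul h'

lemma W.cmul (c : ℝ) {c' : R4 → ℝ} (h : W Q L c' w) : W Q L (fun y => c * c' y) w :=
  (W.const c).mul1 h

lemma W.neg (h : W Q L f w) : W Q L (fun y => -f y) w := h.clm (-ContinuousLinearMap.id ℝ E)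

lemma W.sub (h : W Q L f w) (h' : W Q L g w) : W Q L (fun y => f y - g y) w := by
  simpa only [sub_eq_add_neg] using h.add h'.neg

lemma W.fst {f : R4 → E × F} (h : W Q L f w) : W Q L (fun y => (f y).1) w :=
  h.clm (ContinuousLinearMap.fst ℝ E F)

lemma W.snd {f : R4 → E × F} (h : W Q L f w) : W Q L (fun y => (f y).2) w :=
  h.clm (ContinuousLinearMap.snd ℝ E F)

lemma W.pair {g : R4 → F} (h : W Q L f w) (h' : W Q L g w) : W Q L (fun y => (f y, g y)) w := by
  simpa using (h.clm (ContinuousLinearMap.inl ℝ E F)).add (h'.clm (ContinuousLinearMap.inr ℝ E F))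

/-- The map which moves the angular coordinates by Φ. -/
def sh (Φ : R4 → ℝ × ℝ) (x : R4) : R4 := (x.1, x.2.1, x.2.2 + Φ x)

/-- The derivatives of Φ are in the class. -/
def W' (Q : Set R4) : List Lev → (R4 → ℝ × ℝ) → Prop
  | [], Φ => ∀ x ∈ Q, ContDiffAt ℝ ∞ Φ x
  | S :: L, Φ => W' Q L Φ ∧ ∀ q ∈ S, W Q L (D q.1 Φ) q.2

variable {Φ : R4 → ℝ × ℝ}

lemma W'.sm (h : W' Q L Φ) : ∀ x ∈ Q, ContDiffAt ℝ ∞ Φ x := by
  induction L with
  | nil => exact h
  | cons S L ih => exact ih h.1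

lemma sh_sm (h : ContDiffAt ℝ ∞ Φ x) : ContDiffAt ℝ ∞ (sh Φ) x := by
  unfold sh
  fun_prop

lemma fderiv_sh (h : DifferentiableAt ℝ Φ x) (a : R4) :
    fderiv ℝ (sh Φ) x a = (a.1, a.2.1, a.2.2 + D a Φ x) :=
  congrArg (fun B : R4 →L[ℝ] R4 => B a) (hasFDerivAt_fst.prodMk (hasFDerivAt_snd.fst.prodMk
    (hasFDerivAt_snd.snd.add h.hasFDerivAt))).fderiv

lemma D_comp {T : R4 → R4} (a : R4) (hf : DifferentiableAt ℝ f (T x)) (h : DifferentiableAt ℝ T x) :
    D a (fun y => f (T y)) x = D (fderiv ℝ T x a) f (T x) :=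
  congrArg (fun B : R4 →L[ℝ] E => B a) (fderiv_fun_comp x hf h)

lemma D_sh (a : R4) (hf : DifferentiableAt ℝ f (sh Φ x)) (h : DifferentiableAt ℝ Φ x) :
    D a (fun y => f (sh Φ y)) x = D a f (sh Φ x) + (D a Φ x).1 • D d1 f (sh Φ x) +
      (D a Φ x).2 • D d2 f (sh Φ x) := by
  rw [D_comp a hf (by unfold sh; fun_prop), fderiv_sh h]
  simp only [D, ← map_smul, ← map_add]
  congr 1
  ext <;> simp [d1, d2]

/-- The levels contain the angular directions, and the weights do not depend on the angles. -/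
def Ok (L : List Lev) : Prop :=
  ∀ S ∈ L, (d1, 1) ∈ S ∧ (d2, 1) ∈ S ∧ ∀ q ∈ S, ∀ x y, q.2 (x.1, x.2.1, y) = q.2 x

lemma W.comp (h : W Q L f w) (hL : Ok L) (hΦ : W' Q' L Φ) (hQ : ∀ x ∈ Q', sh Φ x ∈ Q) :
    W Q' L (fun y => f (sh Φ y)) (fun y => w (sh Φ y)) := by
  induction L generalizing f w with
  | nil =>
    obtain ⟨h1, K, hK⟩ := h
    exact ⟨fun x hx => (h1 _ (hQ x hx)).comp x (sh_sm (hΦ x hx)), K, fun x hx => hK _ (hQ x hx)⟩
  | cons S L ih =>
    have hL' : Ok L := fun S hS => hL S (List.mem_cons_of_mem _ hS)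
    obtain ⟨k1, k2, k3⟩ := hL S List.mem_cons_self
    refine ⟨ih h.1 hL' hΦ.1, fun q hq => ((((ih (h.2 q hq) hL' hΦ.1).eqw fun x _ => ?_).add
      (((hΦ.2 q hq).fst.smul (ih (h.2 _ k1) hL' hΦ.1)).eqw fun x _ => ?_)).add
      (((hΦ.2 q hq).snd.smul (ih (h.2 _ k2) hL' hΦ.1)).eqw fun x _ => ?_)).congr fun x hx => ?_⟩
    · simp only [Pi.mul_apply, sh, k3 q hq]
    · simp [mul_comm]
    · simp [mul_comm]
    · filter_upwards [(sh_sm (hΦ.sm x hx)).continuousAt.eventually (ev_dif (h.sm _ (hQ x hx))),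
        ev_dif (hΦ.sm x hx)] with y h1 h2 using D_sh _ h1 h2

end Vale.Agent.P354L
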