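import Vale.Agent.P354L.Front

/-!
Curves which end at the corner; the exchange of u and v; curves in the two base charts.
-/

open scoped ContDiff
open MeasureTheory Set Filter Topology

namespace Vale.Agent.P354L

open Vale.Agent.P354n (R4 cu cv c1 c2 du dv form h1 h2 Spc On tgt co inv IsSpacetime IsFutureCurve
  IsDNBox InLp nullBox cornerBox EndsAt EndsAtFront EndsAtCorner)

variable {Reg : (R4 → ℝ) → Set R4 → Prop} {M : Spc} {e e' : M.Chart} {C : ℕ → R4 → ℝ}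
  {Q : Set R4} {x : R4} {a : ℝ → M.pt} {K κ s : ℝ} {k P : ℝ → ℝ}

theorem corner (hM : IsSpacetime Reg M) (hS : Sat M) (hk : Wt κ k) (h : Ch M e C Q) (N : NB κ k Q C)
    {p0 q0 r0 : ℝ} {y : ℝ × ℝ} (hr : 0 < r0)
    (hQ : ∀ x, p0 < cu x → q0 < cv x → ‖x.2.2 - y‖ < r0 → x ∈ Q)
    (a1 : ∀ᶠ t in 𝓝[<] 1, On e (a t)) (a2 : Tendsto (fun t => cu (co e (a t))) (𝓝[<] 1) atTop)
    (a3 : Tendsto (fun t => cv (co e (a t))) (𝓝[<] 1) atTop)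
    (a4 : Tendsto (fun t => (co e (a t)).2.2) (𝓝[<] 1) (𝓝 y))
    (hb : ∀ b, IsFutureCurve M 0 (Ico 0 1) b → (∀ᶠ t in 𝓝[<] 1, On e (b t) ∧ co e (b t) ∈ Q) →
      (∃ p, Tendsto (fun t => cu (co e (b t))) (𝓝[<] 1) (𝓝 p)) ∧
        Tendsto (fun t => cv (co e (b t))) (𝓝[<] 1) atTop ∨
      Tendsto (fun t => cu (co e (b t))) (𝓝[<] 1) atTop ∧
        (∃ p, Tendsto (fun t => cv (co e (b t))) (𝓝[<] 1) (𝓝 p)) → EndsAtFront 2 M b) :
    EndsAtCorner 2 M a := by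
  have hκ := hk.pos
  obtain ⟨e', ch, rel⟩ := h.box hM hS hκ
  obtain ⟨K0, p1, hK⟩ := box hk ch N
  obtain ⟨K, k1⟩ := hK.exists
  obtain ⟨l, l0, hl⟩ := mem_nhdsLT_iff_exists_Ioo_subset.1
    ((lg_lim hκ).eventually ((eventually_gt_atTop p0).and (eventually_gt_atTop q0)))
  obtain ⟨r, r1, r2⟩ := exists_between (lt_min (neg_pos.2 (mem_Iio.1 l0)) hr)
  obtain ⟨r2, r3⟩ := lt_min_iff.1 r2
  have hb' : cornerBox (0, 0, y) r ⊆ boxQ κ Q := fun x hx => by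
    obtain ⟨w1, w2, w3⟩ := norm_lt.1 hx.1.1
    exact ⟨hx.2, hx.1.2, hQ _ (hl (a := x.1) ⟨by linarith [(abs_lt.1 w1).1], hx.2⟩).1
      (hl (a := x.2.1) ⟨by linarith [(abs_lt.1 w2).1], hx.1.2⟩).2 (w3.trans r3)⟩
  refine ⟨e', boxC κ C, (0, 0, y), r, K, kb κ k K0, k1 _ hb' _ _ _ (fun x hx => ⟨le_rfl, le_rfl⟩) ?_,
    rfl, rfl, ends_box hκ rel (a1.and (by
      filter_upwards [a2.eventually (eventually_gt_atTop p0), a3.eventually (eventually_gt_atTop q0),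
        a4.eventually (Metric.ball_mem_nhds _ hr)] with t t1 t2 t3 using hQ _ t1 t2 t3))
      (((em_lim hκ).comp a2).prodMk_nhds (((em_lim hκ).comp a3).prodMk_nhds a4)) r1,
    fun b b1 z hz _ z2 z3 => ?_⟩
  · rintro f (rfl | rfl) <;> exact kb_int hk _ (neg_neg_of_pos r1)
  have m : ∀ᶠ t in 𝓝[<] 1, On e (b t) ∧ co e (b t) = Rm κ (co e' (b t)) :=
    hz.1.mono fun t ht => (rel _ _ (hb' ht.2)).1 ⟨ht.1, rfl⟩
  have e1 : (fun t => lg κ (co e' (b t)).1) =ᶠ[𝓝[<] 1] fun t => cu (co e (b t)) :=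
    m.mono fun t ht => by simp only [ht.2]; rfl
  have e2 : (fun t => lg κ (co e' (b t)).2.1) =ᶠ[𝓝[<] 1] fun t => cv (co e (b t)) :=
    m.mono fun t ht => by simp only [ht.2]; rfl
  have l1 := hz.2.fst_nhds
  have l2 := hz.2.snd_nhds.fst_nhds
  have z3' : z.1 + z.2.1 < 0 := z3
  refine hb b b1 ((m.and hz.1).mono fun t ht => ⟨ht.1.1, ht.1.2 ▸ (hb' ht.2.2).2.2⟩) ?_
  rcases mul_eq_zero.1 (show z.1 * z.2.1 = 0 from z2) with z0 | z0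
  · exact .inr ⟨((lg_lim hκ).comp (tendsto_nhdsWithin_iff.2 ⟨z0 ▸ l1, hz.1.mono fun t ht =>
      ht.2.2⟩)).congr' e1, _, (((lg_sm κ (by linarith)).continuousAt.tendsto).comp l2).congr' e2⟩
  · exact .inl ⟨⟨_, (((lg_sm κ (by linarith)).continuousAt.tendsto).comp l1).congr' e1⟩,
      ((lg_lim hκ).comp (tendsto_nhdsWithin_iff.2 ⟨z0 ▸ l2, hz.1.mono fun t ht =>
        ht.2.1.2⟩)).congr' e2⟩

/-- The exchange of u and v as a linear map. -/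
noncomputable def swL : R4 ≃L[ℝ] R4 :=
  let L : R4 →L[ℝ] R4 := tv.prod (tu.prod ((ContinuousLinearMap.snd ℝ ℝ _).comp
    (ContinuousLinearMap.snd ℝ ℝ _)))
  .equivOfInverse L L (fun _ => rfl) fun _ => rfl

lemma D_sw {E : Type} [NormedAddCommGroup E] [NormedSpace ℝ E] (a : R4) (f : R4 → E) :
    D a (fun y => f (sw y)) = fun x => D (sw a) f (sw x) := funext fun x =>
  congrArg (fun B : R4 →L[ℝ] E => B a) (swL.comp_right_fderiv (f := f) (x := x))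

lemma sw_sm : ContDiff ℝ ∞ sw := swL.contDiff

lemma fderiv_sw (x a : R4) : fderiv ℝ sw x a = sw a :=
  congrArg (fun B : R4 →L[ℝ] R4 => B a) (swL.fderiv (x := x))

lemma Sy.sw {E : Type} [NormedAddCommGroup E] [NormedSpace ℝ E] {f : R4 → E} {w : R4 → ℝ} {n : ℕ}
    (h : Sy Q n f w) : Sy (sw ⁻¹' Q) n (fun y => f (sw y)) fun y => w (sw y) :=
  h.comp0 sw_sm (fun _ => id) fun x a ha => by
    rw [fderiv_sw]
    rcases ha with rfl | rfl <;> rfl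

/-- The coefficients after the exchange. -/
def swC (C : ℕ → R4 → ℝ) : ℕ → R4 → ℝ
  | 4 => fun x => C 6 (sw x)
  | 5 => fun x => C 7 (sw x)
  | 6 => fun x => C 4 (sw x)
  | 7 => fun x => C 5 (sw x)
  | i => fun x => C i (sw x)

lemma swC_lt (C : ℕ → R4 → ℝ) {i : ℕ} (hi : i < 3) : swC C i = fun x => C i (sw x) := by
  interval_cases i <;> rfl

lemma form_sw (C : ℕ → R4 → ℝ) (x a : R4) : form C (sw x) (sw a) = form (swC C) x a := by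
  simp only [form, h1, h2, swC, cu, cv, c1, c2, sw]
  ring

lemma Ch.sw (hM : IsSpacetime Reg M) (hS : Sat M) (h : Ch M e C Q) :
    ∃ e', Ch M e' (swC C) (sw ⁻¹' Q) ∧ Rel e e' sw (sw ⁻¹' Q) :=
  h.trans hM hS (h.opn.preimage sw_sm.continuous) sw_sm (fun _ => rfl) fun x hx =>
    ⟨sw_sm.contDiffAt, hx, rfl, fun a => by rw [fderiv_sw, form_sw],
      fun a ha _ => by rwa [fderiv_sw] at ha, (h.met _ hx).2.2.1,
      fun a a1 a2 => form_sw C x a ▸ (h.met _ hx).2.2.2 _ a2 a1⟩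

lemma NB.sw (N : NB κ k Q C) : NB κ k (sw ⁻¹' Q) (swC C) := by
  have e : ∀ x, cu x + cv x = cu (P354L.sw x) + cv (P354L.sw x) := fun x => add_comm _ _
  refine ⟨fun i hi => ?_, ?_, ?_, ?_⟩
  · rw [swC_lt C hi, D_sw, D_sw]
    exact ⟨(N.gam i hi).1.sw, (N.gam i hi).2.2.sw, (N.gam i hi).2.1.sw⟩
  · rintro _ rfl
    obtain ⟨o1, o2, o3⟩ := N.om _ rfl
    rw [show (fun x => swC C 3 x * Real.exp (κ * (cu x + cv x))) = fun y =>
      (fun x => C 3 x * Real.exp (κ * (cu x + cv x))) (P354L.sw y) from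
        funext fun x => by rw [e x]; rfl, D_sw du fun x => C 3 x * Real.exp (κ * (cu x + cv x)),
      D_sw dv fun x => C 3 x * Real.exp (κ * (cu x + cv x))]
    exact ⟨o1.sw, o3.sw, o2.sw⟩
  · obtain ⟨K, p, hK⟩ := N.low
    exact ⟨K, p, fun x hx => ⟨e x ▸ (hK _ hx).1, fun a a1 a2 => by
      have := (hK _ hx).2 (P354L.sw a) a2 a1
      rwa [form_sw, show P354L.sw a = a from Prod.ext (a2.trans a1.symm)
        (Prod.ext (a1.trans a2.symm) rfl)] at this⟩⟩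
  · have k : ∀ i, i = 4 ∨ i = 5 → Sy (P354L.sw ⁻¹' Q) 1 (fun x => C (i + 2) (P354L.sw x)) (ev κ) ∧
        Sy (P354L.sw ⁻¹' Q) 0 (D du fun x => C (i + 2) (P354L.sw x)) (ex κ) ∧
        Sy (P354L.sw ⁻¹' Q) 1 (fun x => C i (P354L.sw x)) (eu κ) ∧
        Sy (P354L.sw ⁻¹' Q) 0 (D dv fun x => C i (P354L.sw x)) (ex κ) := fun i hi => by
      obtain ⟨s1, s2, s3, s4⟩ := N.sh i hi
      rw [D_sw, D_sw]
      exact ⟨s3.sw, W.eqw s4.sw fun x _ => by simp only [ex, e x], s1.sw,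
        W.eqw s2.sw fun x _ => by simp only [ex, e x]⟩
    rintro i (rfl | rfl)
    exacts [k 4 (.inl rfl), k 5 (.inr rfl)]

lemma le_of_w {f w : R4 → ℝ} {L : List Lev} (h : W Q L f w) : Le Q f w := h.bd

lemma NB.tb (N : NB κ k Q C) (hk : Wt κ k) : ∃ K, 0 ≤ K ∧ TB C Q K k :=
  P354L.tb hk ((le_of_w (N.sh 4 (.inl rfl)).1).trans (hk.le cv))
    ((le_of_w (N.sh 5 (.inr rfl)).1).trans (hk.le cv))
    ((le_of_w (N.sh 4 (.inl rfl)).2.2.1).trans (hk.le cu))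
    ((le_of_w (N.sh 5 (.inr rfl)).2.2.1).trans (hk.le cu)) (le_of_w (N.om _ rfl).1)
    (N.low.imp fun _ h => ⟨h.1, fun x hx => (h.2 x hx).2⟩)

lemma low_pos {K z : ℝ} (p : 0 ≤ K) (h : 1 ≤ K * z) : 0 < K ∧ 0 < z :=
  ⟨p.lt_of_ne fun h0 => by simp [← h0, not_le.2 one_pos] at h,
    pos_of_mul_pos_right (one_pos.trans_le h) p⟩

lemma pos_of_low (h : ∃ K, 0 ≤ K ∧ ∀ x ∈ Q, 1 ≤ K * (C 3 x * Real.exp (κ * (cu x + cv x))) ∧
    ∀ a, cu a = 0 → cv a = 0 → ‖a‖ ^ 2 ≤ K * form C x a) (hx : x ∈ Q) :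
    0 < C 3 x ∧ ∀ a, cu a = 0 → cv a = 0 → 0 ≤ form C x a := by
  obtain ⟨K, p, hK⟩ := h
  obtain ⟨k1, k2⟩ := low_pos p (hK x hx).1
  exact ⟨pos_of_mul_pos_left k2 (Real.exp_pos _).le, fun a a1 a2 =>
    nonneg_of_mul_nonneg_right ((sq_nonneg _).trans ((hK x hx).2 a a1 a2)) k1⟩

lemma mono_lim {f : ℝ → ℝ} (h : StrictMonoOn f (Ioo 0 1)) :
    (∃ L, Tendsto f (𝓝[<] 1) (𝓝 L)) ∨ Tendsto f (𝓝[<] 1) atTop := by
  by_cases hb : BddAbove (f '' Ioo 0 1)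
  · exact .inl ⟨_, h.monotoneOn.tendsto_nhdsWithin_Ioo_left (nonempty_Ioo.2 zero_lt_one) hb⟩
  · refine Or.inr (tendsto_atTop.2 fun b => ?_)
    obtain ⟨_, ⟨t, ht, rfl⟩, h1⟩ := not_bddAbove_iff.1 hb b
    filter_upwards [Ioo_mem_nhdsLT ht.2] with s hs
    exact h1.le.trans (h.monotoneOn ht ⟨ht.1.trans hs.1, hs.2⟩ hs.1.le)

lemma Pr.conv (hP : Pr k P) {f : ℝ → ℝ} (h : StrictMonoOn f (Ioo 0 1)) :
    ∃ l, Tendsto (fun t => P (f t)) (𝓝[<] 1) (𝓝 l) := by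
  rcases mono_lim h with ⟨L, hL⟩ | hL
  exacts [⟨_, (hP.cont.tendsto L).comp hL⟩, ⟨_, hP.lim.comp hL⟩]

section base
variable {u v : M.pt → ℝ} {c : Bool → M.Chart} {Cs : Bool → ℕ → R4 → ℝ} {δ u1 v1 : ℝ}
  {Θ0 Θ : Set (ℝ × ℝ)}

lemma Base.ch (B : Base M u v c Cs δ Θ0 Θ) (σ : Bool) (h : -δ < u1 + v1)
    (E : Est κ k (Qd u1 v1 Θ) (Cs σ)) : Ch M (c σ) (Cs σ) (Qd u1 v1 Θ) := by
  have m := fun x (hx : x ∈ Qd u1 v1 Θ) => B.met σ x (by linarith [hx.1, hx.2.1]) hx.2.2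
  exact ⟨(isOpen_lt continuous_const continuous_fst).inter ((isOpen_lt continuous_const
    continuous_snd.fst).inter (B.opn.preimage continuous_snd.snd)), fun x hx => (m x hx).1,
    fun x hx => ⟨(m x hx).2.1, (m x hx).2.2.1, pos_of_low E.low hx⟩⟩

lemma Base.mono (hM : IsSpacetime Reg M) (B : Base M u v c Cs δ Θ0 Θ)
    (E : ∀ σ u1 v1, -δ < u1 + v1 → Est κ k (Qd u1 v1 Θ) (Cs σ))
    (ha : IsFutureCurve M 0 (Ico 0 1) a) :
    StrictMonoOn (fun t => u (a t)) (Ioo 0 1) ∧ StrictMonoOn (fun t => v (a t)) (Ioo 0 1) := by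
  have key : ∀ t ∈ Ioo (0 : ℝ) 1, ∃ w : R4, 0 < cu w ∧ 0 < cv w ∧
      HasDerivAt (fun t => u (a t)) (cu w) t ∧ HasDerivAt (fun t => v (a t)) (cv w) t := by
    intro t ht
    obtain ⟨σ, o, m⟩ := B.cover (a t)
    obtain ⟨w, w1, w2, w3⟩ := curve_der ha ht o
    have d := B.dom (a t)
    have hd : -δ < (u (a t) - (u (a t) + v (a t) + δ) / 3) + (v (a t) - (u (a t) + v (a t) + δ) / 3) := by
      linarith
    obtain ⟨f1, f2⟩ := (B.ch σ hd (E σ _ _ hd)).fut hM ⟨by rw [(B.uv σ _ o).1]; linarith,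
      by rw [(B.uv σ _ o).2]; linarith, B.sub m⟩ w2 w3
    have ev : ∀ᶠ s in 𝓝 t, On (c σ) (a s) := (ha.1.continuousAt (Ico_mem_nhds ht.1 ht.2)).eventually
      ((M.toE _).open_source.mem_nhds o)
    exact ⟨w, f1, f2, (hd1 w1).congr_of_eventuallyEq (ev.mono fun s hs => (B.uv σ _ hs).1.symm),
      (hd1 (hd2 w1)).congr_of_eventuallyEq (ev.mono fun s hs => (B.uv σ _ hs).2.symm)⟩
  choose! w k1 k2 k3 k4 using key
  exact ⟨strictMonoOn_of_deriv_pos (convex_Ioo 0 1)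
    (fun t ht => (k3 t ht).continuousAt.continuousWithinAt) fun t ht => by
      rw [interior_Ioo] at ht
      exact (k3 t ht).deriv ▸ k1 t ht, strictMonoOn_of_deriv_pos (convex_Ioo 0 1)
    (fun t ht => (k4 t ht).continuousAt.continuousWithinAt) fun t ht => by
      rw [interior_Ioo] at ht
      exact (k4 t ht).deriv ▸ k2 t ht⟩

/-- Every future curve converges in the angles in one of the charts. -/
lemma Base.lim (hM : IsSpacetime Reg M) (B : Base M u v c Cs δ Θ0 Θ) (hk : Wt κ k) (hP : Pr k P)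
    (E : ∀ σ u1 v1, -δ < u1 + v1 → Est κ k (Qd u1 v1 Θ) (Cs σ))
    (ha : IsFutureCurve M 0 (Ico 0 1) a) : ∃ σ, ∃ θ ∈ Θ, (∀ᶠ t in 𝓝[<] 1, On (c σ) (a t)) ∧
      Tendsto (fun t => (co (c σ) (a t)).2.2) (𝓝[<] 1) (𝓝 θ) := by
  obtain ⟨mu, mv⟩ := B.mono hM E ha
  have hd := B.dom (a 2⁻¹)
  have ch := fun σ => B.ch σ hd (E σ _ _ hd)
  have z : ∀ σ i, (∀ x ∈ Qd (u (a 2⁻¹)) (v (a 2⁻¹)) Θ, Cs σ i x = 0) →
      Le (Qd (u (a 2⁻¹)) (v (a 2⁻¹)) Θ) (Cs σ i) (ku k) := fun σ i h =>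
    ⟨0, le_rfl, fun x hx => by simp [h x hx]⟩
  have m := fun σ x (hx : x ∈ Qd (u (a 2⁻¹)) (v (a 2⁻¹)) Θ) =>
    B.met σ x (by linarith [hx.1, hx.2.1]) hx.2.2
  choose K K0 hK using fun σ => tb hk (le_of_w ((E σ _ _ hd).sh 4 (.inl rfl)).1)
    (le_of_w ((E σ _ _ hd).sh 5 (.inr rfl)).1) (z σ 6 fun x hx => (m σ x hx).2.2.2.1)
    (z σ 7 fun x hx => (m σ x hx).2.2.2.2) (le_of_w ((E σ _ _ hd).om _ rfl).1)
    ((E σ _ _ hd).low.imp fun _ h => ⟨h.1, fun x hx => (h.2 x hx).2⟩)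
  obtain ⟨l1, h1⟩ := hP.conv mu
  obtain ⟨l2, h2⟩ := hP.conv mv
  obtain ⟨ε, ε0, hε⟩ := B.cpt.exists_cthickening_subset_open B.opn B.sub
  obtain ⟨t0, p0, p1, h0⟩ := ev_Ioo (((eventually_all (ι := Bool)).2 fun σ =>
    ((h1.add h2).const_mul (K σ)).eventually (Metric.ball_mem_nhds _ (half_pos (half_pos ε0)))).and
      (Ioo_mem_nhdsLT (show (2⁻¹ : ℝ) < 1 by norm_num)))
  obtain ⟨σ, o, y0⟩ := B.cover (a t0)
  have cb : Metric.closedBall (co (c σ) (a t0)).2.2 ε ⊆ Θ :=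
    (Metric.closedBall_subset_cthickening y0 ε).trans hε
  have half : (2⁻¹ : ℝ) ∈ Ioo (0 : ℝ) 1 := by norm_num
  have t0m := (h0 t0 ⟨le_rfl, p1⟩).2
  have key : ∀ t1 ∈ Ico t0 1, On (c σ) (a t1) ∧ co (c σ) (a t1) ∈ Qd (u (a 2⁻¹)) (v (a 2⁻¹)) Θ ∧
      (co (c σ) (a t1)).2.2 ∈ Metric.closedBall (co (c σ) (a t0)).2.2 ε := by
    intro t1 ht1
    obtain ⟨S, hS⟩ : ∃ S : Set R4, S = Icc (u (a t0)) (u (a t1)) ×ˢ Icc (v (a t0)) (v (a t1)) ×ˢ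
      Metric.closedBall (co (c σ) (a t0)).2.2 ε := ⟨_, rfl⟩
    have S1 : IsCompact S := hS ▸ isCompact_Icc.prod (isCompact_Icc.prod (isCompact_closedBall _ _))
    have S2 : S ⊆ Qd (u (a 2⁻¹)) (v (a 2⁻¹)) Θ := fun x hx => by
      rw [hS] at hx
      exact ⟨(mu half ⟨p0, p1⟩ t0m.1).trans_le hx.1.1, (mv half ⟨p0, p1⟩ t0m.1).trans_le hx.2.1.1,
        cb hx.2.2⟩
    have S3 : IsClosed (inv (c σ) '' S) := (S1.image_of_continuousOn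
      ((M.toE _).continuousOn_symm.mono (S2.trans (ch σ).sub))).isClosed
    have S4 : ∀ p, p ∈ inv (c σ) '' S ↔ On (c σ) p ∧ co (c σ) p ∈ S := fun p => by
      refine ⟨?_, fun hp => ⟨_, hp.2, (M.toE _).left_inv hp.1⟩⟩
      rintro ⟨x, hx, rfl⟩
      exact ⟨(M.toE _).map_target ((ch σ).sub (S2 hx)),
        mem_of_eq_of_mem ((M.toE _).right_inv ((ch σ).sub (S2 hx))) hx⟩
    have S5 : ∀ r ∈ Icc t0 t1, On (c σ) (a r) →
        (co (c σ) (a r)).2.2 ∈ Metric.closedBall (co (c σ) (a t0)).2.2 ε →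
        a r ∈ inv (c σ) '' S := fun r hr o1 o2 => by
      have r0 : r ∈ Ioo (0 : ℝ) 1 := ⟨p0.trans_le hr.1, hr.2.trans_lt ht1.2⟩
      have r1 : t1 ∈ Ioo (0 : ℝ) 1 := ⟨p0.trans_le ht1.1, ht1.2⟩
      refine (S4 _).2 ⟨o1, hS ▸ ⟨?_, ?_, o2⟩⟩
      · exact mem_of_eq_of_mem (B.uv σ _ o1).1
          ⟨mu.monotoneOn ⟨p0, p1⟩ r0 hr.1, mu.monotoneOn r0 r1 hr.2⟩
      · exact mem_of_eq_of_mem (B.uv σ _ o1).2
          ⟨mv.monotoneOn ⟨p0, p1⟩ r0 hr.1, mv.monotoneOn r0 r1 hr.2⟩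
    have sub : Icc t0 t1 ⊆ Ico 0 1 := fun r hr => ⟨p0.le.trans hr.1, hr.2.trans_lt ht1.2⟩
    have := IsClosed.Icc_subset_of_forall_mem_nhdsGT_of_Icc_subset (s := a ⁻¹' (inv (c σ) '' S))
      (a := t0) (b := t1) (inter_comm _ _ ▸ (ha.1.mono sub).preimage_isClosed_of_isClosed
        isClosed_Icc S3) (S5 t0 ⟨le_rfl, ht1.1⟩ o (Metric.mem_closedBall_self ε0.le))
      (fun t ht hs => by
        have t' : t ∈ Ioo (0 : ℝ) 1 := ⟨p0.trans_le ht.1, ht.2.trans ht1.2⟩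
        have o1 := ((S4 _).1 (hs ⟨ht.1, le_rfl⟩)).1
        have tr := trav hM (ch σ) (hK σ) hP ha p0 ht.1 t'.2 fun r hr =>
          ⟨((S4 _).1 (hs hr)).1, S2 ((S4 _).1 (hs hr)).2⟩
        rw [(B.uv σ _ o).1, (B.uv σ _ o).2, (B.uv σ _ o1).1, (B.uv σ _ o1).2] at tr
        have b1 := abs_lt.1 ((h0 t0 ⟨le_rfl, p1⟩).1 σ)
        have b2 := abs_lt.1 ((h0 t ⟨ht.1, t'.2⟩).1 σ)
        obtain ⟨w, w1, -⟩ := curve_der ha t' o1
        filter_upwards [Ioo_mem_nhdsGT ht.2, mem_nhdsWithin_of_mem_nhds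
          ((ha.1.continuousAt (Ico_mem_nhds t'.1 t'.2)).eventually ((M.toE _).open_source.mem_nhds o1)),
          mem_nhdsWithin_of_mem_nhds ((hd2 (hd2 w1)).continuousAt.eventually
            (Metric.closedBall_mem_nhds_of_mem (c := (co (c σ) (a t0)).2.2) (ε := ε)
              (mem_ball_iff_norm.2 (by linarith))))] with r r1 r2 r3
        exact S5 r ⟨ht.1.trans r1.1.le, r1.2.le⟩ r2 r3) ⟨ht1.1, le_rfl⟩
    obtain ⟨o1, o2⟩ := (S4 _).1 this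
    exact ⟨o1, S2 o2, (hS ▸ o2).2.2⟩
  have ev := eventually_of_mem (Ico_mem_nhdsLT p1) key
  obtain ⟨θ, hθ⟩ := conv hM (ch σ) (hK σ) hP ha (ev.mono fun t ht => ⟨ht.1, ht.2.1⟩)
    ((h1.add h2).congr' (ev.mono fun t ht => by
      simp only [(B.uv σ _ ht.1).1, (B.uv σ _ ht.1).2]))
  exact ⟨σ, θ, cb (Metric.isClosed_closedBall.mem_of_tendsto hθ (ev.mono fun t ht => ht.2.2)),
    ev.mono fun t ht => ht.1, hθ⟩

end base

end Vale.Agent.P354L
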