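import Vale.Agent.P354L.Lin
import Vale.Agent.P220.R2.H481.Flow

/-!
The flow of d_v + β and the estimates for its derivatives.
-/

open scoped ContDiff
open MeasureTheory Set Filter Topology

namespace Vale.Agent.P354L

open Vale.Agent.P354n (R4 cu cv du dv)

/-- sh Φ maps the lines of direction v to the flow lines of d_v + β; sh Y is its inverse. -/
structure Fl (β : R4 → ℝ × ℝ) (v0 : ℝ) (Φ Y : R4 → ℝ × ℝ) : Prop where
  sβ : ContDiff ℝ ∞ β
  sΦ : ContDiff ℝ ∞ Φ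
  sY : ContDiff ℝ ∞ Y
  left : ∀ x, sh Y (sh Φ x) = x
  right : ∀ x, sh Φ (sh Y x) = x
  init : ∀ x, cv x = v0 → Φ x = 0
  der : ∀ x, D dv Φ x = β (sh Φ x)

lemma hd1 {E F : Type} [NormedAddCommGroup E] [NormedSpace ℝ E] [NormedAddCommGroup F]
    [NormedSpace ℝ F] {f : ℝ → E × F} {f' : E × F} {x : ℝ} (h : HasDerivAt f f' x) :
    HasDerivAt (fun s => (f s).1) f'.1 x :=
  (ContinuousLinearMap.fst ℝ E F).hasFDerivAt.comp_hasDerivAt x h

lemma hd2 {E F : Type} [NormedAddCommGroup E] [NormedSpace ℝ E] [NormedAddCommGroup F]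
    [NormedSpace ℝ F] {f : ℝ → E × F} {f' : E × F} {x : ℝ} (h : HasDerivAt f f' x) :
    HasDerivAt (fun s => (f s).2) f'.2 x :=
  (ContinuousLinearMap.snd ℝ E F).hasFDerivAt.comp_hasDerivAt x h

lemma exists_fl {β : R4 → ℝ × ℝ} (hβ : ContDiff ℝ ∞ β) {K : ℝ} (h0 : ∀ x, ‖β x‖ ≤ K)
    (h1 : ∀ x, ‖fderiv ℝ β x‖ ≤ K) (v0 : ℝ) : ∃ Φ Y, Fl β v0 Φ Y := by
  have K0 : 0 ≤ K := (norm_nonneg _).trans (h0 0)
  have hL : LipschitzWith ⟨K, K0⟩ β := lipschitzWith_of_nnnorm_fderiv_le (hβ.differentiable (by simp)) h1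
  obtain ⟨φ, hφ⟩ := P220.R2.H481.exists_gf (Y := fun x : R4 => ((0, 1, β x) : R4)) (by fun_prop)
    (C := ⟨max 1 K, by positivity⟩) (fun x => norm_prod_le_iff.2 ⟨norm_zero.le.trans (NNReal.coe_nonneg _),
      norm_prod_le_iff.2 ⟨norm_one.le.trans (le_max_left _ _), (h0 x).trans (le_max_right _ _)⟩⟩)
    ((LipschitzWith.const _).prodMk ((LipschitzWith.const _).prodMk hL))
  have e1 : ∀ t x, (φ (t, x)).1 = x.1 := fun t x => by
    have := is_const_of_deriv_eq_zero (f := fun s => (φ (s, x)).1)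
      (fun s => (hd1 (hφ.deriv s x)).differentiableAt) (fun s => (hd1 (hφ.deriv s x)).deriv) t 0
    rwa [hφ.zero] at this
  have e2 : ∀ t x, (φ (t, x)).2.1 = x.2.1 + t := fun t x => by
    have h : ∀ s, HasDerivAt (fun s => (φ (s, x)).2.1 - s) 0 s := fun s => by
      simpa using (hd1 (hd2 (hφ.deriv s x))).fun_sub (hasDerivAt_id' s)
    have := is_const_of_deriv_eq_zero (fun s => (h s).differentiableAt) (fun s => (h s).deriv) t 0
    rw [hφ.zero] at this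
    linarith
  have e3 : ∀ x : R4, sh (fun x => (φ (x.2.1 - v0, x.1, v0, x.2.2)).2.2 - x.2.2) x =
      φ (x.2.1 - v0, x.1, v0, x.2.2) := fun x => by
    ext <;> simp [sh, e1, e2]
  have hs := hφ.smooth
  have k : ContDiff ℝ ∞ fun x : R4 => (φ (x.2.1 - v0, x.1, v0, x.2.2)).2.2 - x.2.2 := by fun_prop
  refine ⟨_, fun x => (φ (v0 - x.2.1, x)).2.2 - x.2.2, hβ, k, by fun_prop, fun x => ?_, fun x => ?_,
    fun x hx => ?_, fun x => ?_⟩
  · rw [e3, sh, ← hφ.add]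
    simp [e1, e2, hφ.zero]
  · rw [e3]
    have : ((sh (fun x => (φ (v0 - x.2.1, x)).2.2 - x.2.2) x).1, v0,
        (sh (fun x => (φ (v0 - x.2.1, x)).2.2 - x.2.2) x).2.2) = φ (v0 - x.2.1, x) := by
      ext <;> simp [sh, e1, e2]
    rw [this, ← hφ.add]
    simp [sh, hφ.zero]
  · have : x.2.1 = v0 := hx
    simp [this, hφ.zero]
  · have h2 := hasDerivAt_D dv x 0 0 (dif k.contDiffAt)
    have h3 := (HasDerivAt.comp_add_const 0 (x.2.1 - v0)
      (hd2 (hd2 (hφ.deriv (0 + (x.2.1 - v0)) (x.1, v0, x.2.2))))).sub_const x.2.2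
    rw [e3]
    simp only [sub_zero, zero_smul, add_zero, zero_add] at h2 h3
    refine h2.unique (h3.congr_of_eventuallyEq (.of_forall fun s => ?_))
    simp [dv, Prod.mk_zero_zero, show x.2.1 + s - v0 = s + (x.2.1 - v0) by ring]

/-- The coordinates u and v as linear maps. -/
noncomputable def tu : R4 →L[ℝ] ℝ := ContinuousLinearMap.fst ℝ ℝ _
noncomputable def tv : R4 →L[ℝ] ℝ :=
  (ContinuousLinearMap.fst ℝ ℝ (ℝ × ℝ)).comp (ContinuousLinearMap.snd ℝ ℝ _)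

/-- The region of the estimates. -/
def Rg (u2 v0 : ℝ) : Set R4 := {x | u2 < cu x ∧ v0 ≤ cv x}

/-- The linear map with the columns c, c'. -/
noncomputable def mat (c c' : ℝ × ℝ) : ℝ × ℝ →L[ℝ] ℝ × ℝ :=
  ContinuousLinearMap.smulRightL ℝ _ _ (ContinuousLinearMap.fst ℝ ℝ ℝ) c +
    ContinuousLinearMap.smulRightL ℝ _ _ (ContinuousLinearMap.snd ℝ ℝ ℝ) c'

lemma rg_line {u2 v0 : ℝ} : ∀ x ∈ Rg u2 v0, v0 ≤ tv x ∧
    ∀ s ∈ Icc v0 (tv x), x + (s - tv x) • dv ∈ Rg u2 v0 := fun x hx =>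
  ⟨hx.2, fun s hs => ⟨by simpa [cu, dv] using hx.1, by simpa [cv, dv, tv] using hs.1⟩⟩

lemma W.inv {Q : Set R4} {L : List Lev} {f : R4 → ℝ} (h : W Q L f 1) (h0 : ∀ x ∈ Q, f x ≠ 0)
    (hb : ∃ K, ∀ x ∈ Q, |(f x)⁻¹| ≤ K) : W Q L (fun y => (f y)⁻¹) 1 := by
  induction L with
  | nil => exact ⟨fun x hx => (h.1 x hx).inv (h0 x hx), by simpa using hb⟩
  | cons S L ih =>
    refine ⟨ih h.1, fun q hq => (((ih h.1).mul1 (ih h.1)).neg.mul1 (h.2 q hq)).congr fun x hx => ?_⟩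
    filter_upwards [ev_dif (h.sm x hx), (h.sm x hx).continuousAt.eventually_ne (h0 x hx)]
      with y h1 h2
    have := (hasDerivAt_inv h2).comp_hasFDerivAt y h1.hasFDerivAt
    rw [D, show fderiv ℝ (fun y => (f y)⁻¹) y = _ from this.fderiv]
    simp [D, sq]

/-- The determinant of the angular part of the derivative of sh Φ. -/
noncomputable def det (Φ : R4 → ℝ × ℝ) (x : R4) : ℝ :=
  (1 + (D d1 Φ x).1) * (1 + (D d2 Φ x).2) - (D d2 Φ x).1 * (D d1 Φ x).2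

lemma D_mul {f g : R4 → ℝ} {x : R4} (a : R4) (hf : DifferentiableAt ℝ f x)
    (hg : DifferentiableAt ℝ g x) : D a (fun y => f y * g y) x = D a f x * g x + f x * D a g x :=
  D_bil a (ContinuousLinearMap.mul ℝ ℝ) hf hg

lemma D_fst {f : R4 → ℝ × ℝ} {x : R4} (a : R4) (hf : DifferentiableAt ℝ f x) :
    D a (fun y => (f y).1) x = (D a f x).1 := D_clm a (ContinuousLinearMap.fst ℝ ℝ ℝ) hf

lemma D_snd {f : R4 → ℝ × ℝ} {x : R4} (a : R4) (hf : DifferentiableAt ℝ f x) :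
    D a (fun y => (f y).2) x = (D a f x).2 := D_clm a (ContinuousLinearMap.snd ℝ ℝ ℝ) hf

lemma D_one_add {f : R4 → ℝ} (a x : R4) : D a (fun y => 1 + f y) x = D a f x := by
  simp [D]

namespace Fl

variable {β Φ Y : R4 → ℝ × ℝ} {u2 v0 κ : ℝ} {k P : ℝ → ℝ} {n : ℕ}

lemma eqn (h : Fl β v0 Φ Y) (a x : R4) : D dv (D a Φ) x =
    D a β (sh Φ x) + (D a Φ x).1 • D d1 β (sh Φ x) + (D a Φ x).2 • D d2 β (sh Φ x) := by
  rw [D_comm _ _ (h.sΦ.contDiffAt.of_le (by norm_cast)), funext h.der,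
    D_sh a (dif h.sβ.contDiffAt) (dif h.sΦ.contDiffAt)]

lemma van (h : Fl β v0 Φ Y) (Q : Set R4) : Van tv v0 Q Φ :=
  fun _ _ => ⟨h.sΦ.contDiffAt, .of_forall h.init⟩

lemma step (h : Fl β v0 Φ Y) (hP : Pr k P) (hW : W' (Rg u2 v0) (List.replicate n ang) Φ)
    (hβ : Sy (Rg u2 v0) (n + 1) β fun x => k (cv x)) {a : R4} {p : R4 → ℝ} (ha : tv a = 0)
    (p0 : ∀ x, 0 < p x) (hp : ∀ x (s : ℝ), p (x + s • dv) = p x) (hp' : ∀ x, p (sh Φ x) = p x)
    (hg : Sy (Rg u2 v0) n (D a β) fun x => k (cv x) * p x) : Sy (Rg u2 v0) n (D a Φ) p := by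
  refine lin (M := fun y => mat (D d1 β (sh Φ y)) (D d2 β (sh Φ y))) (g := fun y => D a β (sh Φ y))
    hP (by simp [tv, dv]) rg_line p0 hp (fun x _ => D_sm a h.sΦ.contDiffAt)
    (fun x _ => .of_forall fun y => ?_) (W.add (W.clm _ (W.comp hβ.e1 ok_ang hW fun _ => id))
      (W.clm _ (W.comp hβ.e2 ok_ang hW fun _ => id)))
    ((W.comp hg ok_ang hW fun _ => id).eqw fun x _ => by rw [hp']; rfl)
    (((h.van _).D ha).sy (by simp [tv, d1]) (by simp [tv, d2]) fun x hx => hx.2)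
  rw [h.eqn]
  simp only [mat, add_apply, ContinuousLinearMap.smulRightL_apply_apply,
    ContinuousLinearMap.smulRight_apply, ContinuousLinearMap.coe_fst', ContinuousLinearMap.coe_snd']
  abel

lemma wang (h : Fl β v0 Φ Y) (hP : Pr k P) (hβ : Sy (Rg u2 v0) n β fun x => k (cv x)) :
    W' (Rg u2 v0) (List.replicate n ang) Φ := by
  induction n with
  | zero => exact fun _ _ => h.sΦ.contDiffAt
  | succ n ih =>
    have k : ∀ a, a = d1 ∨ a = d2 → Sy (Rg u2 v0) n (D a Φ) 1 := fun a ha =>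
      h.step hP (ih hβ.low) hβ (by rcases ha with rfl | rfl <;> simp [tv, d1, d2]) (by simp)
        (by simp) (by simp) (by simpa using hβ.da ha)
    exact w'_ang (fun _ _ => h.sΦ.contDiffAt) (k _ (.inl rfl)) (k _ (.inr rfl))

lemma inv_der (h : Fl β v0 Φ Y) (x a : R4) :
    fderiv ℝ (sh Y) (sh Φ x) (fderiv ℝ (sh Φ) x a) = a := by
  have := D_comp (f := sh Y) (T := sh Φ) (x := x) a (dif (sh_sm h.sY.contDiffAt))
    (dif (sh_sm h.sΦ.contDiffAt))
  rw [funext h.left] at this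
  simpa [D] using this.symm

lemma der_ang (h : Fl β v0 Φ Y) (x : R4) (s t : ℝ) : fderiv ℝ (sh Φ) x (0, 0, s, t) =
    (0, 0, s * (1 + (D d1 Φ x).1) + t * (D d2 Φ x).1, s * (D d1 Φ x).2 + t * (1 + (D d2 Φ x).2)) := by
  rw [fderiv_sh (dif h.sΦ.contDiffAt), D, fderiv_eq]
  ext <;> simp <;> ring

lemma det_ne (h : Fl β v0 Φ Y) (x : R4) : det Φ x ≠ 0 := fun h0 => by
  have k : ∀ s t : ℝ, s * (1 + (D d1 Φ x).1) + t * (D d2 Φ x).1 = 0 →
      s * (D d1 Φ x).2 + t * (1 + (D d2 Φ x).2) = 0 → s = 0 ∧ t = 0 := fun s t h1 h2 => by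
    have := h.inv_der x (0, 0, s, t)
    rw [h.der_ang, h1, h2, show ((0, 0, 0, 0) : R4) = 0 from rfl, map_zero] at this
    simpa [Prod.ext_iff, eq_comm] using this
  unfold det at h0
  obtain ⟨h1, h2⟩ := k (1 + (D d2 Φ x).2) (-(D d1 Φ x).2) (by linarith) (by ring)
  obtain ⟨h3, h4⟩ := k (D d2 Φ x).1 (-(1 + (D d1 Φ x).1)) (by ring) (by linarith)
  exact one_ne_zero (k 1 0 (by linarith) (by linarith)).1

lemma det_sm (h : Fl β v0 Φ Y) : ContDiff ℝ ∞ (det Φ) := by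
  have := D_smu d1 h.sΦ
  have := D_smu d2 h.sΦ
  unfold det
  fun_prop

lemma det_der (h : Fl β v0 Φ Y) (x : R4) :
    D dv (det Φ) x = ((D d1 β (sh Φ x)).1 + (D d2 β (sh Φ x)).2) * det Φ x := by
  have h1 := dif (x := x) (D_smu d1 h.sΦ).contDiffAt
  have h2 := dif (x := x) (D_smu d2 h.sΦ).contDiffAt
  unfold det
  rw [D_sub _ (by fun_prop) (by fun_prop), D_mul _ (by fun_prop) (by fun_prop),
    D_mul _ (by fun_prop) (by fun_prop), D_one_add, D_one_add, D_fst _ h1, D_snd _ h2, D_fst _ h2,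
    D_snd _ h1, h.eqn, h.eqn]
  simp only [Prod.fst_add, Prod.snd_add, Prod.smul_fst, Prod.smul_snd, smul_eq_mul]
  ring

lemma inv_bd (h : Fl β v0 Φ Y) (hP : Pr k P) (hβ : Sy (Rg u2 v0) 1 β fun x => k (cv x)) :
    ∃ K, ∀ x ∈ Rg u2 v0, |(det Φ x)⁻¹| ≤ K := by
  have hs : ContDiff ℝ ∞ fun x => (det Φ x)⁻¹ := h.det_sm.inv h.det_ne
  have hW : W' (Rg u2 v0) (List.replicate 0 ang) Φ := fun _ _ => h.sΦ.contDiffAt
  have v : Van tv v0 {x | x ∈ Rg u2 v0 ∧ tv x = v0} fun x => (det Φ x)⁻¹ - 1 := fun x _ =>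
    ⟨(hs.sub contDiff_const).contDiffAt, .of_forall fun y hy => by
      simp [det, (((h.van univ).D (a := d1) (by simp [tv, d1])) y trivial).2.self_of_nhds hy,
        (((h.van univ).D (a := d2) (by simp [tv, d2])) y trivial).2.self_of_nhds hy]⟩
  obtain ⟨-, K, hK⟩ := lin (n := 0) (p := 1) (f := fun x => (det Φ x)⁻¹) (g := fun _ => 0)
    (M := fun y => ContinuousLinearMap.mul ℝ ℝ (-((D d1 β (sh Φ y)).1 + (D d2 β (sh Φ y)).2)))
    hP (by simp [tv, dv]) rg_line (by simp) (by simp) (fun x _ => hs.contDiffAt)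
    (fun x _ => .of_forall fun y => by
      have := (hasDerivAt_inv (h.det_ne y)).comp_hasFDerivAt y
        (dif h.det_sm.contDiffAt).hasFDerivAt
      have e := h.det_der y
      have := h.det_ne y
      rw [D, show fderiv ℝ (fun y => (det Φ y)⁻¹) y = _ from HasFDerivAt.fderiv ‹_›]
      simp only [D] at e
      simp only [D, smul_apply, e, smul_eq_mul, ContinuousLinearMap.mul_apply']
      field_simp
      ring)
    (W.clm _ ((W.comp hβ.e1 ok_ang hW fun _ => id).fst.add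
      (W.comp hβ.e2 ok_ang hW fun _ => id).snd).neg) W.zero
    (by simpa [Sy] using W.add (v.sy (n := 0) (w := 1) (by simp [tv, d1]) (by simp [tv, d2])
      fun x hx => hx.2) (W.const 1))
  exact ⟨K, by simpa using hK⟩

end Fl

end Vale.Agent.P354L
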