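import Vale.Agent.P354L.Box

/-!
Curves which end at a front.
-/

open scoped ContDiff
open MeasureTheory Set Filter Topology

namespace Vale.Agent.P354L

open Vale.Agent.P354n (R4 cu cv c1 c2 du dv form h1 h2 Spc On tgt co inv IsSpacetime IsFutureCurve
  IsDNBox InLp nullBox cornerBox EndsAt EndsAtFront EndsAtCorner)

variable {Reg : (R4 → ℝ) → Set R4 → Prop} {M : Spc} {e e' : M.Chart} {C : ℕ → R4 → ℝ}
  {Q : Set R4} {x : R4} {a : ℝ → M.pt} {K κ s : ℝ} {k P : ℝ → ℝ}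

/-- A box which is unbounded in v. -/
def Bx (p q0 r : ℝ) (y : ℝ × ℝ) : Set R4 := {x | |cu x - p| < r ∧ q0 < cv x ∧ ‖x.2.2 - y‖ < r}

/-- The v derivative of the angular metric blows up on a non null set of lines. -/
def Blow (κ : ℝ) (C : ℕ → R4 → ℝ) (p r : ℝ) (y : ℝ × ℝ) : Prop :=
  volume {x : R4 | |cu x - p| < r ∧ cv x ∈ Ioo 0 1 ∧ ‖x.2.2 - y‖ < r ∧ ¬ ∃ q1, ∀ i < 3,
    IntegrableOn (fun q => Real.exp (κ * q) * D dv (C i) (cu x, q, x.2.2) ^ 2) (Ioi q1)} ≠ 0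

lemma norm_lt {x z : R4} {r : ℝ} :
    ‖x - z‖ < r ↔ |x.1 - z.1| < r ∧ |x.2.1 - z.2.1| < r ∧ ‖x.2.2 - z.2.2‖ < r := by
  rw [Prod.norm_def, Prod.norm_def, max_lt_iff, max_lt_iff]
  rfl

lemma boxC_lt (κ : ℝ) (C : ℕ → R4 → ℝ) {i : ℕ} (hi : i < 3) :
    boxC κ C i = fun y => C i (Rm κ y) := by
  interval_cases i <;> rfl

lemma haar : (volume : Measure R4).IsAddHaarMeasure := by
  have h2 : (volume : Measure (ℝ × ℝ)).IsAddHaarMeasure := Measure.prod.instIsAddHaarMeasure _ _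
  have h3 : (volume : Measure (ℝ × ℝ × ℝ)).IsAddHaarMeasure := Measure.prod.instIsAddHaarMeasure _ _
  exact Measure.prod.instIsAddHaarMeasure _ _

lemma ends_box (hκ : 0 < κ) (rel : Rel e e' (Rm κ) (boxQ κ Q)) {z : R4}
    (h1 : ∀ᶠ t in 𝓝[<] 1, On e (a t) ∧ co e (a t) ∈ Q)
    (h2 : Tendsto (fun t => Sm κ (co e (a t))) (𝓝[<] 1) (𝓝 z)) {r : ℝ} (hr : 0 < r) :
    (∀ᶠ t in 𝓝[<] 1, On e' (a t) ∧ co e' (a t) ∈ cornerBox z r) ∧
      Tendsto (fun t => co e' (a t)) (𝓝[<] 1) (𝓝 z) := by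
  have k : ∀ᶠ t in 𝓝[<] 1, On e' (a t) ∧ co e' (a t) = Sm κ (co e (a t)) := h1.mono fun t ht => by
    have e1 : Rm κ (Sm κ (co e (a t))) = co e (a t) := by simp [Rm, Sm, lg_em hκ]
    exact (rel _ _ ⟨em_neg _ _, em_neg _ _, e1.symm ▸ ht.2⟩).2 ⟨ht.1, e1.symm⟩
  refine ⟨?_, h2.congr' (k.mono fun t ht => ht.2.symm)⟩
  filter_upwards [k, h2.eventually (Metric.ball_mem_nhds z hr)] with t t1 t2
  exact ⟨t1.1, t1.2 ▸ ⟨⟨mem_ball_iff_norm.1 t2, em_neg _ _⟩, em_neg _ _⟩⟩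

/-- Square integrability along a line in the old coordinate. -/
lemma int_of_inLp (hκ : 0 < κ) {f : R4 → ℝ} {U b b' : ℝ} {y : ℝ × ℝ} (hb : b' < 0) (hbb : b ≤ b')
    (hx : ∀ V ∈ Ioo b' 0, (U, V, y) ∈ boxQ κ Q) (hf : ∀ x ∈ Q, ContDiffAt ℝ ∞ f x)
    (h : InLp 2 (fun V => P354n.deriv (fun y => f (Rm κ y)) (U, V, y) dv) b) :
    IntegrableOn (fun q => Real.exp (κ * q) * D dv f (lg κ U, q, y) ^ 2) (Ioi (lg κ b')) := by
  have e : (fun V => P354n.deriv (fun y => f (Rm κ y)) (U, V, y) dv) =ᵐ[volume.restrict (Ioo b' 0)]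
      fun V => D dv f (Rm κ (U, V, y)) * rr κ V :=
    ae_restrict_of_forall_mem measurableSet_Ioo fun V hV => der_dv hκ (hx V hV) (hf _ (hx V hV).2.2)
  have c : ContinuousOn (fun V => D dv f (Rm κ (U, V, y)) * rr κ V) (Ioo b' 0) := fun V hV =>
    ContinuousAt.continuousWithinAt <| ((D_sm dv (hf _ (hx V hV).2.2)).continuousAt.comp
      (f := fun V => Rm κ (U, V, y)) ((Rm_sm κ (hx V hV).1 hV.2).continuousAt.comp
        (f := fun V => ((U, V, y) : R4)) (by fun_prop))).mul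
      (((lg_sm κ hV.2).continuousAt.const_mul κ).rexp.div_const κ)
  have m := c.aestronglyMeasurable (μ := volume) measurableSet_Ioo
  have h2 : MemLp (fun V => D dv f (Rm κ (U, V, y)) * rr κ V) 2 (volume.restrict (Ioo b' 0)) :=
    ⟨m, eLpNorm_congr_ae e ▸ (eLpNorm_mono_measure _ (Measure.restrict_mono
      (Ioo_subset_Ioo_left hbb) le_rfl)).trans_lt h⟩
  refine (((int_iff hκ hb _).1 ((memLp_two_iff_integrable_sq m).1 h2)).const_mul κ).congr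
    (.of_forall fun t => ?_)
  simp only [Rm, rr, lg_em hκ, Real.exp_neg]
  field_simp

theorem front (hM : IsSpacetime Reg M) (hS : Sat M) (hk : Wt κ k) (h : Ch M e C Q) (N : NB κ k Q C)
    (h67 : ∀ x ∈ Q, C 6 x = 0 ∧ C 7 x = 0) (hF : ∀ i < 3, T1 Q du 1 0 (D dv (C i)) (kv k))
    {p q0 r0 : ℝ} {y : ℝ × ℝ} (hr : 0 < r0) (hQ : Bx p q0 r0 y ⊆ Q)
    (hB : ∀ p' y' r, 0 < r → Bx p' q0 r y' ⊆ Bx p q0 r0 y → p - r0 < p' - r → Blow κ C p' r y')
    (a1 : ∀ᶠ t in 𝓝[<] 1, On e (a t)) (a2 : Tendsto (fun t => cu (co e (a t))) (𝓝[<] 1) (𝓝 p))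
    (a3 : Tendsto (fun t => cv (co e (a t))) (𝓝[<] 1) atTop)
    (a4 : Tendsto (fun t => (co e (a t)).2.2) (𝓝[<] 1) (𝓝 y)) : EndsAtFront 2 M a := by
  have hκ := hk.pos
  obtain ⟨e', ch, rel⟩ := h.box hM hS hκ
  obtain ⟨K0, p0, hK⟩ := box hk ch N
  obtain ⟨ε, ε0, hε⟩ := Metric.eventually_nhds_iff_ball.1 ((eventually_lt_nhds (em_neg κ p)).and
    ((lg_sm κ (em_neg κ p)).continuousAt.eventually (Metric.ball_mem_nhds _ hr)))
  obtain ⟨l, l0, hl⟩ := mem_nhdsLT_iff_exists_Ioo_subset.1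
    ((lg_lim hκ).eventually (eventually_gt_atTop q0))
  obtain ⟨r, r1, r2⟩ := exists_between (lt_min ε0 (lt_min (neg_pos.2 (mem_Iio.1 l0)) hr))
  simp only [lt_min_iff] at r2
  have hb : ∀ x ∈ nullBox (em κ p, 0, y) r, x.1 < 0 ∧ x.2.1 < 0 ∧ Rm κ x ∈ Bx p q0 r0 y := by
    intro x hx
    obtain ⟨w1, w2, w3⟩ := norm_lt.1 hx.1
    obtain ⟨w4, w5⟩ := hε x.1 (w1.trans r2.1)
    rw [lg_em hκ] at w5
    exact ⟨w4, hx.2, w5, hl ⟨by linarith [(abs_lt.1 w2).1, r2.2.1], hx.2⟩, w3.trans r2.2.2⟩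
  have hb' : nullBox (em κ p, 0, y) r ⊆ boxQ κ Q := fun x hx =>
    ⟨(hb x hx).1, hx.2, hQ (hb x hx).2.2⟩
  have hb1 : ∀ x ∈ nullBox (em κ p, 0, y) r, |lg κ x.1 - p| < r0 := fun x hx => (hb x hx).2.2.1
  obtain ⟨B, hBd⟩ := hk.bdd (p - r0)
  obtain ⟨ρ, hρ⟩ : ∃ ρ, ∀ x ∈ nullBox (em κ p, 0, y) r, rr κ x.1 ≤ ρ :=
    ⟨Real.exp (κ * (p + r0)) / κ, fun x hx => by
      have : lg κ x.1 ≤ p + r0 := by linarith [(abs_lt.1 (hb1 x hx)).2]
      unfold rr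
      gcongr⟩
  obtain ⟨K, k1, k2⟩ := (hK.and (eventually_ge_atTop (K0 * B * ρ))).exists
  obtain ⟨K1, k3, p1⟩ := (((eventually_all_finset (Finset.range 3)).2 fun i hi =>
    (W.ev (t1_iff.1 (hF i (Finset.mem_range.1 hi))).2).and
      ((W.ev (t1_iff.1 (hF i (Finset.mem_range.1 hi))).1.e1).and
        (W.ev (t1_iff.1 (hF i (Finset.mem_range.1 hi))).1.e2))).and (eventually_ge_atTop 0)).exists
  have sm : ∀ i < 3, ∀ x ∈ Q, ContDiffAt ℝ ∞ (C i) x := fun i hi => W.sm (N.gam i hi).1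
  have tan : ∀ w ∈ nullBox (em κ p, 0, y) r, ∀ b, cv b = 0 → ∀ i < 3,
      |P354n.deriv (fun y => P354n.deriv (boxC κ C i) y dv) w b| ≤
        kb κ k (3 * K1 * (ρ + 1)) (cv w) * ‖b‖ := by
    intro w hw b b0 i hi
    have b0' : b.2.1 = 0 := b0
    have e1 : (fun y => P354n.deriv (boxC κ C i) y dv) =ᶠ[𝓝 w]
        fun y => D dv (C i) (Rm κ y) * rr κ y.2.1 :=
      eventually_of_mem (ch.opn.mem_nhds (hb' hw)) fun y hy => by
        rw [boxC_lt κ C hi]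
        exact der_dv hκ hy (sm i hi _ hy.2.2)
    have e2 : lineDeriv ℝ (fun y => D dv (C i) (Rm κ y) * rr κ y.2.1) w b =
        P354n.deriv (fun y => D dv (C i) (Rm κ y)) w b * rr κ w.2.1 := by
      simp [P354n.deriv, lineDeriv, b0']
    obtain ⟨c1, c2, c3⟩ := k3 i (Finset.mem_range.2 hi)
    have q := (hb' hw).2.2
    have e3 := norm_fderiv_le (a := (rr κ w.1 * b.1, rr κ w.2.1 * b.2.1, b.2.2)) (.inr (c1 _ q))
      (.inl ⟨by simp [b0'], le_rfl⟩) (c2 _ q) (c3 _ q)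
    have ρ0 := rr_pos hκ w.1
    have ρ1 := hρ w hw
    have e4 : ‖((rr κ w.1 * b.1, rr κ w.2.1 * b.2.1, b.2.2) : R4)‖ ≤ (ρ + 1) * ‖b‖ := by
      have n := norm_nonneg b
      refine norm_prod_le_iff.2 ⟨?_, norm_prod_le_iff.2 ⟨by simp [b0']; nlinarith, ?_⟩⟩
      · rw [norm_mul, Real.norm_of_nonneg ρ0.le]
        exact mul_le_mul (by linarith) (norm_fst_le b) (norm_nonneg _) (by linarith)
      · nlinarith [(norm_snd_le b.2).trans (norm_snd_le b)]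
    rw [P354n.deriv, e1.lineDeriv_eq, e2, der_Rm hκ (hb' hw) (D_sm dv (sm i hi _ q)), abs_mul,
      abs_of_pos (rr_pos hκ _)]
    have k0 := hk.kpos (lg κ w.2.1)
    simp only [mul_one, show |kv k (Rm κ w)| = k (lg κ w.2.1) from abs_of_pos k0] at e3
    refine (mul_le_mul_of_nonneg_right (e3.trans (mul_le_mul_of_nonneg_left e4 (by positivity)))
      (rr_pos hκ _).le).trans_eq ?_
    simp only [kb, cv]
    ring
  obtain ⟨e1, e2⟩ := ends_box (z := (em κ p, 0, y)) hκ rel (a1.and (by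
    filter_upwards [a2.eventually (Metric.ball_mem_nhds _ hr), a3.eventually (eventually_gt_atTop q0),
      a4.eventually (Metric.ball_mem_nhds _ hr)] with t t1 t2 t3 using hQ ⟨t1, t2, t3⟩))
    ((((em_sm κ).continuous.tendsto p).comp a2).prodMk_nhds (((em_lim hκ).comp a3).prodMk_nhds a4)) r1
  have l1 := kb_int hk (3 * K1 * (ρ + 1)) (neg_neg_of_pos r1)
  refine ⟨e', boxC κ C, (em κ p, 0, y), r, K, kb κ k K0, kb κ k (3 * K1 * (ρ + 1)),
    k1 _ hb' _ _ _ (fun x hx => ⟨le_rfl, le_trans ?_ k2⟩) ?_, rfl,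
    ⟨e1.mono fun t ht => ⟨ht.1, ht.2.1⟩, e2⟩, l1.1, ?_, fun x hx => ⟨?_, ?_, fun c hc => .inl ?_⟩⟩
  · have := hBd (lg κ x.1) (by linarith [(abs_lt.1 (hb1 x hx)).1])
    have := hρ x hx
    have := rr_pos hκ x.1
    have := hk.kpos (lg κ x.1)
    have : 0 ≤ B := by linarith
    unfold kb cu
    gcongr
  · rintro f (rfl | rfl)
    exacts [kb_int hk _ (neg_neg_of_pos r1), ⟨measurable_const, (memLp_const K).eLpNorm_lt_top⟩]
  · rw [ENNReal.div_self (by simp) (by simp)]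
    exact l1.2
  · simp [boxC, hat, (h67 _ (hb' hx).2.2).1]
  · simp [boxC, hat, (h67 _ (hb' hx).2.2).2]
  obtain ⟨c', c0, c1⟩ := exists_between (lt_min hc (half_pos (sub_pos.2 hx.1)))
  obtain ⟨c1, c2⟩ := lt_min_iff.1 c1
  obtain ⟨x1, x2, -, x4, x5⟩ := hb x hx
  have x3 := hb1 x hx
  replace x5 : ‖x.2.2 - y‖ < r0 := x5
  obtain ⟨η, η0, hη⟩ := Metric.eventually_nhds_iff_ball.1 (((em_sm κ).continuous.tendsto
    (lg κ x.1)).eventually (Metric.ball_mem_nhds _ c0))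
  rw [em_lg hκ x1] at hη
  obtain ⟨r', s0, s1⟩ := exists_between (lt_min η0 (lt_min c0 (lt_min (sub_pos.2 x3) (sub_pos.2 x5))))
  simp only [lt_min_iff] at s1
  obtain ⟨s1, s2, s3, s4⟩ := s1
  intro h0
  have := haar
  refine hB (lg κ x.1) x.2.2 r' s0 (fun w hw => ⟨?_, hw.2.1, ?_⟩)
    (by linarith [neg_abs_le (lg κ x.1 - p)])
    (measure_mono_null (fun w hw => ?_)
      (addHaar_image_eq_zero_of_differentiableOn_of_addHaar_eq_zero volume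
        (f := fun y : R4 => (lg κ y.1, (y.2.1 - x.2.1) / c' + 1, y.2.2)) (fun y hy => ?_)
        (measure_mono_null (inter_subset_left (t := {y | y.1 < 0})) h0)))
  · exact (abs_sub_le _ (lg κ x.1) _).trans_lt (by linarith [hw.1])
  · exact (norm_sub_le_norm_sub_add_norm_sub _ x.2.2 _).trans_lt
      (by linarith [hw.2.2])
  · obtain ⟨w1, w2, w3, w4⟩ := hw
    replace w2 : w.2.1 ∈ Ioo 0 1 := w2
    have n1 : ‖((em κ w.1, x.2.1 + c' * (w.2.1 - 1), w.2.2) : R4) - x‖ < c' :=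
      norm_lt.2 ⟨hη _ (w1.trans s1), by
        rw [add_sub_cancel_left, abs_lt]
        constructor <;> nlinarith [w2.1, w2.2], w3.trans s2⟩
    have n2 : ‖((em κ w.1, 0, w.2.2) : R4) - (em κ p, 0, y)‖ < r - c' := by
      obtain ⟨t1, -, t3⟩ := norm_lt.1 ((norm_sub_le_norm_sub_add_norm_sub _ x (em κ p, 0, y)).trans_lt
        (show _ < r - c' by linarith))
      exact norm_lt.2 ⟨t1, by simp; linarith [norm_nonneg (x - (em κ p, 0, y))], t3⟩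
    have n3 : nullBox (em κ w.1, 0, w.2.2) c' ⊆ nullBox (em κ p, 0, y) r := fun z hz =>
      ⟨(norm_sub_le_norm_sub_add_norm_sub _ (em κ w.1, 0, w.2.2) _).trans_lt (by linarith [hz.1]), hz.2⟩
    refine ⟨(em κ w.1, x.2.1 + c' * (w.2.1 - 1), w.2.2), ⟨⟨⟨n1.trans c1, ?_⟩, fun b b0 => ?_,
      min 1 c', lt_min one_pos c0, fun z hz b b0 i hi => ⟨i, hi, ?_⟩⟩, em_neg _ _⟩, ?_⟩
    · show x.2.1 + c' * (w.2.1 - 1) < 0
      nlinarith [w2.2]
    · by_contra hn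
      push Not at hn
      refine w4 ⟨lg κ (max b (-c')), fun i hi => ?_⟩
      have := int_of_inLp hκ (max_lt b0 (neg_neg_of_pos c0)) (le_max_left _ _) (fun V hV => hb' (n3
        ⟨norm_lt.2 ⟨by simpa, by
          rw [sub_zero, abs_lt]
          exact ⟨(le_max_right _ _).trans_lt hV.1, hV.2.trans c0⟩, by simpa⟩, hV.2⟩)) (sm i hi)
        (boxC_lt κ C hi ▸ hn i hi)
      rwa [lg_em hκ] at this
    · have := tan z (n3 ⟨hz.1.trans_le (min_le_right _ _), hz.2⟩) b b0 i hi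
      exact ((mul_le_of_le_one_left (abs_nonneg _) (min_le_left _ _)).trans this).trans
        (mul_le_mul_of_nonneg_right (le_add_of_nonneg_right (abs_nonneg _)) (norm_nonneg _))
    · simp [lg_em hκ, c0.ne']
  · exact (((lg_sm κ hy.2).differentiableAt (by simp)).fun_comp' y differentiableAt_fst).prodMk
      (by fun_prop) |>.differentiableWithinAt

end Vale.Agent.P354L
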