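import Vale.Agent.P354L.Cls

/-!
Angular classes; linear transport equations.
-/

open scoped ContDiff
open MeasureTheory Set Filter Topology

namespace Vale.Agent.P354L

open Vale.Agent.P354n (R4 cu cv du dv)

variable {E : Type} [NormedAddCommGroup E] [NormedSpace ℝ E]
  {Q Q' : Set R4} {L : List Lev} {f g : R4 → E} {w w' p q : R4 → ℝ} {x a b : R4} {n m : ℕ}

lemma sy_succ : Sy Q (n + 1) f w ↔ Sy Q n f w ∧ Sy Q n (D d1 f) w ∧ Sy Q n (D d2 f) w := by
  simp [Sy, List.replicate_succ, W, ang]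

lemma Sy.low (h : Sy Q (n + 1) f w) : Sy Q n f w := (sy_succ.1 h).1
lemma Sy.e1 (h : Sy Q (n + 1) f w) : Sy Q n (D d1 f) w := (sy_succ.1 h).2.1
lemma Sy.e2 (h : Sy Q (n + 1) f w) : Sy Q n (D d2 f) w := (sy_succ.1 h).2.2

lemma Sy.le (h : Sy Q n f w) (hm : m ≤ n) : Sy Q m f w := by
  induction hm with
  | refl => exact h
  | step _ ih => exact ih h.low

lemma Sy.da (h : Sy Q (n + 1) f w) (ha : a = d1 ∨ a = d2) : Sy Q n (D a f) w := by
  rcases ha with rfl | rfl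
  exacts [h.e1, h.e2]

/-- The derivative along a word. -/
noncomputable def Dl : List R4 → (R4 → E) → R4 → E
  | [], f => f
  | a :: α, f => Dl α (D a f)

lemma sy_of_words (hs : ∀ x ∈ Q, ContDiffAt ℝ ∞ f x) (K : ℝ) (h : ∀ α : List R4,
    (∀ a ∈ α, a = d1 ∨ a = d2) → α.length ≤ n → ∀ x ∈ Q, ‖Dl α f x‖ ≤ K * |w x|) : Sy Q n f w := by
  induction n generalizing f with
  | zero => exact ⟨hs, K, h [] (by simp) le_rfl⟩
  | succ n ih =>
    have k : ∀ a, a = d1 ∨ a = d2 → Sy Q n (D a f) w := fun a ha =>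
      ih (fun x hx => D_sm a (hs x hx)) fun α h1 h2 =>
        h (a :: α) (List.forall_mem_cons.2 ⟨ha, h1⟩) (by simpa using h2)
    exact sy_succ.2 ⟨ih hs fun α h1 h2 => h α h1 (h2.trans n.le_succ), k _ (.inl rfl), k _ (.inr rfl)⟩

lemma ok_ang : Ok (List.replicate n ang) := fun S hS => by
  rw [List.eq_of_mem_replicate hS]
  simp [ang]

lemma Ok.cons (h : Ok L) (hp : ∀ x y, p (x.1, x.2.1, y) = p x) : Ok (((a, p) :: ang) :: L) := by
  intro S hS
  rcases List.mem_cons.1 hS with rfl | hS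
  · simpa [ang] using hp
  · exact h S hS

lemma fa_ang {r : R4 × (R4 → ℝ) → Prop} (h1 : r (d1, 1)) (h2 : r (d2, 1)) : ∀ q ∈ ang, r q :=
  List.forall_mem_cons.2 ⟨h1, List.forall_mem_cons.2 ⟨h2, by simp⟩⟩

lemma w'_ang {Φ : R4 → ℝ × ℝ} (hs : ∀ x ∈ Q, ContDiffAt ℝ ∞ Φ x) (h1 : Sy Q n (D d1 Φ) 1)
    (h2 : Sy Q n (D d2 Φ) 1) : W' Q (List.replicate (n + 1) ang) Φ := by
  induction n with
  | zero => exact ⟨hs, fa_ang h1 h2⟩
  | succ n ih => exact ⟨ih h1.low h2.low, fa_ang h1 h2⟩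

/-- One derivative in the direction a, and angular derivatives. -/
def T1 (Q : Set R4) (a : R4) (p : R4 → ℝ) (n : ℕ) (f : R4 → E) (w : R4 → ℝ) : Prop :=
  W Q (((a, p) :: ang) :: List.replicate n ang) f w

lemma t1_iff : T1 Q a p n f w ↔ Sy Q (n + 1) f w ∧ Sy Q n (D a f) (w * p) := by
  simp only [T1, Sy, List.replicate_succ, W, List.forall_mem_cons]
  tauto

lemma T1.da (h : T1 Q a p (n + 1) f w) (hb : b = d1 ∨ b = d2) : T1 Q a p n (D b f) w :=
  t1_iff.2 ⟨(t1_iff.1 h).1.da hb, ((t1_iff.1 h).2.da hb).congr fun x hx =>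
    D_comm_ev _ _ (W.sm h x hx)⟩

lemma T1.low (h : T1 Q a p (n + 1) f w) : T1 Q a p n f w :=
  t1_iff.2 ⟨(t1_iff.1 h).1.low, (t1_iff.1 h).2.low⟩

lemma mk2 (h : T1 Q b q 1 f w) (h' : T1 Q b q 0 (D a f) (w * p)) :
    W Q [(a, p) :: ang, (b, q) :: ang] f w :=
  ⟨h.low, List.forall_mem_cons.2 ⟨h', fa_ang ((mul_one w).symm ▸ h.da (.inl rfl))
    ((mul_one w).symm ▸ h.da (.inr rfl))⟩⟩

/-- Composition with a map which does not act on the angles. -/
lemma Sy.comp0 {T : R4 → R4} (h : Sy Q n f w) (hT : ContDiff ℝ ∞ T) (hQ : ∀ x ∈ Q', T x ∈ Q)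
    (e : ∀ x a, a = d1 ∨ a = d2 → fderiv ℝ T x a = a) :
    Sy Q' n (fun y => f (T y)) (fun y => w (T y)) := by
  induction n generalizing f with
  | zero =>
    obtain ⟨h1, K, hK⟩ := h
    exact ⟨fun x hx => (h1 _ (hQ x hx)).comp x hT.contDiffAt, K, fun x hx => hK _ (hQ x hx)⟩
  | succ n ih =>
    have k : ∀ a, a = d1 ∨ a = d2 → Sy Q' n (D a fun y => f (T y)) fun y => w (T y) :=
      fun a ha => (ih (h.da ha)).congr fun x hx => by
        filter_upwards [hT.continuous.continuousAt.eventually (ev_dif (W.sm h _ (hQ x hx)))]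
          with y hy
        rw [D_comp a hy (dif hT.contDiffAt), e y a ha]
    exact sy_succ.2 ⟨ih h.low, k _ (.inl rfl), k _ (.inr rfl)⟩

/-- Functions of the angles with compact support. -/
lemma sy_cs {g : ℝ × ℝ → E} (h : ContDiff ℝ ∞ g) (hc : HasCompactSupport g) :
    Sy Q n (fun y => g y.2.2) 1 := by
  induction n generalizing g with
  | zero =>
    obtain ⟨K, hK⟩ := h.continuous.bounded_above_of_compact_support hc
    exact ⟨fun x _ => by fun_prop, K, fun x _ => by simpa using hK _⟩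
  | succ n ih =>
    have k : ∀ a, Sy Q n (D a fun y => g y.2.2) 1 := fun a =>
      (ih (g := fun z => fderiv ℝ g z a.2.2) ((h.fderiv_right (m := ∞) le_rfl).clm_apply
        contDiff_const) (hc.fderiv_apply ℝ _)).congr fun x _ => .of_forall fun y =>
          congrArg (fun B : R4 →L[ℝ] E => B a) ((h.differentiable (by simp) _).hasFDerivAt.comp y
            (hasFDerivAt_snd (𝕜 := ℝ) (p := y)).snd).fderiv
    exact sy_succ.2 ⟨ih h hc, k _, k _⟩

lemma fderiv_eq (f : R4 → E) (x a : R4) : fderiv ℝ f x a =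
    a.1 • D du f x + a.2.1 • D dv f x + a.2.2.1 • D d1 f x + a.2.2.2 • D d2 f x := by
  simp only [D, ← map_smul, ← map_add]
  congr 1
  ext <;> simp [d1, d2, du, dv]

lemma norm_fderiv_le {k1 k2 k3 k4 : ℝ} (h1 : a.1 = 0 ∧ 0 ≤ k1 ∨ ‖D du f x‖ ≤ k1)
    (h2 : a.2.1 = 0 ∧ 0 ≤ k2 ∨ ‖D dv f x‖ ≤ k2) (h3 : ‖D d1 f x‖ ≤ k3) (h4 : ‖D d2 f x‖ ≤ k4) :
    ‖fderiv ℝ f x a‖ ≤ (k1 + k2 + k3 + k4) * ‖a‖ := by
  have k : ∀ (c : ℝ) (z : E) (k : ℝ), ‖c‖ ≤ ‖a‖ → c = 0 ∧ 0 ≤ k ∨ ‖z‖ ≤ k → ‖c • z‖ ≤ k * ‖a‖ := by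
    rintro c z k hc (⟨rfl, h⟩ | h)
    · simpa using mul_nonneg h (norm_nonneg a)
    · rw [norm_smul, mul_comm]
      exact mul_le_mul h hc (norm_nonneg _) ((norm_nonneg _).trans h)
  have n2 := norm_snd_le a
  have n3 := (norm_snd_le a.2).trans n2
  rw [fderiv_eq, add_mul, add_mul, add_mul]
  exact norm_add_le_of_le (norm_add_le_of_le (norm_add_le_of_le (k _ _ _ (norm_fst_le a) h1)
    (k _ _ _ ((norm_fst_le _).trans n2) h2)) (k _ _ _ ((norm_fst_le _).trans n3) (.inr h3)))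
    (k _ _ _ ((norm_snd_le _).trans n3) (.inr h4))

lemma hasDerivAt_D (a x : R4) (c s : ℝ) (h : DifferentiableAt ℝ f (x + (s - c) • a)) :
    HasDerivAt (fun s : ℝ => f (x + (s - c) • a)) (D a f (x + (s - c) • a)) s := by
  have := h.hasFDerivAt.comp_hasDerivAt s
    ((((hasDerivAt_id s).sub_const c).smul_const a).const_add x)
  rwa [one_smul] at this

/-- f vanishes on the hypersurface t = t0 near Q. -/
def Van (t : R4 →L[ℝ] ℝ) (t0 : ℝ) (Q : Set R4) (f : R4 → E) : Prop :=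
  ∀ x ∈ Q, ContDiffAt ℝ ∞ f x ∧ ∀ᶠ y in 𝓝 x, t y = t0 → f y = 0

variable {t : R4 →L[ℝ] ℝ} {t0 : ℝ}

lemma Van.D (h : Van t t0 Q f) (ha : t a = 0) : Van t t0 Q (D a f) := fun x hx => by
  refine ⟨D_sm a (h x hx).1, ?_⟩
  filter_upwards [(h x hx).2.eventually_nhds, ev_dif (h x hx).1] with y h1 h2 h3
  have h4 := hasDerivAt_D (f := f) a y 0 0 (by simpa using h2)
  have h5 : Tendsto (fun s : ℝ => y + (s - 0) • a) (𝓝 0) (𝓝 y) :=
    Continuous.tendsto' (by fun_prop) _ _ (by simp)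
  have h6 : (fun _ => 0) =ᶠ[𝓝 0] fun s : ℝ => f (y + (s - 0) • a) :=
    (h5.eventually h1).mono fun s hs => (hs (by simp [ha, h3])).symm
  simpa using (h4.congr_of_eventuallyEq h6).unique (hasDerivAt_const _ _)

lemma Van.sy (h : Van t t0 Q f) (h1 : t d1 = 0) (h2 : t d2 = 0) (h0 : ∀ x ∈ Q, t x = t0) :
    Sy Q n f w := by
  induction n generalizing f with
  | zero => exact ⟨fun x hx => (h x hx).1, 0, fun x hx => by
      simp [(h x hx).2.self_of_nhds (h0 x hx)]⟩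
  | succ n ih => exact sy_succ.2 ⟨ih h, ih (h.D h1), ih (h.D h2)⟩

/-- P is the primitive of k which vanishes at infinity. -/
structure Pr (k P : ℝ → ℝ) : Prop where
  der : ∀ t, HasDerivAt P (k t) t
  pos : ∀ t, 0 < k t
  neg : ∀ t, P t ≤ 0
  lim : Tendsto P atTop (𝓝 0)

variable {κ : ℝ} {k P : ℝ → ℝ}

lemma Wt.kpos (h : Wt κ k) (t : ℝ) : 0 < k t := (Real.exp_pos _).trans_le (h.low t)

lemma Wt.pr (h : Wt κ k) : ∃ P, Pr k P := by
  have hd : ∀ t, HasDerivAt (fun x => (∫ s in (0 : ℝ)..x, k s) - ∫ s in Ioi 0, k s) (k t) t :=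
    fun t => (h.cont.integral_hasStrictDerivAt 0 t).hasDerivAt.sub_const _
  have hl := (intervalIntegral_tendsto_integral_Ioi 0 (h.int 0) tendsto_id).sub_const
    (∫ s in Ioi 0, k s)
  rw [sub_self] at hl
  exact ⟨_, hd, h.kpos, (monotone_of_deriv_nonneg (fun t => (hd t).differentiableAt) fun t =>
    (hd t).deriv ▸ (h.kpos t).le).ge_of_tendsto hl, hl⟩

lemma Pr.mono (h : Pr k P) : Monotone P :=
  monotone_of_deriv_nonneg (fun t => (h.der t).differentiableAt) fun t =>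
    (h.der t).deriv ▸ (h.pos t).le

lemma Pr.cont (h : Pr k P) : Continuous P :=
  continuous_iff_continuousAt.2 fun t => (h.der t).continuousAt

/-- Linear transport equations with integrable coefficients. -/
lemma lin (hP : Pr k P) (ta : t a = 1)
    (hQ : ∀ x ∈ Q, t0 ≤ t x ∧ ∀ s ∈ Icc t0 (t x), x + (s - t x) • a ∈ Q)
    (p0 : ∀ x, 0 < p x) (hp : ∀ x (s : ℝ), p (x + s • a) = p x) {M : R4 → E →L[ℝ] E}
    (hs : ∀ x ∈ Q, ContDiffAt ℝ ∞ f x) (he : ∀ x ∈ Q, D a f =ᶠ[𝓝 x] fun y => M y (f y) + g y)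
    (hM : Sy Q n M fun y => k (t y)) (hg : Sy Q n g fun y => k (t y) * p y)
    (h0 : Sy {x | x ∈ Q ∧ t x = t0} n f p) : Sy Q n f p := by
  induction n generalizing f g with
  | zero =>
    obtain ⟨K0, p1, hK0⟩ := W.bd h0
    obtain ⟨K1, p2, hK1⟩ := W.bd hM
    obtain ⟨K2, p3, hK2⟩ := W.bd hg
    refine ⟨hs, (K0 + 1) * Real.exp (-((K1 + K2 + 1) * P t0)), fun x hx => ?_⟩
    obtain ⟨h1, h2⟩ := hQ x hx
    have h3 : ∀ s, t (x + (s - t x) • a) = s := fun s => by simp [ta]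
    have h4 := p0 x
    have key := image_norm_le_of_norm_deriv_right_lt_deriv_boundary
      (f := fun s => f (x + (s - t x) • a)) (f' := fun s => D a f (x + (s - t x) • a))
      (B := fun s => (K0 + 1) * p x * Real.exp ((K1 + K2 + 1) * (P s - P t0)) - p x)
      (fun s h => (hasDerivAt_D a x _ s (dif (hs _ (h2 s h)))).continuousAt.continuousWithinAt)
      (fun s h => (hasDerivAt_D a x _ s (dif (hs _ (h2 s (Ico_subset_Icc_self h))))).hasDerivWithinAt)
      (by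
        have := hK0 _ ⟨h2 t0 ⟨le_rfl, h1⟩, h3 _⟩
        rw [hp, abs_of_pos h4] at this
        simp only [sub_self, mul_zero, Real.exp_zero]
        linarith)
      (fun s => ((((hP.der s).sub_const _).const_mul _).exp.const_mul _).sub_const _)
      (fun s h e => by
        have m := h2 s (Ico_subset_Icc_self h)
        have k0 := hP.pos s
        have b1 := hK1 _ m
        have b2 := hK2 _ m
        simp only [h3, hp, abs_of_pos k0, abs_of_pos (mul_pos k0 h4)] at b1 b2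
        have b3 := (M _).le_of_opNorm_le b1 (f (x + (s - t x) • a))
        have b4 := norm_nonneg (f (x + (s - t x) • a))
        rw [(he _ m).self_of_nhds]
        refine (norm_add_le_of_le b3 b2).trans_lt ?_
        rw [← mul_assoc ((K0 + 1) * p x), eq_add_of_sub_eq e.symm]
        have := mul_pos k0 h4
        have := mul_nonneg k0.le b4
        nlinarith [mul_nonneg p2 (mul_pos k0 h4).le, mul_nonneg p3 (mul_nonneg k0.le b4)])
      ⟨h1, le_rfl⟩
    simp only [sub_self, zero_smul, add_zero] at key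
    have : Real.exp ((K1 + K2 + 1) * (P (t x) - P t0)) ≤ Real.exp (-((K1 + K2 + 1) * P t0)) :=
      Real.exp_le_exp.2 (by nlinarith [hP.neg (t x)])
    rw [abs_of_pos h4]
    nlinarith [mul_le_mul_of_nonneg_left this (mul_pos (by linarith : 0 < K0 + 1) h4).le]
  | succ n ih =>
    have k0 := ih hs he hM.low hg.low h0.low
    have k1 : ∀ b, b = d1 ∨ b = d2 → Sy Q n (D b f) p := fun b hb =>
      ih (g := fun y => D b M y (f y) + D b g y) (fun x hx => D_sm b (hs x hx)) (fun x hx => by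
        filter_upwards [D_comm_ev a b (hs x hx), D_congr b (he x hx), ev_dif (hs x hx),
          ev_dif (W.sm hM x hx), ev_dif (W.sm hg x hx)] with y y1 y2 y3 y4 y5
        rw [y1, y2, D_add b (y4.clm_apply y3) y5]
        erw [D_bil b (ContinuousLinearMap.id ℝ (E →L[ℝ] E)) y4 y3]
        simp only [ContinuousLinearMap.id_apply]
        abel) hM.low
        (W.add (W.bil (ContinuousLinearMap.id ℝ (E →L[ℝ] E)) (hM.da hb) k0) (hg.da hb)) (h0.da hb)
    exact sy_succ.2 ⟨k0, k1 _ (.inl rfl), k1 _ (.inr rfl)⟩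

end Vale.Agent.P354L
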