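import Vale.Agent.P354L.New

/-!
The estimates for the new coefficients.
-/

open scoped ContDiff
open MeasureTheory Set Filter Topology

namespace Vale.Agent.P354L

open Vale.Agent.P354n (R4 cu cv c1 c2 du dv form h1 h2)

/-- Comparison of weights. -/
def Le (Q : Set R4) (w w' : R4 → ℝ) : Prop := ∃ c, 0 ≤ c ∧ ∀ x ∈ Q, |w x| ≤ c * |w' x|

variable {Q R : Set R4} {L : List Lev} {C : ℕ → R4 → ℝ} {β Φ Y : R4 → ℝ × ℝ}
  {w w' w1 w2 : R4 → ℝ} {u1 v1 u2 v0 κ : ℝ} {k P : ℝ → ℝ}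

lemma W.le {E : Type} [NormedAddCommGroup E] [NormedSpace ℝ E] {f : R4 → E} (h : W Q L f w)
    (e : Le Q w w') : W Q L f w' := e.elim fun c hc => h.mono c hc.2

lemma Le.of_eq (h : ∀ x, w x = w' x) : Le Q w w' := ⟨1, zero_le_one, fun x _ => by simp [h x]⟩

lemma Le.rfl : Le Q w w := .of_eq fun _ => _root_.rfl

lemma Le.trans (h : Le Q w w1) (h' : Le Q w1 w2) : Le Q w w2 := by
  obtain ⟨c, c0, hc⟩ := h
  obtain ⟨d, d0, hd⟩ := h'
  exact ⟨c * d, mul_nonneg c0 d0, fun x hx => (hc x hx).trans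
    (mul_assoc c d _ ▸ mul_le_mul_of_nonneg_left (hd x hx) c0)⟩

lemma Le.mul1 (h : Le Q w 1) (h' : Le Q w1 w2) : Le Q (w * w1) w2 := by
  obtain ⟨c, c0, hc⟩ := h
  obtain ⟨d, d0, hd⟩ := h'
  refine ⟨c * d, mul_nonneg c0 d0, fun x hx => ?_⟩
  rw [Pi.mul_apply, abs_mul, mul_assoc]
  exact mul_le_mul (by simpa using hc x hx) (hd x hx) (abs_nonneg _) c0

lemma Le.mul2 (h : Le Q w1 w2) (h' : Le Q w 1) : Le Q (w1 * w) w2 := mul_comm w w1 ▸ h'.mul1 h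

lemma Wt.le (h : Wt κ k) (t : R4 → ℝ) :
    Le Q (fun x => Real.exp (-(κ * t x))) fun x => k (t x) :=
  ⟨1, zero_le_one, fun x _ => by
    rw [one_mul, abs_of_pos (Real.exp_pos _), abs_of_pos (h.kpos _)]
    exact h.low _⟩

lemma Wt.le1 (h : Wt κ k) {t : R4 → ℝ} (ht : ∀ x ∈ Q, u1 ≤ t x) : Le Q (fun x => k (t x)) 1 := by
  obtain ⟨B, hB⟩ := h.bdd u1
  exact ⟨B, (h.kpos _).le.trans (hB _ le_rfl), fun x hx => by
    simpa [abs_of_pos (h.kpos _)] using hB _ (ht x hx)⟩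

lemma le_ex : Le Q (ex κ) (ev κ * eu κ) := .of_eq (ex_eq κ)

/-- The estimates for the flow. -/
structure FE (κ : ℝ) (k : ℝ → ℝ) (R : Set R4) (β Φ : R4 → ℝ × ℝ) : Prop where
  A : ∀ d, d = d1 ∨ d = d2 → Sy R 2 (D d Φ) 1
  N : Sy R 2 (D du Φ) (eu κ)
  V : Sy R 2 (D dv Φ) (kv k)
  X : Sy R 1 (D dv (D du Φ)) (kv k * eu κ)
  G : Sy R 0 (fun x => D du β (sh Φ x)) (ex κ)
  δ : ∃ K, ∀ x ∈ R, |(det Φ x)⁻¹| ≤ K

lemma FE.on (h : FE κ k R β Φ) (e : Q ⊆ R) : FE κ k Q β Φ :=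
  ⟨fun d hd => W.on (h.A d hd) e, W.on h.N e, W.on h.V e, W.on h.X e, W.on h.G e,
    h.δ.imp fun _ hK x hx => hK x (e hx)⟩

lemma Fl.fe (h : Fl β v0 Φ Y) (hk : Wt κ k) (hP : Pr k P) (h3 : Sy (Rg u2 v0) 3 β (kv k))
    (hu : Sy (Rg u2 v0) 2 (D du β) (ex κ)) : FE κ k (Rg u2 v0) β Φ := by
  have w3 := h.wang hP h3
  have l : Le (Rg u2 v0) (ex κ) (kv k * eu κ) := ⟨1, zero_le_one, fun x _ => by
    rw [ex_eq, one_mul, Pi.mul_apply, abs_mul, abs_mul, abs_of_pos (Real.exp_pos _),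
      abs_of_pos (hk.kpos _)]
    exact mul_le_mul_of_nonneg_right (hk.low _) (abs_nonneg _)⟩
  have N : Sy (Rg u2 v0) 2 (D du Φ) (eu κ) := h.step hP w3.1 h3 (by simp [tv, du])
    (fun _ => Real.exp_pos _) (fun x s => by simp [eu, cu, dv]) (fun _ => rfl) (W.le hu l)
  have G : Sy (Rg u2 v0) 1 (fun x => D du β (sh Φ x)) (ex κ) := W.comp hu.low ok_ang w3.1.1 fun _ => id
  refine ⟨fun d hd => ?_, N, ?_, ?_, G.low, h.inv_bd hP h3.low.low⟩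
  · rcases hd with rfl | rfl
    exacts [w3.2 (d1, 1) (by simp [ang]), w3.2 (d2, 1) (by simp [ang])]
  · rw [funext h.der]
    exact W.comp h3.low ok_ang w3.1 fun _ => id
  · rw [funext (h.eqn du)]
    exact ((W.le G l).add (((W.fst N.low).smul (W.comp h3.e1.low ok_ang w3.1.1 fun _ => id)).le
      (.of_eq fun _ => mul_comm _ _))).add (((W.snd N.low).smul
        (W.comp h3.e2.low ok_ang w3.1.1 fun _ => id)).le (.of_eq fun _ => mul_comm _ _))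

lemma Fl.eqn' (h : Fl β v0 Φ Y) {d : R4} (hd : d = d1 ∨ d = d2) (x : R4) : D dv (D d Φ) x =
    (col Φ d x).1 • D d1 β (sh Φ x) + (col Φ d x).2 • D d2 β (sh Φ x) := by
  rw [h.eqn]
  rcases hd with rfl | rfl
  · rw [col, show d1.2.2 = (1, 0) from rfl]
    ext <;> simp <;> ring
  · rw [col, show d2.2.2 = (0, 1) from rfl]
    ext <;> simp <;> ring

lemma Fl.iv_der (h : Fl β v0 Φ Y) (x : R4) :
    D dv (iv Φ (D du Φ)) x = iv Φ (fun y => D du β (sh Φ y)) x := by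
  have hc : ∀ d, HasFDerivAt (col Φ d) (fderiv ℝ (D d Φ) x) x := fun d =>
    (dif (D_smu d h.sΦ).contDiffAt).hasFDerivAt.const_add _
  have hN := (dif (x := x) (D_smu du h.sΦ).contDiffAt).hasFDerivAt
  have hδ := (hasDerivAt_inv (h.det_ne x)).comp_hasFDerivAt x (dif h.det_sm.contDiffAt).hasFDerivAt
  have := ((hδ.fun_mul (((hc d2).snd.fun_mul hN.fst).fun_sub ((hc d2).fst.fun_mul hN.snd))).prodMk
    (hδ.fun_mul (((hc d1).fst.fun_mul hN.snd).fun_sub ((hc d1).snd.fun_mul hN.fst)))).fderiv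
  have e0 := h.det_der x
  have e1 := h.eqn' (.inl rfl) x
  have e2 := h.eqn' (.inr rfl) x
  have e3 := h.eqn du x
  have e4 := h.det_ne x
  rw [D] at e0 e1 e2 e3
  rw [D, show fderiv ℝ (iv Φ (D du Φ)) x = _ from this]
  ext
  · simp [iv, e0, e2, e3]
    field_simp
    ring
  · simp [iv, e0, e1, e3]
    field_simp
    ring

/-- The sum of the absolute values of three functions, plus e. -/
def s3 (f : ℕ → R4 → ℝ) (e : R4 → ℝ) (x : R4) : ℝ := |f 0 x| + |f 1 x| + |f 2 x| + |e x|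

lemma le_s3 (f : ℕ → R4 → ℝ) (e : R4 → ℝ) : Le Q e (s3 f e) := ⟨1, zero_le_one, fun x _ => by
  rw [one_mul]
  exact le_trans (le_add_of_nonneg_left (by positivity)) (le_abs_self _)⟩

lemma w_s3 {f : ℕ → R4 → ℝ} (e : R4 → ℝ) {i : ℕ} (hi : i < 3)
    (h : ∀ x ∈ Q, ContDiffAt ℝ ∞ (f i) x) : W Q [] (f i) (s3 f e) := ⟨h, 1, fun x _ => by
  rw [one_mul, Real.norm_eq_abs]
  refine le_trans ?_ (le_abs_self _)
  have := abs_nonneg (f 0 x)
  have := abs_nonneg (f 1 x)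
  have := abs_nonneg (f 2 x)
  have := abs_nonneg (e x)
  unfold s3
  interval_cases i <;> linarith⟩

lemma W'.one {S S' : Lev} (h : W' Q [S, S'] Φ) : W' Q [S] Φ := ⟨h.sm, fun q hq => (h.2 q hq).1⟩

/-- The lower bound of the new angular metric. -/
lemma low_new (h : Fl β v0 Φ Y) (F : FE κ k R β Φ) : ∃ K, 0 ≤ K ∧ ∀ x ∈ R, ∀ a : R4, cu a = 0 →
    cv a = 0 → ‖a‖ ≤ K * ‖fderiv ℝ (sh Φ) x a‖ := by
  have A : ∀ d, d = d1 ∨ d = d2 → W R [] (D d Φ) 1 := fun d hd => (F.A d hd).le (Nat.zero_le _)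
  have hδ := (W.det A).inv (fun x _ => h.det_ne x) F.δ
  obtain ⟨K1, p1, h1⟩ := (W.iv A hδ (W.const (1, 0))).bd
  obtain ⟨K2, p2, h2⟩ := (W.iv A hδ (W.const (0, 1))).bd
  refine ⟨K1 + K2, add_nonneg p1 p2, fun x hx a a1 a2 => ?_⟩
  obtain ⟨a, b, s, t⟩ := a
  obtain rfl : a = 0 := a1
  obtain rfl : b = 0 := a2
  have e := mul_inv_cancel₀ (h.det_ne x)
  have n := (norm_snd_le _).trans (norm_snd_le (fderiv ℝ (sh Φ) x (0, 0, s, t)))
  have e2 : (s, t) = (fderiv ℝ (sh Φ) x (0, 0, s, t)).2.2.1 • iv Φ (fun _ => (1, 0)) x +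
      (fderiv ℝ (sh Φ) x (0, 0, s, t)).2.2.2 • iv Φ (fun _ => (0, 1)) x := by
    rw [h.der_ang]
    nth_rw 1 [det] at e
    ext
    · simp [iv, col, d1, d2] at e ⊢
      linear_combination -s * e
    · simp [iv, col, d1, d2] at e ⊢
      linear_combination -t * e
  have e3 : ‖((0, 0, s, t) : R4)‖ = ‖(s, t)‖ := by simp [Prod.norm_def]
  rw [e3, add_mul]
  nth_rw 1 [e2]
  refine norm_add_le_of_le ?_ ?_ <;> rw [norm_smul, mul_comm]
  · exact mul_le_mul (by simpa using h1 x hx) ((norm_fst_le _).trans n) (norm_nonneg _) p1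
  · exact mul_le_mul (by simpa using h2 x hx) ((norm_snd_le _).trans n) (norm_nonneg _) p2

/-- The additional estimates at the fronts. -/
structure FR (κ : ℝ) (k : ℝ → ℝ) (R : Set R4) (C : ℕ → R4 → ℝ) (Φ : R4 → ℝ × ℝ) : Prop where
  v : ∀ i < 3, T1 R du 1 0 (D dv (newC C Φ i)) (kv k)
  u : ∀ i < 3, T1 R dv 1 0 (D du (newC C Φ i)) (ku k)
  cv : ∀ i < 3, W R [] (fun x => chi C i (sh Φ x)) (s3 (fun i => D dv (newC C Φ i)) (ev κ))
  cu : ∀ i < 3, W R [] (fun x => D du (C i) (sh Φ x)) (s3 (fun i => D du (newC C Φ i)) (eu κ))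

theorem Fl.nb (h : Fl β v0 Φ Y) (hk : Wt κ k) (F : FE κ k R β Φ)
    (hQ : ∀ x ∈ Q, u1 ≤ cu x ∧ v1 ≤ cv x) (E : Est κ k Q C) (hRQ : ∀ x ∈ R, sh Φ x ∈ Q)
    (h67 : ∀ x ∈ Q, C 6 x = 0 ∧ C 7 x = 0)
    (hσ : T1 Q du (eu κ) 0 (fun x => sv C x - β x) (ev κ)) :
    NB κ k R (newC C Φ) ∧ FR κ k R C Φ := by
  have lu : Le R (ku k) 1 := hk.le1 fun x hx => (hQ _ (hRQ x hx)).1
  have lv : Le R (kv k) 1 := hk.le1 fun x hx => (hQ _ (hRQ x hx)).2
  have lu' : Le Q (ku k) 1 := hk.le1 fun x hx => (hQ _ hx).1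
  have lv' : Le Q (kv k) 1 := hk.le1 fun x hx => (hQ _ hx).2
  have le : Le R (eu κ) (ku k) := hk.le cu
  have hs := h.sΦ
  obtain ⟨w1, a1⟩ := two (a := dv) (b := du) (p := kv k) hs F.A (t1_iff.2 ⟨F.V, (W.congr F.X
    fun x _ => D_comm_ev _ _ hs.contDiffAt).le ((Le.rfl.mul2 (le.trans lu)).trans (.of_eq (by simp)))⟩)
    (W.le F.N (le.trans lu))
  obtain ⟨w2, a2⟩ := two (a := du) (b := dv) (p := ku k) hs F.A (t1_iff.2 ⟨W.le F.N le,
    W.le F.X ((lv.mul1 le).trans (.of_eq (by simp)))⟩) (W.le F.V lv)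
  have o0 : Ok [] := by simp [Ok]
  have o1 : Ok [(dv, kv k) :: ang, (du, 1) :: ang] := (o0.cons fun _ _ => rfl).cons fun _ _ => rfl
  have o2 : Ok [(du, ku k) :: ang, (dv, 1) :: ang] := (o0.cons fun _ _ => rfl).cons fun _ _ => rfl
  have g1 : ∀ i < 3, W R [(dv, kv k) :: ang, (du, 1) :: ang] (newC C Φ i) 1 := fun i hi => by
    rw [newC_lt _ _ hi]
    refine W.pull a1 (fun j hj => W.comp (w := 1) ?_ o1 w1 hRQ) i
    obtain ⟨e1, e2, e3, -, e5⟩ := E.gam j hj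
    exact mk2 (t1_iff.2 ⟨e1, W.le e2 (lu'.trans (.of_eq (by simp)))⟩)
      (t1_iff.2 ⟨W.eqw e3 (by simp), W.eqw e5 (by simp)⟩)
  have g2 : ∀ i < 3, W R [(du, ku k) :: ang, (dv, 1) :: ang] (newC C Φ i) 1 := fun i hi => by
    rw [newC_lt _ _ hi]
    refine W.pull a2 (fun j hj => W.comp (w := 1) ?_ o2 w2 hRQ) i
    obtain ⟨e1, e2, e3, e4, -⟩ := E.gam j hj
    exact mk2 (t1_iff.2 ⟨e1, W.le e3 (lv'.trans (.of_eq (by simp)))⟩)
      (t1_iff.2 ⟨W.eqw e2 (by simp), (W.congr e4 fun x hx => D_comm_ev _ _ (W.sm e1 x hx)).eqw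
        (by simp)⟩)
  have gv : ∀ i < 3, T1 R du 1 0 (D dv (newC C Φ i)) (kv k) := fun i hi =>
    W.eqw ((g1 i hi).2 _ List.mem_cons_self) (by simp)
  have gu : ∀ i < 3, T1 R dv 1 0 (D du (newC C Φ i)) (ku k) := fun i hi =>
    W.eqw ((g2 i hi).2 _ List.mem_cons_self) (by simp)
  have A1 : ∀ d, d = d1 ∨ d = d2 → T1 R du (eu κ) 0 (D d Φ) 1 := fun d hd => t1_iff.2
    ⟨(F.A d hd).low, (W.congr (F.N.da hd).low fun x _ => D_comm_ev _ _ hs.contDiffAt).eqw (by simp)⟩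
  have hδ := (W.det A1).inv (fun x _ => h.det_ne x) F.δ
  have w3 : W' R [(du, eu κ) :: ang] Φ := ⟨fun _ _ => hs.contDiffAt, List.forall_mem_cons.2
    ⟨F.N.low.low, fa_ang (A1 _ (.inl rfl)).1 (A1 _ (.inr rfl)).1⟩⟩
  have s1 : T1 R du (eu κ) 0 (iv Φ fun y => sv C (sh Φ y) - D dv Φ y) (ev κ) := by
    rw [funext h.der]
    exact W.iv A1 hδ (W.comp hσ (o0.cons fun _ _ => rfl) w3 hRQ)
  have s2 : Sy R 1 (iv Φ (D du Φ)) (eu κ) :=
    W.iv (fun d hd => (F.A d hd).low) (t1_iff.1 hδ).1 F.N.low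
  have s4 : Sy R 0 (D dv (iv Φ (D du Φ))) (ex κ) := by
    rw [funext h.iv_der]
    exact W.iv (fun d hd => (A1 d hd).1) hδ.1 F.G
  have A0 : ∀ d, d = d1 ∨ d = d2 → W R [] (D d Φ) 1 := fun d hd => (A1 d hd).1
  have c0 : ∀ {f : R4 → ℝ} {w : R4 → ℝ}, W Q [] f w → W R [] (fun y => f (sh Φ y))
    fun y => w (sh Φ y) := fun hf => hf.comp o0 w3.1 hRQ
  have γ0 : ∀ j < 3, W R [] (fun y => C j (sh Φ y)) 1 := fun j hj => c0 (E.gam j hj).1.low.low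
  have γd : ∀ j < 3, ∀ x ∈ R, ∀ᶠ y in 𝓝 x, DifferentiableAt ℝ (C j) (sh Φ y) := fun j hj x hx =>
    (sh_sm hs.contDiffAt).continuousAt.eventually (ev_dif (W.sm (E.gam j hj).1 _ (hRQ x hx)))
  have γe : ∀ x ∈ R, ∀ᶠ y in 𝓝 x, ∀ j < 3, DifferentiableAt ℝ (C j) (sh Φ y) := fun x hx => by
    filter_upwards [γd 0 (by simp) x hx, γd 1 (by simp) x hx, γd 2 (by simp) x hx] with y y0 y1 y2 j hj
    interval_cases j <;> assumption
  refine ⟨⟨fun i hi => ⟨(t1_iff (n := 0).1 (g1 i hi).1).1, (gu i hi).1, (gv i hi).1⟩, ?_, ?_, ?_⟩,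
    gv, gu, ?_, ?_⟩
  · rintro _ rfl
    obtain ⟨e1, e2, e3⟩ := E.om _ rfl
    have t1 := t1_iff.1 (W.comp (t1_iff.2 ⟨e1, W.eqw e2 (w' := 1 * ku k) (by simp)⟩)
      (o0.cons fun _ _ => rfl) w2.one hRQ)
    have t2 := t1_iff.1 (W.comp (t1_iff.2 ⟨e1, W.eqw e3 (w' := 1 * kv k) (by simp)⟩)
      (o0.cons fun _ _ => rfl) w1.one hRQ)
    exact ⟨t1.1, W.eqw t1.2 (by simp), W.eqw t2.2 (by simp)⟩
  · obtain ⟨K, p, hK⟩ := E.low
    obtain ⟨K', p', hK'⟩ := low_new h F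
    refine ⟨(K' ^ 2 + 1) * K, by positivity, fun x hx => ⟨?_, fun a a1 a2 => ?_⟩⟩
    · have : 1 ≤ K * (newC C Φ 3 x * Real.exp (κ * (cu x + cv x))) := (hK _ (hRQ x hx)).1
      nlinarith [sq_nonneg K']
    · have e1 := (hK _ (hRQ x hx)).2 (fderiv ℝ (sh Φ) x a)
        (by rwa [fderiv_sh (dif hs.contDiffAt)]) (by rwa [fderiv_sh (dif hs.contDiffAt)])
      rw [form_new (dif hs.contDiffAt) (h.det_ne x) (h67 _ (hRQ x hx)).1 (h67 _ (hRQ x hx)).2] at e1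
      have e2 := pow_le_pow_left₀ (norm_nonneg _) (hK' x hx a a1 a2) 2
      nlinarith [mul_le_mul_of_nonneg_left e1 (sq_nonneg K'), sq_nonneg ‖fderiv ℝ (sh Φ) x a‖]
  · have s5 : ∀ x ∈ R, ∀ᶠ y in 𝓝 x, DifferentiableAt ℝ (iv Φ (D du Φ)) y :=
      fun x hx => ev_dif (W.sm s2 x hx)
    rintro i (rfl | rfl)
    · obtain ⟨t1, t2⟩ := t1_iff.1 (W.fst s1)
      refine ⟨t1, W.eqw t2 fun x _ => (ex_eq κ x).symm, (W.fst s2).neg,
        (W.fst s4).neg.congr fun x hx => (s5 x hx).mono fun y hy => ?_⟩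
      exact D_clm dv (-ContinuousLinearMap.fst ℝ ℝ ℝ) hy
    · obtain ⟨t1, t2⟩ := t1_iff.1 (W.snd s1)
      refine ⟨t1, W.eqw t2 fun x _ => (ex_eq κ x).symm, (W.snd s2).neg,
        (W.snd s4).neg.congr fun x hx => (s5 x hx).mono fun y hy => ?_⟩
      exact D_clm dv (-ContinuousLinearMap.snd ℝ ℝ ℝ) hy
  · refine W.unpull A0 hδ.1 h.det_ne fun i hi => ?_
    obtain ⟨t1, -⟩ := t1_iff.1 hσ
    have z : ∀ j < 3, W Q [] (fun x => (sv C x - β x).1 * D d1 (C j) x +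
        (sv C x - β x).2 * D d2 (C j) x) (ev κ) := fun j hj =>
      ((W.fst t1.low).mul2 (E.gam j hj).1.e1.low).add ((W.snd t1.low).mul2 (E.gam j hj).1.e2.low)
    have σd : ∀ d, d = d1 ∨ d = d2 → W R [] (fun x => (col Φ d x).1 •
        D d1 (fun x => sv C x - β x) (sh Φ x) + (col Φ d x).2 •
        D d2 (fun x => sv C x - β x) (sh Φ x)) (ev κ) := fun d hd =>
      (((A0 d hd).col.fst.smul (W.comp t1.e1 o0 w3.1 hRQ)).add
        ((A0 d hd).col.snd.smul (W.comp t1.e2 o0 w3.1 hRQ))).eqw fun _ _ => one_mul _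
    refine ((w_s3 (f := fun i => D dv (newC C Φ i)) (ev κ) hi (W.sm (gv i hi))).add
      (((W.pull (w := ev κ) A0 (fun j hj => c0 (z j hj)) i).add (((((W.pl γ0 (σd _ (i1_ang i))
        (A0 _ (i2_ang i)).col).eqw fun _ _ => by simp).add ((W.pl γ0 (A0 _ (i1_ang i)).col
        (σd _ (i2_ang i))).eqw fun _ _ => by simp)).cmul (ic i)))).le (le_s3 _ _))).congr
      fun x hx => ?_
    have m := (sh_sm hs.contDiffAt).continuousAt.eventually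
      ((ev_dif (W.sm (E.sh 4 (.inl rfl)).1 _ (hRQ x hx))).and
        (ev_dif (W.sm (E.sh 5 (.inr rfl)).1 _ (hRQ x hx))))
    filter_upwards [γe x hx, m] with y y1 y2
    have y3 : ∀ d, D d (fun x => sv C x - β x) (sh Φ y) =
        (D d (C 4) (sh Φ y), D d (C 5) (sh Φ y)) - D d β (sh Φ y) := fun d => by
      rw [D_sub (f := sv C) d (y2.1.prodMk y2.2) (dif h.sβ.contDiffAt)]
      exact congrArg (fun z => z - _) (congrArg (fun B : R4 →L[ℝ] ℝ × ℝ => B d)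
        (y2.1.hasFDerivAt.prodMk y2.2.hasFDerivAt).fderiv)
    rw [newC_lt _ _ hi, D_pull (g := fun j y => C j (sh Φ y)) dv hs
      fun j hj => (y1 j hj).comp y (dif (sh_sm hs.contDiffAt))]
    simp only [pull, pl, y3]
    simp only [h.eqn' (i1_ang i), h.eqn' (i2_ang i), chi, DL, P354L.lv, fderiv_eq, sv, h.der,
      D_sh dv (y1 0 (by simp)) (dif hs.contDiffAt), D_sh dv (y1 1 (by simp)) (dif hs.contDiffAt),
      D_sh dv (y1 2 (by simp)) (dif hs.contDiffAt), Prod.fst_add, Prod.snd_add, Prod.smul_fst,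
      Prod.smul_snd, Prod.fst_sub, Prod.snd_sub, smul_eq_mul]
    ring
  · refine W.unpull A0 hδ.1 h.det_ne fun i hi => ?_
    have z : ∀ j < 3, W R [] (fun x => (D du Φ x).1 * D d1 (C j) (sh Φ x) +
        (D du Φ x).2 * D d2 (C j) (sh Φ x)) (eu κ) := fun j hj =>
      ((W.fst F.N.low.low).mul2 (c0 (E.gam j hj).1.e1.low)).add
        ((W.snd F.N.low.low).mul2 (c0 (E.gam j hj).1.e2.low))
    have σd : ∀ d, d = d1 ∨ d = d2 → W R [] (D du (D d Φ)) (eu κ) := fun d hd =>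
      W.eqw (t1_iff.1 (A1 d hd)).2 fun _ _ => one_mul _
    refine ((w_s3 (f := fun i => D du (newC C Φ i)) (eu κ) hi (W.sm (gu i hi))).sub
      (((W.pull A0 z i).add (((((W.pl γ0 (σd _ (i1_ang i))
        (A0 _ (i2_ang i)).col).eqw fun _ _ => by simp).add ((W.pl γ0 (A0 _ (i1_ang i)).col
        (σd _ (i2_ang i))).eqw fun _ _ => by simp)).cmul (ic i)))).le (le_s3 _ _))).congr
      fun x hx => ?_
    filter_upwards [γe x hx] with y y1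
    rw [newC_lt _ _ hi, D_pull (g := fun j y => C j (sh Φ y)) du hs
      fun j hj => (y1 j hj).comp y (dif (sh_sm hs.contDiffAt))]
    simp only [pull, pl,
      D_sh du (y1 0 (by simp)) (dif hs.contDiffAt), D_sh du (y1 1 (by simp)) (dif hs.contDiffAt),
      D_sh du (y1 2 (by simp)) (dif hs.contDiffAt), smul_eq_mul]
    ring

end Vale.Agent.P354L
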