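import Vale.Agent.P354L.Flow

/-!
The coefficients of the metric in the coordinates of the flow.
-/

open scoped ContDiff
open MeasureTheory Set Filter Topology

namespace Vale.Agent.P354L

open Vale.Agent.P354n (R4 cu cv c1 c2 du dv form h1 h2)

/-- The weights. -/
abbrev ku (k : ℝ → ℝ) (x : R4) : ℝ := k (cu x)
abbrev kv (k : ℝ → ℝ) (x : R4) : ℝ := k (cv x)
noncomputable abbrev eu (κ : ℝ) (x : R4) : ℝ := Real.exp (-(κ * cu x))
noncomputable abbrev ev (κ : ℝ) (x : R4) : ℝ := Real.exp (-(κ * cv x))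
noncomputable abbrev ex (κ : ℝ) (x : R4) : ℝ := Real.exp (-(κ * (cu x + cv x)))

lemma ex_eq (κ : ℝ) (x : R4) : ex κ x = ev κ x * eu κ x := by
  rw [ex, ← Real.exp_add]
  congr 1
  ring

/-- Twice the angular metric g on the vectors p, q. -/
def pl (g : ℕ → R4 → ℝ) (p q : R4 → ℝ × ℝ) (x : R4) : ℝ :=
  2 * (g 0 x * ((p x).1 * (q x).1)) + g 1 x * ((p x).1 * (q x).2 + (p x).2 * (q x).1) +
    2 * (g 2 x * ((p x).2 * (q x).2))

/-- The image of the angular vector d. -/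
noncomputable def col (Φ : R4 → ℝ × ℝ) (d x : R4) : ℝ × ℝ := d.2.2 + D d Φ x

def i1 (i : ℕ) : R4 := if i = 2 then d2 else d1
def i2 (i : ℕ) : R4 := if i = 0 then d1 else d2
noncomputable def ic (i : ℕ) : ℝ := if i = 1 then 1 else 2⁻¹

lemma i1_ang (i : ℕ) : i1 i = d1 ∨ i1 i = d2 := by unfold i1; split_ifs <;> simp
lemma i2_ang (i : ℕ) : i2 i = d1 ∨ i2 i = d2 := by unfold i2; split_ifs <;> simp

/-- The pull back of the angular metric. -/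
noncomputable def pull (g : ℕ → R4 → ℝ) (Φ : R4 → ℝ × ℝ) (i : ℕ) (x : R4) : ℝ :=
  ic i * pl g (col Φ (i1 i)) (col Φ (i2 i)) x

/-- The inverse of the angular part of the derivative on the vector s. -/
noncomputable def iv (Φ s : R4 → ℝ × ℝ) (x : R4) : ℝ × ℝ :=
  ((det Φ x)⁻¹ * ((col Φ d2 x).2 * (s x).1 - (col Φ d2 x).1 * (s x).2),
    (det Φ x)⁻¹ * ((col Φ d1 x).1 * (s x).2 - (col Φ d1 x).2 * (s x).1))

/-- The shift. -/
def sv (C : ℕ → R4 → ℝ) (x : R4) : ℝ × ℝ := (C 4 x, C 5 x)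

/-- The new coefficients. -/
noncomputable def newC (C : ℕ → R4 → ℝ) (Φ : R4 → ℝ × ℝ) : ℕ → R4 → ℝ
  | 3 => fun x => C 3 (sh Φ x)
  | 4 => fun x => (iv Φ (fun y => sv C (sh Φ y) - D dv Φ y) x).1
  | 5 => fun x => (iv Φ (fun y => sv C (sh Φ y) - D dv Φ y) x).2
  | 6 => fun x => -(iv Φ (D du Φ) x).1
  | 7 => fun x => -(iv Φ (D du Φ) x).2
  | i => pull (fun j y => C j (sh Φ y)) Φ i

lemma newC_lt (C : ℕ → R4 → ℝ) (Φ : R4 → ℝ × ℝ) {i : ℕ} (hi : i < 3) :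
    newC C Φ i = pull (fun j y => C j (sh Φ y)) Φ i := by
  interval_cases i <;> rfl

lemma det_eq (Φ : R4 → ℝ × ℝ) (x : R4) :
    det Φ x = (col Φ d1 x).1 * (col Φ d2 x).2 - (col Φ d2 x).1 * (col Φ d1 x).2 := by
  simp [det, col, d1, d2]

variable {Q R : Set R4} {L : List Lev} {g C : ℕ → R4 → ℝ} {p q β Φ Y : R4 → ℝ × ℝ}
  {w w' w'' : R4 → ℝ} {x a b : R4} {u2 v0 κ : ℝ} {k P : ℝ → ℝ}

lemma form_new (h : DifferentiableAt ℝ Φ x) (hd : det Φ x ≠ 0) (h6 : C 6 (sh Φ x) = 0)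
    (h7 : C 7 (sh Φ x) = 0) (a : R4) :
    form C (sh Φ x) (fderiv ℝ (sh Φ) x a) = form (newC C Φ) x a := by
  have hδ := mul_inv_cancel₀ hd
  rw [det_eq] at hδ
  have e1 : h1 C (sh Φ x) (fderiv ℝ (sh Φ) x a) =
      (col Φ d1 x).1 * h1 (newC C Φ) x a + (col Φ d2 x).1 * h2 (newC C Φ) x a := by
    rw [fderiv_sh h, D, fderiv_eq]
    simp only [h1, h2, newC, iv, sv, h6, c1, c2, cu, cv, det_eq]
    simp [col, d1, d2] at hδ ⊢
    linear_combination (a.2.1 * (C 4 (sh Φ x) - (D dv Φ x).1) - a.1 * (D du Φ x).1) * hδ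
  have e2 : h2 C (sh Φ x) (fderiv ℝ (sh Φ) x a) =
      (col Φ d1 x).2 * h1 (newC C Φ) x a + (col Φ d2 x).2 * h2 (newC C Φ) x a := by
    rw [fderiv_sh h, D, fderiv_eq]
    simp only [h1, h2, newC, iv, sv, h7, c1, c2, cu, cv, det_eq]
    simp [col, d1, d2] at hδ ⊢
    linear_combination (a.2.1 * (C 5 (sh Φ x) - (D dv Φ x).2) - a.1 * (D du Φ x).2) * hδ
  rw [form, e1, e2, fderiv_sh h, form]
  generalize h1 (newC C Φ) x a = s, h2 (newC C Φ) x a = t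
  simp [newC, pull, pl, ic, i1, i2, cu, cv]
  ring

lemma W.pl (h : ∀ i < 3, W Q L (g i) w) (hp : W Q L p w') (hq : W Q L q w'') :
    W Q L (pl g p q) (w * (w' * w'')) :=
  ((((h 0 (by simp)).mul (hp.fst.mul hq.fst)).cmul 2).add ((h 1 (by simp)).mul
    ((hp.fst.mul hq.snd).add (hp.snd.mul hq.fst)))).add
    (((h 2 (by simp)).mul (hp.snd.mul hq.snd)).cmul 2)

lemma D_pl (a : R4) (h : ∀ i < 3, DifferentiableAt ℝ (g i) x) (hp : DifferentiableAt ℝ p x)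
    (hq : DifferentiableAt ℝ q x) : D a (pl g p q) x =
      pl (fun i => D a (g i)) p q x + pl g (D a p) q x + pl g p (D a q) x := by
  have h0 := (h 0 (by simp)).hasFDerivAt
  have h1 := (h 1 (by simp)).hasFDerivAt
  have h2 := (h 2 (by simp)).hasFDerivAt
  have p1 := hp.hasFDerivAt.fst
  have p2 := hp.hasFDerivAt.snd
  have q1 := hq.hasFDerivAt.fst
  have q2 := hq.hasFDerivAt.snd
  have := ((((h0.fun_mul (p1.fun_mul q1)).const_mul 2).fun_add (h1.fun_mul ((p1.fun_mul q2).fun_add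
    (p2.fun_mul q1)))).fun_add ((h2.fun_mul (p2.fun_mul q2)).const_mul 2)).fderiv
  rw [D, show fderiv ℝ (pl g p q) x = _ from this]
  simp [pl, D]
  ring

lemma W.col (d : R4) (h : W Q L (D d Φ) 1) : W Q L (col Φ d) 1 := (W.const _).add h

lemma D_col (a d : R4) : D a (col Φ d) = D a (D d Φ) := by
  funext x
  simp only [D]
  rw [show col Φ d = fun y => d.2.2 + D d Φ y from rfl, fderiv_const_add]

lemma W.det (h : ∀ d, d = d1 ∨ d = d2 → W Q L (D d Φ) 1) : W Q L (det Φ) 1 := by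
  rw [funext (det_eq Φ)]
  exact ((h _ (.inl rfl)).col.fst.mul1 (h _ (.inr rfl)).col.snd).sub
    ((h _ (.inr rfl)).col.fst.mul1 (h _ (.inl rfl)).col.snd)

lemma W.iv (h : ∀ d, d = d1 ∨ d = d2 → W Q L (D d Φ) 1) (hδ : W Q L (fun x => (P354L.det Φ x)⁻¹) 1)
    (hp : W Q L p w) : W Q L (iv Φ p) w :=
  (hδ.mul1 (((h _ (.inr rfl)).col.snd.mul1 hp.fst).sub ((h _ (.inr rfl)).col.fst.mul1 hp.snd))).pair
    (hδ.mul1 (((h _ (.inl rfl)).col.fst.mul1 hp.snd).sub ((h _ (.inl rfl)).col.snd.mul1 hp.fst)))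

lemma W.pull (h : ∀ d, d = d1 ∨ d = d2 → W Q L (D d Φ) 1) (hg : ∀ i < 3, W Q L (g i) w) (i : ℕ) :
    W Q L (pull g Φ i) w :=
  ((W.pl hg (h _ (i1_ang i)).col (h _ (i2_ang i)).col).eqw fun x _ => by simp).cmul _

/-- A form is bounded by its pull back. -/
lemma W.unpull (h : ∀ d, d = d1 ∨ d = d2 → W Q [] (D d Φ) 1)
    (hδ : W Q [] (fun x => (P354L.det Φ x)⁻¹) 1) (h0 : ∀ x, P354L.det Φ x ≠ 0)
    (hg : ∀ i < 3, W Q [] (P354L.pull g Φ i) w) : ∀ i < 3, W Q [] (g i) w := by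
  have A := (h _ (.inl rfl)).col
  have B := (h _ (.inr rfl)).col
  have p1 := (hδ.mul1 B.snd).pair (hδ.mul1 A.snd).neg
  have p2 := (hδ.mul1 B.fst).neg.pair (hδ.mul1 A.fst)
  intro i hi
  have e : ∀ x, ((P354L.col Φ d1 x).1 * (P354L.col Φ d2 x).2 -
      (P354L.col Φ d2 x).1 * (P354L.col Φ d1 x).2) * (P354L.det Φ x)⁻¹ = 1 := fun x =>
    det_eq Φ x ▸ mul_inv_cancel₀ (h0 x)
  interval_cases i
  · refine (((W.pl hg p1 p1).cmul 2⁻¹).eqw fun x _ => by simp).congr fun x _ => .of_forall fun y => ?_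
    simp [P354L.pl, P354L.pull, ic, i1, i2]
    have := e y
    generalize (P354L.det Φ y)⁻¹ = δ at *
    linear_combination (-(g 0 y) * (1 + ((P354L.col Φ d1 y).1 * (P354L.col Φ d2 y).2 -
      (P354L.col Φ d2 y).1 * (P354L.col Φ d1 y).2) * δ)) * this
  · refine ((W.pl hg p1 p2).eqw fun x _ => by simp).congr fun x _ => .of_forall fun y => ?_
    simp [P354L.pl, P354L.pull, ic, i1, i2]
    have := e y
    generalize (P354L.det Φ y)⁻¹ = δ at *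
    linear_combination (-(g 1 y) * (1 + ((P354L.col Φ d1 y).1 * (P354L.col Φ d2 y).2 -
      (P354L.col Φ d2 y).1 * (P354L.col Φ d1 y).2) * δ)) * this
  · refine (((W.pl hg p2 p2).cmul 2⁻¹).eqw fun x _ => by simp).congr fun x _ => .of_forall fun y => ?_
    simp [P354L.pl, P354L.pull, ic, i1, i2]
    have := e y
    generalize (P354L.det Φ y)⁻¹ = δ at *
    linear_combination (-(g 2 y) * (1 + ((P354L.col Φ d1 y).1 * (P354L.col Φ d2 y).2 -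
      (P354L.col Φ d2 y).1 * (P354L.col Φ d1 y).2) * δ)) * this

lemma pl_dif (h0 : DifferentiableAt ℝ (g 0) x) (h1 : DifferentiableAt ℝ (g 1) x)
    (h2 : DifferentiableAt ℝ (g 2) x) (hp : DifferentiableAt ℝ p x) (hq : DifferentiableAt ℝ q x) :
    DifferentiableAt ℝ (pl g p q) x := by
  unfold pl
  fun_prop

lemma D_pull (a : R4) (hΦ : ContDiff ℝ ∞ Φ) (h : ∀ i < 3, DifferentiableAt ℝ (g i) x) (i : ℕ) :
    D a (pull g Φ i) x = pull (fun i => D a (g i)) Φ i x +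
      ic i * (pl g (D a (D (i1 i) Φ)) (col Φ (i2 i)) x + pl g (col Φ (i1 i)) (D a (D (i2 i) Φ)) x) := by
  have k : ∀ d, DifferentiableAt ℝ (col Φ d) x := fun d =>
    (dif (D_smu d hΦ).contDiffAt).const_add _
  rw [show pull g Φ i = fun y => ic i * pl g (col Φ (i1 i)) (col Φ (i2 i)) y from rfl,
    D_mul a (differentiableAt_const _) (pl_dif (h 0 (by simp)) (h 1 (by simp)) (h 2 (by simp)) (k _) (k _)), D_pl a h (k _) (k _), D_const,
    D_col, D_col, pull]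
  ring

/-- The estimates in a chart with both shifts. -/
structure NB (κ : ℝ) (k : ℝ → ℝ) (Q : Set R4) (C : ℕ → R4 → ℝ) : Prop where
  gam : ∀ i < 3, Sy Q 1 (C i) 1 ∧ Sy Q 0 (D du (C i)) (ku k) ∧ Sy Q 0 (D dv (C i)) (kv k)
  om : ∀ om, om = (fun x => C 3 x * Real.exp (κ * (cu x + cv x))) →
    Sy Q 1 om 1 ∧ Sy Q 0 (D du om) (ku k) ∧ Sy Q 0 (D dv om) (kv k)
  low : ∃ K, 0 ≤ K ∧ ∀ x ∈ Q, 1 ≤ K * (C 3 x * Real.exp (κ * (cu x + cv x))) ∧
    ∀ a, cu a = 0 → cv a = 0 → ‖a‖ ^ 2 ≤ K * form C x a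
  sh : ∀ i, i = 4 ∨ i = 5 → Sy Q 1 (C i) (ev κ) ∧ Sy Q 0 (D du (C i)) (ex κ) ∧
    Sy Q 1 (C (i + 2)) (eu κ) ∧ Sy Q 0 (D dv (C (i + 2))) (ex κ)

lemma two {p : R4 → ℝ} (hs : ContDiff ℝ ∞ Φ) (hA : ∀ d, d = d1 ∨ d = d2 → Sy Q 2 (D d Φ) 1)
    (ha : T1 Q b 1 1 (D a Φ) p) (hb : Sy Q 2 (D b Φ) 1) :
    W' Q [(a, p) :: ang, (b, 1) :: ang] Φ ∧
      ∀ d, d = d1 ∨ d = d2 → W Q [(a, p) :: ang, (b, 1) :: ang] (D d Φ) 1 := by
  have k : ∀ d, d = d1 ∨ d = d2 → T1 Q b 1 1 (D d Φ) 1 := fun d hd => t1_iff.2 ⟨hA d hd,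
    ((hb.da hd).congr fun x _ => D_comm_ev _ _ hs.contDiffAt).eqw fun _ _ => by simp⟩
  refine ⟨⟨⟨fun _ _ => hs.contDiffAt, List.forall_mem_cons.2 ⟨hb.le (Nat.zero_le _), fa_ang
    ((hA _ (.inl rfl)).le (Nat.zero_le _)) ((hA _ (.inr rfl)).le (Nat.zero_le _))⟩⟩,
    List.forall_mem_cons.2 ⟨ha.low, fa_ang (k _ (.inl rfl)).low (k _ (.inr rfl)).low⟩⟩,
    fun d hd => mk2 (k d hd) ?_⟩
  rw [one_mul]
  exact W.congr (ha.da hd) fun x _ => D_comm_ev _ _ hs.contDiffAt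

end Vale.Agent.P354L
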