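import Vale.Agent.P354L.Corner
import Vale.Agent.P354LL.Line

/-!
The chart of the flow; the blow-up along its lines.
-/

open scoped ContDiff
open MeasureTheory Set Filter Topology

namespace Vale.Agent.P354L

open Vale.Agent.P354n (R4 cu cv c1 c2 du dv form h1 h2 Spc On tgt co inv IsSpacetime IsFutureCurve)

variable {Reg : (R4 → ℝ) → Set R4 → Prop} {M : Spc} {e e' : M.Chart} {C : ℕ → R4 → ℝ}
  {Q : Set R4} {x : R4} {a : ℝ → M.pt} {K κ s u1 v1 u2 v2 v0 ε : ℝ} {k P : ℝ → ℝ}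
  {Θ : Set (ℝ × ℝ)} {θ : ℝ × ℝ} {β β0 Φ Y : R4 → ℝ × ℝ}

lemma exists_ret {a b : ℝ} (h : a < b) : ∃ μ : ℝ → ℝ, ContDiff ℝ ∞ μ ∧ (∀ t, a < μ t) ∧
    (∀ t, b ≤ t → μ t = t) ∧ ∃ K, LipschitzWith K μ := by
  obtain ⟨c, c1, c2⟩ := exists_between h
  have d := sub_pos.2 c2
  obtain ⟨μ, hμ⟩ : ∃ μ : ℝ → ℝ, μ = fun t => c + (t - c) * Real.smoothTransition ((t - c) / (b - c)) :=
    ⟨_, rfl⟩
  have s : ContDiff ℝ ∞ μ := hμ ▸ contDiff_const.add ((contDiff_id.sub contDiff_const).mul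
    (Real.smoothTransition.contDiff.comp (by fun_prop)))
  have e1 : ∀ t, b ≤ t → μ t = t := fun t ht => by
    simp [hμ, Real.smoothTransition.one_of_one_le ((one_le_div d).2 (sub_le_sub_right ht c))]
  have e2 : ∀ t, t ≤ c → μ t = c := fun t ht => by
    simp [hμ, Real.smoothTransition.zero_of_nonpos (div_nonpos_of_nonpos_of_nonneg
      (sub_nonpos.2 ht) d.le)]
  obtain ⟨K, hK⟩ := (isCompact_Icc (a := c) (b := b)).exists_bound_of_continuousOn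
    (s.continuous_deriv (by simp)).continuousOn
  refine ⟨μ, s, fun t => ?_, e1, ⟨max K 1, by positivity⟩, lipschitzWith_of_nnnorm_deriv_le
    (s.differentiable (by simp)) fun t => show ‖deriv μ t‖ ≤ max K 1 from ?_⟩
  · rcases le_total t c with ht | ht
    · exact c1.trans_eq (e2 t ht).symm
    · exact hμ ▸ c1.trans_le (le_add_of_nonneg_right (mul_nonneg (sub_nonneg.2 ht)
        (Real.smoothTransition.nonneg _)))
  · rcases lt_or_ge t c with ht | ht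
    · rw [EventuallyEq.deriv_eq (f := fun _ => c)
        (eventually_of_mem (Iio_mem_nhds ht) fun s hs => e2 s (le_of_lt hs))]
      simp
    rcases lt_or_ge b t with ht' | ht'
    · rw [EventuallyEq.deriv_eq (f := id)
        (eventually_of_mem (Ioi_mem_nhds ht') fun s hs => e1 s (le_of_lt hs))]
      simp
    · exact (hK t ⟨ht, ht'⟩).trans (le_max_left _ _)

lemma fd_bd {E : Type} [NormedAddCommGroup E] [NormedSpace ℝ E] {f : R4 → E}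
    (h1 : W Q [] (D du f) 1) (h2 : W Q [] (D dv f) 1) (h3 : W Q [] (D d1 f) 1)
    (h4 : W Q [] (D d2 f) 1) : ∀ᶠ K in atTop, ∀ x ∈ Q, ‖fderiv ℝ f x‖ ≤ K := by
  have t : Tendsto (fun K : ℝ => K / 4) atTop atTop := tendsto_id.atTop_div_const four_pos
  filter_upwards [t.eventually (h1.ev.and (h2.ev.and (h3.ev.and h4.ev))), eventually_ge_atTop 0]
    with K hK K0 x hx
  refine ContinuousLinearMap.opNorm_le_bound _ K0 fun a => (norm_fderiv_le (.inr (hK.1 x hx))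
    (.inr (hK.2.1 x hx)) (hK.2.2.1 x hx) (hK.2.2.2 x hx)).trans_eq ?_
  simp only [Pi.one_apply, abs_one]
  ring

lemma fd_all {E : Type} [NormedAddCommGroup E] [NormedSpace ℝ E] {f : R4 → E}
    (h : W Q [all] f 1) : ∀ᶠ K in atTop, ∀ x ∈ Q, ‖fderiv ℝ f x‖ ≤ K :=
  fd_bd (mul_one (1 : R4 → ℝ) ▸ h.2 (du, 1) (by simp [all]))
    (mul_one (1 : R4 → ℝ) ▸ h.2 (dv, 1) (by simp [all]))
    (mul_one (1 : R4 → ℝ) ▸ h.2 (d1, 1) (by simp [all]))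
    (mul_one (1 : R4 → ℝ) ▸ h.2 (d2, 1) (by simp [all]))

lemma qd_low : ∀ x ∈ Qd u1 v1 Θ, u1 ≤ cu x ∧ v1 ≤ cv x := fun _ hx => ⟨hx.1.le, hx.2.1.le⟩

lemma le_ex1 (hk : Wt κ k) (hQ : ∀ x ∈ Q, u1 ≤ cu x ∧ v1 ≤ cv x) : Le Q (ex κ) 1 :=
  le_ex.trans (((hk.le cv).trans (hk.le1 fun x hx => (hQ x hx).2)).mul1
    ((hk.le cu).trans (hk.le1 fun x hx => (hQ x hx).1)))

/-- The extension of the vector field. -/
lemma exists_ext (hk : Wt κ k) (hΘ : IsOpen Θ) (hθ : θ ∈ Θ) (hu : u1 < u2) (hv : v1 < v2)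
    (b3 : Sy (Qd u1 v1 Θ) 3 β0 (kv k)) (bu : Sy (Qd u1 v1 Θ) 2 (D du β0) (ex κ))
    (bv : Sy (Qd u1 v1 Θ) 0 (D dv β0) 1) : ∃ ε > 0, Metric.ball θ ε ⊆ Θ ∧ ∃ β, ContDiff ℝ ∞ β ∧
      (∃ K, (∀ x, ‖β x‖ ≤ K) ∧ ∀ x, ‖fderiv ℝ β x‖ ≤ K) ∧
      (∀ x ∈ Qd u2 v2 (Metric.ball θ ε), β x = β0 x) ∧
      Sy (Qd u2 v2 univ) 3 β (kv k) ∧ Sy (Qd u2 v2 univ) 2 (D du β) (ex κ) ∧
      ∀ x ∈ Qd u2 v2 univ, ∃ z ∈ Qd u1 v1 Θ, D du β x = D du β0 z := by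
  obtain ⟨ε, ε0, hε⟩ := Metric.isOpen_iff.1 hΘ θ hθ
  obtain ⟨μ, μ1, μ2, μ3, Kμ, μ4⟩ := exists_ret hu
  obtain ⟨ν, ν1, ν2, ν3, Kν, ν4⟩ := exists_ret hv
  let χ : ContDiffBump θ := ⟨ε / 2, ε, half_pos ε0, half_lt_self ε0⟩
  obtain ⟨g, hg⟩ : ∃ g : ℝ × ℝ → ℝ × ℝ, g = fun y => χ y • (y - θ) := ⟨_, rfl⟩
  have g1 : ContDiff ℝ ∞ g := hg ▸ χ.contDiff.smul (by fun_prop)
  have g2 : HasCompactSupport g := hg ▸ χ.hasCompactSupport.smul_right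
  obtain ⟨Kg, g3⟩ := (g1.of_le (m := 1) (by simp)).lipschitzWith_of_hasCompactSupport g2 one_ne_zero
  have g4 : ∀ y, θ + g y ∈ Θ := fun y => hε (by
    rw [mem_ball_iff_norm, add_sub_cancel_left, hg]
    rcases lt_or_ge (dist y θ) ε with h | h
    · rw [norm_smul, Real.norm_of_nonneg χ.nonneg]
      exact (mul_le_of_le_one_left (norm_nonneg _) χ.le_one).trans_lt (dist_eq_norm y θ ▸ h)
    · simpa [χ.zero_of_le_dist h] using ε0)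
  obtain ⟨ρ, hρ⟩ : ∃ ρ : R4 → R4, ρ = fun x => (μ x.1, ν x.2.1, θ + g x.2.2) := ⟨_, rfl⟩
  have r1 : ContDiff ℝ ∞ ρ := by rw [hρ]; fun_prop
  have r2 : ∀ x, ρ x ∈ Qd u1 v1 Θ := fun x => hρ ▸ ⟨μ2 _, ν2 _, g4 _⟩
  obtain ⟨Kρ, r3⟩ : ∃ K, LipschitzWith K ρ := ⟨_, hρ ▸ (μ4.comp .prod_fst).prodMk
    ((ν4.comp (LipschitzWith.prod_fst.comp .prod_snd)).prodMk ((LipschitzWith.const θ).add
      (g3.comp (LipschitzWith.prod_snd.comp .prod_snd))))⟩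
  have lv : Le (Qd u1 v1 Θ) (kv k) 1 := hk.le1 fun x hx => hx.2.1.le
  obtain ⟨K, ⟨k1, k2⟩, k0⟩ := (((W.le b3 lv).ev.and (fd_bd (W.le bu.low.low (le_ex1 hk qd_low)) bv
    (W.le b3.e1.low.low lv) (W.le b3.e2.low.low lv))).and (eventually_ge_atTop 0)).exists
  have s0 := fun x => W.sm b3 _ (r2 x)
  have o : IsOpen (Qd u2 v2 univ) := (isOpen_lt continuous_const continuous_fst).inter
    ((isOpen_lt continuous_const continuous_snd.fst).inter (isOpen_univ.preimage continuous_snd.snd))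
  have hΦ : ContDiff ℝ ∞ fun x : R4 => θ - x.2.2 + g x.2.2 := by fun_prop
  have e1 : ∀ x ∈ Qd u2 v2 univ, ρ x = sh (fun x : R4 => θ - x.2.2 + g x.2.2) x := fun x hx => by
    rw [hρ]
    exact Prod.ext (μ3 _ hx.1.le) (Prod.ext (ν3 _ hx.2.1.le) (by simp only [sh]; abel))
  have e2 : ∀ x ∈ Qd u2 v2 univ, (fun y => β0 (ρ y)) =ᶠ[𝓝 x]
      fun y => β0 (sh (fun x : R4 => θ - x.2.2 + g x.2.2) y) := fun x hx =>
    eventually_of_mem (o.mem_nhds hx) fun y hy => congrArg β0 (e1 y hy)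
  have hD : ∀ a x, D a (fun x : R4 => θ - x.2.2 + g x.2.2) x = -a.2.2 + D a (fun x => g x.2.2) x :=
    fun a x => by
      rw [D_add a (by fun_prop) (dif (by fun_prop)), D,
        ((hasFDerivAt_snd (𝕜 := ℝ) (p := x)).snd.const_sub θ).fderiv]
      rfl
  have hw : ∀ a, a = d1 ∨ a = d2 → Sy (Qd u2 v2 univ) 2 (D a fun x : R4 => θ - x.2.2 + g x.2.2) 1 :=
    fun a ha => by
      rw [funext (hD a)]
      exact (W.const _).add ((sy_cs g1 g2).da ha)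
  have w3 := w'_ang (fun _ _ => hΦ.contDiffAt) (hw _ (.inl rfl)) (hw _ (.inr rfl))
  have m : ∀ x ∈ Qd u2 v2 univ, sh (fun x : R4 => θ - x.2.2 + g x.2.2) x ∈ Qd u1 v1 Θ :=
    fun x hx => e1 x hx ▸ r2 x
  have e3 : ∀ x ∈ Qd u2 v2 univ, D du (fun y => β0 (ρ y)) =ᶠ[𝓝 x]
      fun y => D du β0 (sh (fun x : R4 => θ - x.2.2 + g x.2.2) y) := fun x hx => by
    filter_upwards [D_congr du (e2 x hx), o.mem_nhds hx] with y y1 y2
    have : D du (fun x : R4 => g x.2.2) y = 0 := by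
      rw [D, show fderiv ℝ (fun x : R4 => g x.2.2) y = _ from ((g1.differentiable (by simp)
        _).hasFDerivAt.comp y (hasFDerivAt_snd (𝕜 := ℝ) (p := y)).snd).fderiv]
      simp [du, Prod.mk_zero_zero]
    rw [y1, D_sh du (dif (W.sm b3 _ (m y y2))) (dif hΦ.contDiffAt), hD, this]
    simp [du]
  refine ⟨ε / 2, half_pos ε0, (Metric.ball_subset_ball (half_le_self ε0.le)).trans hε,
    fun y => β0 (ρ y), contDiff_iff_contDiffAt.2 fun x => (s0 x).comp x r1.contDiffAt,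
    ⟨K * (Kρ + 1), fun x => ?_, fun x => ?_⟩, fun x hx => congrArg β0 ?_,
    (W.comp b3 ok_ang w3 m).congr e2, (W.comp bu ok_ang w3.1 m).congr e3,
    fun x hx => ⟨_, m x hx, (e3 x hx).self_of_nhds⟩⟩
  · have := k1 _ (r2 x)
    simp only [Pi.one_apply, abs_one, mul_one] at this
    nlinarith [mul_nonneg k0 Kρ.2]
  · rw [fderiv_fun_comp x (dif (s0 x)) (dif r1.contDiffAt)]
    refine (ContinuousLinearMap.opNorm_comp_le _ _).trans (mul_le_mul (k2 _ (r2 x))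
      ((norm_fderiv_le_of_lipschitz ℝ r3).trans (by simp)) (norm_nonneg _) k0)
  · rw [hρ]
    refine Prod.ext (μ3 _ hx.1.le) (Prod.ext (ν3 _ hx.2.1.le) ?_)
    simp [hg, χ.one_of_mem_closedBall (Metric.ball_subset_closedBall hx.2.2)]

lemma Fl.zero (h : Fl β v0 Φ Y) (hb : ∀ x, ‖fderiv ℝ β x‖ ≤ K) (h0 : ∀ x ∈ Rg u2 v0, D du β x = 0) :
    ∀ x ∈ Rg u2 v0, D du Φ x = 0 := fun x hx => by
  obtain ⟨h1, h2⟩ := rg_line x hx
  have d := fun s => hasDerivAt_D dv x (tv x) s (dif (D_smu du h.sΦ).contDiffAt)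
  have := eq_zero_of_abs_deriv_le_mul_abs_self_of_eq_zero_right (K := K)
    (fun s _ => (d s).continuousAt.continuousWithinAt) (fun s _ => (d s).hasDerivWithinAt)
    ((((h.van univ).D (a := du) (by simp [tv, du])) _ trivial).2.self_of_nhds (by simp [dv, tv]))
    (fun s hs => by
      have e := fderiv_eq β (sh Φ (x + (s - tv x) • dv)) (0, 0, D du Φ (x + (s - tv x) • dv))
      simp only [zero_smul, zero_add] at e
      rw [h.eqn, h0 (sh Φ (x + (s - tv x) • dv)) (h2 s (Ico_subset_Icc_self hs)), zero_add, ← e]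
      exact ((fderiv ℝ β _).le_of_opNorm_le (hb _) _).trans_eq (by simp [Prod.norm_def]))
    _ ⟨h1, le_rfl⟩
  simpa using this

lemma Fl.disp (h : Fl β v0 Φ Y) (hP : Pr k P) (hb : ∀ x ∈ Rg u2 v0, ‖β x‖ ≤ K * k (cv x)) :
    ∀ x ∈ Rg u2 v0, ‖Φ x‖ ≤ K * (P (cv x) - P v0) := fun x hx => by
  obtain ⟨h1, h2⟩ := rg_line x hx
  have d := fun s => hasDerivAt_D dv x (tv x) s (dif h.sΦ.contDiffAt)
  have p := fun s => ((hP.der s).sub_const (P v0)).const_mul K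
  have := image_norm_le_of_norm_deriv_right_le_deriv_boundary (B' := fun s => K * k s)
    (fun s _ => (d s).continuousAt.continuousWithinAt) (fun s _ => (d s).hasDerivWithinAt)
    (by rw [h.init _ (by simp [cv, dv, tv])]; simp) p (fun s hs => by
      rw [h.der]
      refine (hb (sh Φ (x + (s - tv x) • dv)) (h2 s (Ico_subset_Icc_self hs))).trans_eq ?_
      simp [cv, dv, tv, sh]) ⟨h1, le_rfl⟩
  simp only [sub_self, zero_smul, add_zero] at this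
  exact this

/-- The domain of the chart of the flow. -/
def Qf (u2 v0 K ε : ℝ) (P : ℝ → ℝ) (θ : ℝ × ℝ) : Set R4 :=
  {x | u2 < cu x ∧ v0 < cv x ∧ K * (P (cv x) - P v0) < ε / 4 ∧ ‖x.2.2 - θ‖ < 3 * ε / 4}

theorem flow_chart (hM : IsSpacetime Reg M) (hS : Sat M) (hk : Wt κ k) (hP : Pr k P)
    (h : Ch M e C (Qd u1 v1 Θ)) (E : Est κ k (Qd u1 v1 Θ) C)
    (h67 : ∀ x ∈ Qd u1 v1 Θ, C 6 x = 0 ∧ C 7 x = 0) (hΘ : IsOpen Θ) (hθ : θ ∈ Θ) (hu : u1 < u2)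
    (hv : v1 < v2) (b3 : Sy (Qd u1 v1 Θ) 3 β0 (kv k)) (bu : Sy (Qd u1 v1 Θ) 2 (D du β0) (ex κ))
    (bv : Sy (Qd u1 v1 Θ) 0 (D dv β0) 1)
    (hσ : T1 (Qd u2 v2 Θ) du (eu κ) 0 (fun x => sv C x - β0 x) (ev κ)) :
    ∃ ε > 0, ∃ K, 0 ≤ K ∧ ∀ v0, v2 < v0 → ∃ β Φ Y e1, Fl β v0 Φ Y ∧ FE κ k (Rg u2 v0) β Φ ∧
      (∀ x ∈ Qf u2 v0 K ε P θ, sh Φ x ∈ Qd u2 v2 Θ ∧ β =ᶠ[𝓝 (sh Φ x)] β0) ∧
      Ch M e1 (newC C Φ) (Qf u2 v0 K ε P θ) ∧ NB κ k (Qf u2 v0 K ε P θ) (newC C Φ) ∧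
      FR κ k (Qf u2 v0 K ε P θ) C Φ ∧ Rel e e1 (sh Φ) (Qf u2 v0 K ε P θ) ∧
      ((∀ x ∈ Qd u1 v1 Θ, D du β0 x = 0) → ∀ x ∈ Rg u2 v0, D du Φ x = 0) ∧ ∀ a, IsFutureCurve M 0 (Ico 0 1) a →
        (∀ᶠ t in 𝓝[<] 1, On e (a t) ∧ u2 < cu (co e (a t)) ∧ v0 < cv (co e (a t)) ∧
          K * (P (cv (co e (a t))) - P v0) < ε / 4) →
        Tendsto (fun t => (co e (a t)).2.2) (𝓝[<] 1) (𝓝 θ) →
        (∃ l, Tendsto (fun t => P (cu (co e (a t))) + P (cv (co e (a t)))) (𝓝[<] 1) (𝓝 l)) →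
        ∃ y, ‖y - θ‖ ≤ ε / 2 ∧ Tendsto (fun t => (co e1 (a t)).2.2) (𝓝[<] 1) (𝓝 y) ∧
          ∀ᶠ t in 𝓝[<] 1, On e1 (a t) ∧ co e1 (a t) ∈ Qf u2 v0 K ε P θ ∧
            cu (co e1 (a t)) = cu (co e (a t)) ∧ cv (co e1 (a t)) = cv (co e (a t)) := by
  obtain ⟨ε, ε0, hε, β, sβ, ⟨Kβ, k1, k2⟩, e1, c3, cu', cz⟩ := exists_ext hk hΘ hθ hu hv b3 bu bv
  obtain ⟨K, K0, hK⟩ := W.bd c3
  refine ⟨ε, ε0, K, K0, fun v0 h0 => ?_⟩
  obtain ⟨Φ, Y, F⟩ := exists_fl sβ k1 k2 v0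
  have s1 : Rg u2 v0 ⊆ Qd u2 v2 univ := fun x hx => ⟨hx.1, h0.trans_le hx.2, trivial⟩
  have s2 : Qf u2 v0 K ε P θ ⊆ Rg u2 v0 := fun x hx => ⟨hx.1, hx.2.1.le⟩
  have fe := F.fe hk hP (W.on c3 s1) (W.on cu' s1)
  have dp := F.disp hP fun x hx => (hK x (s1 hx)).trans_eq (by rw [abs_of_pos (hk.kpos _)])
  have s3 : ∀ x ∈ Qf u2 v0 K ε P θ, sh Φ x ∈ Qd u2 v2 (Metric.ball θ ε) := fun x hx =>
    ⟨hx.1, h0.trans hx.2.1, mem_ball_iff_norm.2 (by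
      rw [show (sh Φ x).2.2 - θ = x.2.2 - θ + Φ x by simp only [sh]; abel]
      linarith [norm_add_le (x.2.2 - θ) (Φ x), dp x (s2 hx), hx.2.2.1, hx.2.2.2])⟩
  have s4 : Qd u2 v2 (Metric.ball θ ε) ⊆ Qd u2 v2 Θ := fun x hx => ⟨hx.1, hx.2.1, hε hx.2.2⟩
  have s5 : Qd u2 v2 Θ ⊆ Qd u1 v1 Θ := fun x hx => ⟨hu.trans hx.1, hv.trans hx.2.1, hx.2.2⟩
  have s6 := s4.trans s5
  have o : IsOpen (Qd u2 v2 (Metric.ball θ ε)) := (isOpen_lt continuous_const continuous_fst).inter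
    ((isOpen_lt continuous_const continuous_snd.fst).inter
      (Metric.isOpen_ball.preimage continuous_snd.snd))
  have e2 : ∀ x ∈ Qd u2 v2 (Metric.ball θ ε), β =ᶠ[𝓝 x] β0 := fun x hx =>
    eventually_of_mem (o.mem_nhds hx) e1
  have E' : Est κ k (Qd u2 v2 (Metric.ball θ ε)) C :=
    ⟨fun i hi => ⟨W.on (E.gam i hi).1 s6, W.on (E.gam i hi).2.1 s6, W.on (E.gam i hi).2.2.1 s6,
      W.on (E.gam i hi).2.2.2.1 s6, W.on (E.gam i hi).2.2.2.2 s6⟩,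
    fun om ho => ⟨W.on (E.om om ho).1 s6, W.on (E.om om ho).2.1 s6, W.on (E.om om ho).2.2 s6⟩,
    E.low.imp fun _ h => ⟨h.1, fun x hx => h.2 x (s6 hx)⟩,
    fun i hi => ⟨W.on (E.sh i hi).1 s6, W.on (E.sh i hi).2.1 s6, W.on (E.sh i hi).2.2 s6⟩⟩
  obtain ⟨N, R⟩ := F.nb hk (fe.on s2) qd_low E' s3 (fun x hx => h67 x (s6 hx))
    ((W.on hσ s4).congr fun x hx => (e2 x hx).mono fun y hy => by simp only [hy])
  have o2 : IsOpen (Qf u2 v0 K ε P θ) := (isOpen_lt continuous_const continuous_fst).inter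
    ((isOpen_lt continuous_const continuous_snd.fst).inter ((isOpen_lt (continuous_const.mul
      ((hP.cont.comp continuous_snd.fst).sub continuous_const)) continuous_const).inter
      (isOpen_lt (continuous_snd.snd.sub continuous_const).norm continuous_const)))
  obtain ⟨e', ch, rel⟩ := h.trans (C' := newC C Φ) hM hS o2 (contDiff_iff_contDiffAt.2 fun x =>
    sh_sm F.sY.contDiffAt) F.right fun x hx => ⟨sh_sm F.sΦ.contDiffAt, s6 (s3 x hx), F.left x,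
      form_new (dif F.sΦ.contDiffAt) (F.det_ne x) (h67 _ (s6 (s3 x hx))).1 (h67 _ (s6 (s3 x hx))).2,
      fun a _ ha => by rwa [fderiv_sh (dif F.sΦ.contDiffAt)] at ha, pos_of_low N.low hx⟩
  refine ⟨β, Φ, Y, e', F, fe, fun x hx => ⟨s4 (s3 x hx), e2 _ (s3 x hx)⟩, ch, N, R, rel,
    fun hz => F.zero k2 fun x hx => (cz x (s1 hx)).elim fun z h => h.2.trans (hz z h.1), ?_⟩
  rintro a ha a1 a2 ⟨l, a3⟩
  have ev : ∀ᶠ t in 𝓝[<] 1, (On e' (a t) ∧ co e' (a t) ∈ Qf u2 v0 K ε P θ ∧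
      cu (co e' (a t)) = cu (co e (a t)) ∧ cv (co e' (a t)) = cv (co e (a t))) ∧
      ‖(co e' (a t)).2.2 - θ‖ ≤ ε / 2 := by
    filter_upwards [a1, a2.eventually (Metric.ball_mem_nhds _ (show 0 < ε / 4 by positivity))]
      with t t1 t2
    have t3 := dp (sh Y (co e (a t))) ⟨t1.2.1, t1.2.2.1.le⟩
    have t4 : ‖(sh Y (co e (a t))).2.2 - θ‖ ≤ ε / 2 := by
      have e3 : (sh Y (co e (a t))).2.2 + Φ (sh Y (co e (a t))) = (co e (a t)).2.2 :=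
        congrArg (fun z : R4 => z.2.2) (F.right _)
      rw [eq_sub_of_add_eq e3, sub_right_comm]
      have t5 : K * (P (cv (sh Y (co e (a t)))) - P v0) < ε / 4 := t1.2.2.2
      linarith [norm_sub_le ((co e (a t)).2.2 - θ) (Φ (sh Y (co e (a t)))), mem_ball_iff_norm.1 t2]
    have t5 : sh Y (co e (a t)) ∈ Qf u2 v0 K ε P θ := ⟨t1.2.1, t1.2.2.1, t1.2.2.2, by linarith⟩
    obtain ⟨r1, r2⟩ := (rel _ _ t5).2 ⟨t1.1, (F.right _).symm⟩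
    rw [r2]
    exact ⟨⟨r1, t5, rfl, rfl⟩, t4⟩
  obtain ⟨K', -, hb⟩ := N.tb hk
  obtain ⟨y, hy⟩ := conv hM ch hb hP ha (ev.mono fun t ht => ⟨ht.1.1, ht.1.2.1⟩)
    (a3.congr' (ev.mono fun t ht => by simp only [ht.1.2.2.1, ht.1.2.2.2]))
  exact ⟨y, le_of_tendsto (hy.sub_const θ).norm (ev.mono fun t ht => ht.2), hy,
    ev.mono fun t ht => ht.1⟩

/-- The exponential decay along a curve. -/
lemma line_ok {E : Type} [NormedAddCommGroup E] [NormedSpace ℝ E] {l : R4 → R4} {χ : ℕ → R4 → ℝ}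
    {al : R4 → E} (hκ : 0 < κ) (h : Dom Q l χ al) {c c' : ℝ → R4} {m : ℕ → ℝ → ℝ} {t0 q1 : ℝ}
    (hc : ∀ t, t0 < t → HasDerivAt c (c' t) t ∧ c t ∈ Q ∧ ‖c' t‖ ≤ K ∧
      ‖c' t - l (c t)‖ ≤ K * Real.exp (-(κ * t)) ∧
      ∀ i < 3, |χ i (c t)| ≤ K * (|m 0 t| + |m 1 t| + |m 2 t| + Real.exp (-(κ * t))))
    (hi : ∀ i < 3, IntegrableOn (fun t => Real.exp (κ * t) * m i t ^ 2) (Ioi q1)) :
    ∀ᶠ t in atTop, ‖al (c t)‖ + ‖DL l al (c t)‖ ≤ Real.exp (-(κ / 8 * t)) := by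
  obtain ⟨K0, h0⟩ := h.le
  obtain ⟨K1, ⟨h1, h2⟩, h3⟩ := (((fd_all h.b0).and (fd_all h.b1)).and
    (eventually_ge_atTop (9 * |K0|))).exists
  have p0 : 0 ≤ K := (norm_nonneg _).trans (hc _ (lt_add_one t0)).2.2.1
  have p1 : 0 ≤ K1 := le_trans (by positivity) h3
  have d : ∀ {f : R4 → E}, W Q [all] f 1 → ∀ t, t0 < t →
      HasDerivAt (fun t => f (c t)) (fderiv ℝ f (c t) (c' t)) t := fun hf t ht =>
    (dif (hf.sm _ (hc t ht).2.1)).hasFDerivAt.comp_hasDerivAt t (hc t ht).1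
  have b : ∀ {f : R4 → E}, (∀ x ∈ Q, ‖fderiv ℝ f x‖ ≤ K1) → ∀ t, t0 < t → ∀ w z, ‖w‖ ≤ K * z →
      ‖fderiv ℝ f (c t) w‖ ≤ K1 * K * z := fun hf t ht w z hw =>
    ((fderiv ℝ _ (c t)).le_of_opNorm_le (hf _ (hc t ht).2.1) w).trans
      (mul_assoc K1 K z ▸ mul_le_mul_of_nonneg_left hw p1)
  refine P354LL.line E κ (K1 * K) (max t0 q1) _ _ (fun t => fderiv ℝ al (c t) (c' t - l (c t)))
    (fun t => √(m 0 t ^ 2 + m 1 t ^ 2 + m 2 t ^ 2)) hκ (fun t ht => ?_) ?_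
  · have ht' := (le_max_left _ _).trans_lt ht
    obtain ⟨-, c2, c3, c4, c5⟩ := hc t ht'
    have e : DL l al (c t) + fderiv ℝ al (c t) (c' t - l (c t)) = fderiv ℝ al (c t) (c' t) := by
      simp [DL]
    refine ⟨e ▸ d h.b0 t ht', e ▸ mul_one (K1 * K) ▸ b h1 t ht' _ _ (by simpa using c3),
      b h1 t ht' _ _ c4, fun s hs => ?_, ?_⟩
    · exact (convex_Ioi t0).norm_image_sub_le_of_norm_hasDerivWithin_le
        (fun r hr => (d h.b1 r hr).hasDerivWithinAt) (fun r hr => mul_one (K1 * K) ▸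
          b h2 r hr _ _ (by simpa using (hc r hr).2.2.1)) ht' ((le_max_left _ _).trans_lt hs)
    · have m0 : |m 0 t| ≤ √(m 0 t ^ 2 + m 1 t ^ 2 + m 2 t ^ 2) := Real.abs_le_sqrt (by nlinarith)
      have m1 : |m 1 t| ≤ √(m 0 t ^ 2 + m 1 t ^ 2 + m 2 t ^ 2) := Real.abs_le_sqrt (by nlinarith)
      have m2 : |m 2 t| ≤ √(m 0 t ^ 2 + m 1 t ^ 2 + m 2 t ^ 2) := Real.abs_le_sqrt (by nlinarith)
      rw [abs_of_nonneg (Real.sqrt_nonneg _)]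
      have x0 := Real.exp_pos (-(κ * t))
      have n := Real.sqrt_nonneg (m 0 t ^ 2 + m 1 t ^ 2 + m 2 t ^ 2)
      have e1 := c5 0 (by simp)
      have e2 := c5 1 (by simp)
      have e3 := c5 2 (by simp)
      generalize √(m 0 t ^ 2 + m 1 t ^ 2 + m 2 t ^ 2) = z at *
      generalize Real.exp (-(κ * t)) = η at *
      have e4 := mul_le_mul_of_nonneg_left
        (show |m 0 t| + |m 1 t| + |m 2 t| + η ≤ 3 * (z + η) by linarith) p0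
      calc _ ≤ |K0| * (|χ 0 (c t)| + |χ 1 (c t)| + |χ 2 (c t)|) := (h0 _ c2).trans
            (mul_le_mul_of_nonneg_right (le_abs_self _) (by positivity))
        _ ≤ |K0| * (9 * (K * (z + η))) := mul_le_mul_of_nonneg_left (by linarith) (abs_nonneg _)
        _ = 9 * |K0| * (K * (z + η)) := by ring
        _ ≤ _ := by rw [mul_assoc K1]; gcongr
  · refine ((((hi 0 (by simp)).add (hi 1 (by simp))).add (hi 2 (by simp))).mono_set
      (Ioi_subset_Ioi (le_max_right _ _))).congr (.of_forall fun t => ?_)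
    simp only [Pi.add_apply]
    rw [Real.sq_sqrt (by positivity)]
    ring

end Vale.Agent.P354L
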