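import Vale.Agent.P354L.Lin

/-!
Two self-contained steps of the blow-up argument.
-/

open scoped ContDiff
open MeasureTheory Set Filter Topology

namespace Vale.Agent.P354L

open Vale.Agent.P354n (R4 cu cv du dv)

/-- Interpolation along a line: f' = g + h with g Lipschitz and h exponentially small. -/
def LINE : Prop :=
  ∀ (E : Type) [NormedAddCommGroup E] [NormedSpace ℝ E] (κ K t0 : ℝ) (f g h : ℝ → E) (m : ℝ → ℝ),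
    0 < κ → (∀ t, t0 < t → HasDerivAt f (g t + h t) t ∧ ‖g t + h t‖ ≤ K ∧
      ‖h t‖ ≤ K * Real.exp (-(κ * t)) ∧ (∀ s, t0 < s → ‖g s - g t‖ ≤ K * |s - t|) ∧
      ‖f t‖ ≤ K * (|m t| + Real.exp (-(κ * t)))) →
    IntegrableOn (fun t => Real.exp (κ * t) * m t ^ 2) (Ioi t0) →
    ∀ᶠ t in atTop, ‖f t‖ + ‖g t‖ ≤ Real.exp (-(κ / 8 * t))

/-- From boxes to lines: sh Φ maps the lines of direction v to curves along which F is not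
exponentially small, for a non null set of lines in every box. -/
def MEAS : Prop :=
  ∀ (c K p0 q0 : ℝ) (Θ : Set (ℝ × ℝ)) (F : R4 → ℝ) (Φ Y : R4 → ℝ × ℝ) (k P : ℝ → ℝ),
    BU c Θ F → Pr k P → ContDiff ℝ ∞ Φ → ContDiff ℝ ∞ Y → (∀ x, sh Y (sh Φ x) = x) →
    (∀ x, sh Φ (sh Y x) = x) → (∀ t, q0 < t → k t ≤ K) →
    (∀ x, p0 < cu x → q0 < cv x → ‖D du Φ x‖ ≤ K ∧ ‖D dv Φ x‖ ≤ K * k (cv x) ∧ ‖D d1 Φ x‖ ≤ K ∧
      ‖D d2 Φ x‖ ≤ K ∧ ∀ a : R4, cu a = 0 → cv a = 0 → ‖a‖ ≤ K * ‖fderiv ℝ (sh Φ) x a‖) →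
    ∀ (p r : ℝ) (y : ℝ × ℝ), 0 < r → p0 < p - r →
      (∀ x, |cu x - p| < r → q0 < cv x → ‖x.2.2 - y‖ < r →
        (sh Φ x).2.2 ∈ Θ ∧ ContinuousAt F (sh Φ x)) →
      volume {x : R4 | |cu x - p| < r ∧ cv x ∈ Ioo 0 1 ∧ ‖x.2.2 - y‖ < r ∧
        ¬ ∀ᶠ q in atTop, F (sh Φ (cu x, q, x.2.2)) ≤ Real.exp (-(c * q))} ≠ 0

end Vale.Agent.P354L
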